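import Vale.Agent.HDX.Q.LinkCone

open Finset Module

namespace Vale.Agent.HDX.Q

variable (p : ℕ) [Fact p.Prime]

/-- The number of subspaces of dimension `s` in a space of dimension `m`. -/
noncomputable def subCount (m s : ℕ) : ℕ :=
  Nat.card {W : Submodule (ZMod p) (Fin m → ZMod p) // finrank (ZMod p) W = s}

variable {p}

section General

variable {V : Type*} [AddCommGroup V] [Module (ZMod p) V] [FiniteDimensional (ZMod p) V]

/-- Counting the subspaces of an interval. -/
lemma card_interval_subspaces {X Y : Submodule (ZMod p) V} (h : X ≤ Y) (s : ℕ) :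
    Nat.card {Z : Submodule (ZMod p) V //
        X ≤ Z ∧ Z ≤ Y ∧ finrank (ZMod p) Z = finrank (ZMod p) X + s} =
      subCount p (finrank (ZMod p) Y - finrank (ZMod p) X) s := by
  obtain ⟨c, hc⟩ := exists_isCompl X
  set W : Submodule (ZMod p) V := Y ⊓ c with hW
  have hXW : X ⊓ W = ⊥ := le_bot_iff.mp ((inf_le_inf_left X inf_le_right).trans hc.inf_eq_bot.le)
  have hfib : ∀ Z, X ≤ Z → Z ≤ Y → X ⊔ (W ⊓ Z) = Z := by
    intro Z h1 h2
    rw [hW, inf_right_comm, inf_eq_right.mpr h2, inf_comm Z c, ← sup_inf_assoc_of_le c h1,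
      hc.sup_eq_top, top_inf_eq]
  have hback : ∀ U : Submodule (ZMod p) V, U ≤ W → W ⊓ (X ⊔ U) = U := by
    intro U hU
    rw [inf_comm, sup_comm, sup_inf_assoc_of_le X hU, hXW, sup_bot_eq]
  have hrk : ∀ U : Submodule (ZMod p) V, U ≤ W →
      finrank (ZMod p) ↥(X ⊔ U) = finrank (ZMod p) X + finrank (ZMod p) U := by
    intro U hU
    have h1 := Submodule.finrank_sup_add_finrank_inf_eq X U
    rw [le_bot_iff.mp ((inf_le_inf_left X hU).trans hXW.le), finrank_bot] at h1
    omega
  have hsub : ∀ U : Submodule (ZMod p) W,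
      finrank (ZMod p) ↥(U.map W.subtype) = finrank (ZMod p) U :=
    fun U => Submodule.finrank_map_subtype_eq W U
  have hWr : finrank (ZMod p) W = finrank (ZMod p) Y - finrank (ZMod p) X := by
    have h1 := hrk W le_rfl
    have h2 : X ⊔ W = Y := by simpa [hW] using hfib Y h le_rfl
    rw [h2] at h1
    omega
  let e : W ≃ₗ[ZMod p] (Fin (finrank (ZMod p) Y - finrank (ZMod p) X) → ZMod p) :=
    LinearEquiv.ofFinrankEq _ _ (by rw [hWr, finrank_fin_fun])
  have hto : ∀ Z, X ≤ Z → Z ≤ Y →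
      finrank (ZMod p) Z = finrank (ZMod p) X + finrank (ZMod p) (Z.comap W.subtype) := by
    intro Z h1 h2
    rw [← hsub, Submodule.map_comap_subtype, ← hrk _ inf_le_left, hfib Z h1 h2]
  let E : {Z : Submodule (ZMod p) V //
        X ≤ Z ∧ Z ≤ Y ∧ finrank (ZMod p) Z = finrank (ZMod p) X + s} ≃
      {U : Submodule (ZMod p) W // finrank (ZMod p) U = s} :=
    { toFun := fun Z => ⟨Z.1.comap W.subtype, by
        have := hto Z.1 Z.2.1 Z.2.2.1
        have := Z.2.2.2
        omega⟩
      invFun := fun U => ⟨X ⊔ U.1.map W.subtype, le_sup_left,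
        sup_le h ((Submodule.map_subtype_le _ _).trans inf_le_left), by
          rw [hrk _ (Submodule.map_subtype_le _ _), hsub, U.2]⟩
      left_inv := fun Z => Subtype.ext (by
        simp only [Submodule.map_comap_subtype]
        exact hfib Z.1 Z.2.1 Z.2.2.1)
      right_inv := fun U => Subtype.ext (by
        apply Submodule.map_injective_of_injective W.injective_subtype
        simp only [Submodule.map_comap_subtype]
        exact hback _ (Submodule.map_subtype_le _ _)) }
  rw [Nat.card_congr E, subCount]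
  refine Nat.card_congr (Equiv.subtypeEquiv (Submodule.orderIsoMapComap e).toEquiv fun U => ?_)
  rw [show (Submodule.orderIsoMapComap e).toEquiv U = U.map (e : W →ₗ[ZMod p] _) from rfl,
    LinearEquiv.finrank_map_eq]

/-- Glue two linear equivalences along complements. -/
noncomputable def glue {P Q P' Q' : Submodule (ZMod p) V} (h : IsCompl P Q) (h' : IsCompl P' Q')
    (e₁ : P ≃ₗ[ZMod p] P') (e₂ : Q ≃ₗ[ZMod p] Q') : V ≃ₗ[ZMod p] V :=
  (Submodule.prodEquivOfIsCompl P Q h).symm.trans
    ((e₁.prodCongr e₂).trans (Submodule.prodEquivOfIsCompl P' Q' h'))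

lemma glue_left {P Q P' Q' : Submodule (ZMod p) V} (h : IsCompl P Q) (h' : IsCompl P' Q')
    (e₁ : P ≃ₗ[ZMod p] P') (e₂ : Q ≃ₗ[ZMod p] Q') (x : P) :
    glue h h' e₁ e₂ x = e₁ x := by
  simp [glue, Submodule.prodEquivOfIsCompl_symm_apply_left]

lemma glue_right {P Q P' Q' : Submodule (ZMod p) V} (h : IsCompl P Q) (h' : IsCompl P' Q')
    (e₁ : P ≃ₗ[ZMod p] P') (e₂ : Q ≃ₗ[ZMod p] Q') (x : Q) :
    glue h h' e₁ e₂ x = e₂ x := by
  simp [glue, Submodule.prodEquivOfIsCompl_symm_apply_right]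

/-- Subspaces of equal dimension are moved to each other. -/
lemma exists_equiv_map {A A' : Submodule (ZMod p) V}
    (h : finrank (ZMod p) A = finrank (ZMod p) A') :
    ∃ e : V ≃ₗ[ZMod p] V, A.map (e : V →ₗ[ZMod p] V) = A' := by
  obtain ⟨c, hc⟩ := exists_isCompl A
  obtain ⟨c', hc'⟩ := exists_isCompl A'
  have h1 := Submodule.finrank_add_eq_of_isCompl hc
  have h2 := Submodule.finrank_add_eq_of_isCompl hc'
  let e₁ : A ≃ₗ[ZMod p] A' := LinearEquiv.ofFinrankEq _ _ h
  refine ⟨glue hc hc' e₁ (LinearEquiv.ofFinrankEq _ _ (by omega)), ?_⟩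
  refine Submodule.eq_of_le_of_finrank_eq (Submodule.map_le_iff_le_comap.mpr fun x hx => ?_) ?_
  · show glue hc hc' e₁ _ x ∈ A'
    rw [glue_left hc hc' e₁ _ ⟨x, hx⟩]
    exact (e₁ ⟨x, hx⟩).2
  · rw [LinearEquiv.finrank_map_eq, h]

/-- An equivalence fixing `M` and moving `A` to `A'`. -/
lemma exists_equiv_fix {M A A' : Submodule (ZMod p) V} (hA : M ≤ A) (hA' : M ≤ A')
    (h : finrank (ZMod p) A = finrank (ZMod p) A') :
    ∃ u : V ≃ₗ[ZMod p] V, (∀ x ∈ M, u x = x) ∧ A.map (u : V →ₗ[ZMod p] V) = A' := by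
  obtain ⟨c, hc⟩ := exists_isCompl M
  have hsplit : ∀ B, M ≤ B → M ⊔ c ⊓ B = B := fun B hB => by
    rw [← sup_inf_assoc_of_le c hB, hc.sup_eq_top, top_inf_eq]
  have hrk : ∀ B, M ≤ B →
      finrank (ZMod p) B = finrank (ZMod p) M + finrank (ZMod p) (B.comap c.subtype) := by
    intro B hB
    rw [← Submodule.finrank_map_subtype_eq c, Submodule.map_comap_subtype]
    have h1 := Submodule.finrank_sup_add_finrank_inf_eq M (c ⊓ B)
    rw [hsplit B hB, le_bot_iff.mp ((inf_le_inf_left M inf_le_left).trans hc.inf_eq_bot.le),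
      finrank_bot] at h1
    omega
  obtain ⟨w, hw⟩ := exists_equiv_map (A := A.comap c.subtype) (A' := A'.comap c.subtype)
    (by have := hrk A hA; have := hrk A' hA'; omega)
  set u := glue hc hc (LinearEquiv.refl (ZMod p) M) w with hu
  have hfix : ∀ x ∈ M, u x = x := fun x hx => by
    rw [hu, glue_left hc hc _ _ ⟨x, hx⟩]; rfl
  refine ⟨u, hfix, Submodule.eq_of_le_of_finrank_eq ?_ (by rw [LinearEquiv.finrank_map_eq, h])⟩
  rw [← hsplit A hA, Submodule.map_sup]
  refine sup_le (Submodule.map_le_iff_le_comap.mpr fun x hx => ?_)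
    (Submodule.map_le_iff_le_comap.mpr fun x hx => ?_)
  · show u x ∈ A'
    rw [hfix x hx]; exact hA' hx
  · show u x ∈ A'
    rw [hu, glue_right hc hc _ _ ⟨x, hx.1⟩]
    have : w ⟨x, hx.1⟩ ∈ A'.comap c.subtype := by
      rw [← hw]
      exact Submodule.mem_map_of_mem (Submodule.mem_comap.mpr hx.2)
    exact this

end General

lemma subCount_pos {m s : ℕ} (h : s ≤ m) : 0 < subCount p m s := by
  refine Nat.card_pos_iff.mpr ⟨⟨⟨Submodule.span (ZMod p)
    (Set.range ((Pi.basisFun (ZMod p) (Fin m)) ∘ Fin.castLE h)), ?_⟩⟩, inferInstance⟩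
  exact (finrank_span_eq_card ((Pi.basisFun (ZMod p) (Fin m)).linearIndependent.comp _
    (Fin.castLE_injective h))).trans (Fintype.card_fin s)

lemma subCount_zero {m s : ℕ} (h : m < s) : subCount p m s = 0 := by
  refine Nat.card_eq_zero.mpr (Or.inl ⟨fun W => ?_⟩)
  have h1 := Submodule.finrank_le W.1
  rw [finrank_fin_fun, W.2] at h1
  omega

lemma subCount_le_pow (m s : ℕ) : subCount p m s ≤ p ^ (m * s) := by
  let f : {W : Submodule (ZMod p) (Fin m → ZMod p) // finrank (ZMod p) W = s} →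
      (Fin s → Fin m → ZMod p) :=
    fun W i => (Module.finBasisOfFinrankEq (ZMod p) W.1 W.2 i : Fin m → ZMod p)
  have hspan : ∀ W, Submodule.span (ZMod p) (Set.range (f W)) = W.1 := by
    intro W
    rw [show f W = W.1.subtype ∘ Module.finBasisOfFinrankEq (ZMod p) W.1 W.2 from rfl,
      Set.range_comp, Submodule.span_image, Module.Basis.span_eq, Submodule.map_top,
      Submodule.range_subtype]
  refine (Nat.card_le_card_of_injective f fun W W' h => Subtype.ext ?_).trans_eq ?_
  · rw [← hspan W, ← hspan W', h]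
  · simp [pow_mul]

lemma subCount_symm {m s : ℕ} (h : s ≤ m) : subCount p m (m - s) = subCount p m s := by
  let e : Module.Dual (ZMod p) (Fin m → ZMod p) ≃ₗ[ZMod p] (Fin m → ZMod p) :=
    LinearEquiv.ofFinrankEq _ _ Subspace.dual_finrank_eq
  let E : Submodule (ZMod p) (Fin m → ZMod p) ≃ Submodule (ZMod p) (Fin m → ZMod p) :=
    ((Subspace.orderIsoFiniteDimensional (K := ZMod p) (V := Fin m → ZMod p)).toEquiv.trans
      OrderDual.ofDual).trans (Submodule.orderIsoMapComap e).toEquiv
  refine Nat.card_congr (Equiv.subtypeEquiv E fun W => ?_)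
  have h1 := Subspace.finrank_add_finrank_dualAnnihilator_eq W
  rw [finrank_fin_fun] at h1
  rw [show E W = (Submodule.dualAnnihilator W).map (e : _ →ₗ[ZMod p] _) from rfl,
    LinearEquiv.finrank_map_eq]
  omega

lemma subCount_one {m : ℕ} (hm : 1 ≤ m) :
    p ^ (m - 1) ≤ subCount p m 1 ∧ subCount p m 1 ≤ 2 * p ^ (m - 1) := by
  have hp : 2 ≤ p := (Fact.out : p.Prime).two_le
  have h1 := Projectivization.card (ZMod p) (Fin m → ZMod p)
  rw [Nat.card_congr (Projectivization.equivSubmodule (ZMod p) (Fin m → ZMod p)),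
    Nat.card_fun, Nat.card_zmod, Nat.card_fin] at h1
  change p ^ m - 1 = subCount p m 1 * (p - 1) at h1
  obtain ⟨n, rfl⟩ : ∃ n, m = n + 1 := ⟨m - 1, by omega⟩
  rw [Nat.add_sub_cancel]
  have hpn : 1 ≤ p ^ n := Nat.one_le_pow _ _ (by omega)
  constructor
  · refine Nat.le_of_mul_le_mul_right ?_ (by omega : 0 < p - 1)
    rw [← h1, pow_succ, Nat.mul_sub, Nat.mul_one]
    omega
  · refine Nat.le_of_mul_le_mul_right ?_ (by omega : 0 < p - 1)
    rw [← h1, pow_succ]
    calc p ^ n * p - 1 ≤ p ^ n * p := Nat.sub_le _ _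
      _ ≤ p ^ n * (2 * (p - 1)) := Nat.mul_le_mul_left _ (by omega)
      _ = _ := by ring

variable (p)

noncomputable instance subspaceFintype (N : ℕ) :
    Fintype (Submodule (ZMod p) (Fin N → ZMod p)) := Fintype.ofFinite _

noncomputable instance subspaceDecEq (N : ℕ) :
    DecidableEq (Submodule (ZMod p) (Fin N → ZMod p)) := Classical.decEq _

/-- The geometry of subspaces. -/
noncomputable def fieldGeo (N : ℕ) :
    Geo (Submodule (ZMod p) (Fin N → ZMod p)) p (subCount p) where
  rk X := finrank (ZMod p) X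
  mono h := Submodule.finrank_mono h
  strict h h' := Submodule.eq_of_le_of_finrank_le h h'
  modular X Y := Submodule.finrank_sup_add_finrank_inf_eq X Y
  count s h := card_interval_subspaces h s
  G_pos h := subCount_pos h
  G_zero h := subCount_zero h
  q_two := (Fact.out : p.Prime).two_le
  G_one _ hm := subCount_one hm
  G_coatom _ hm := subCount_symm hm

lemma fieldGeo_rk {N : ℕ} (X : Submodule (ZMod p) (Fin N → ZMod p)) :
    (fieldGeo p N).rk X = finrank (ZMod p) X := rfl

lemma fieldGeo_bot (N : ℕ) : (fieldGeo p N).rk ⊥ = 0 := finrank_bot _ _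

lemma fieldGeo_top (N : ℕ) : (fieldGeo p N).rk ⊤ = N := by
  rw [fieldGeo_rk, finrank_top, finrank_fin_fun]

/-- The general linear group moves any complete chain to any other. -/
lemma field_homog (N a b : ℕ) : Homog (fieldGeo p N) a b := by
  classical
  intro T hT T' hT'
  by_cases hab : a ≤ b
  swap
  · refine ⟨OrderIso.refl _, fun _ => rfl, ?_⟩
    have h1 := (mem_flags.mp hT).2
    have h2 := (mem_flags.mp hT').2
    rw [Finset.card_eq_zero.mp (by omega : T.card = 0),
      Finset.card_eq_zero.mp (by omega : T'.card = 0), Finset.image_empty]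
  have hTf := (mem_flags.mp hT).1
  have hT'f := (mem_flags.mp hT').1
  have key : ∀ n, a + n ≤ b → ∃ e : (Fin N → ZMod p) ≃ₗ[ZMod p] (Fin N → ZMod p),
      ∀ S ∈ T, (fieldGeo p N).rk S ≤ a + n →
        S.map (e : (Fin N → ZMod p) →ₗ[ZMod p] (Fin N → ZMod p)) ∈ T' := by
    intro n
    induction n with
    | zero =>
      intro hn
      obtain ⟨A, hA, hAr⟩ := exists_rank_mem hT le_rfl hab
      obtain ⟨A', hA', hA'r⟩ := exists_rank_mem hT' le_rfl hab
      obtain ⟨u, -, hu⟩ := exists_equiv_fix (M := (⊥ : Submodule (ZMod p) (Fin N → ZMod p)))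
        (A := A) (A' := A') bot_le bot_le (hAr.trans hA'r.symm)
      refine ⟨u, fun S hS hSr => ?_⟩
      rw [hTf.injOn hS hA (le_antisymm (hSr.trans hAr.ge) (hAr.le.trans (hTf.1 S hS).1)), hu]
      exact hA'
    | succ n ih =>
      intro hn
      obtain ⟨e₀, he₀⟩ := ih (by omega)
      obtain ⟨M, hM, hMr⟩ := exists_rank_mem hT (r := a + n) (by omega) (by omega)
      obtain ⟨A, hA, hAr⟩ := exists_rank_mem hT (r := a + (n + 1)) (by omega) (by omega)
      obtain ⟨A', hA', hA'r⟩ := exists_rank_mem hT' (r := a + (n + 1)) (by omega) (by omega)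
      have hM' := he₀ M hM hMr.le
      have hM'r : (fieldGeo p N).rk
          (M.map (e₀ : (Fin N → ZMod p) →ₗ[ZMod p] (Fin N → ZMod p))) = a + n := by
        rw [fieldGeo_rk, LinearEquiv.finrank_map_eq]; exact hMr
      obtain ⟨u, hfix, hu⟩ := exists_equiv_fix
        (Submodule.map_mono (f := (e₀ : (Fin N → ZMod p) →ₗ[ZMod p] (Fin N → ZMod p))) (hTf.le_of_rk hM hA (by omega)))
        (hT'f.le_of_rk hM' hA' (by omega))
        (by rw [LinearEquiv.finrank_map_eq]; exact hAr.trans hA'r.symm)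
      refine ⟨e₀.trans u, fun S hS hSr => ?_⟩
      rw [LinearEquiv.coe_trans, Submodule.map_comp]
      rcases Nat.lt_or_ge ((fieldGeo p N).rk S) (a + (n + 1)) with hlt | hge
      · have hid : (S.map (e₀ : (Fin N → ZMod p) →ₗ[ZMod p] (Fin N → ZMod p))).map (u : (Fin N → ZMod p) →ₗ[ZMod p] (Fin N → ZMod p)) =
            S.map (e₀ : (Fin N → ZMod p) →ₗ[ZMod p] (Fin N → ZMod p)) := by
          refine Submodule.eq_of_le_of_finrank_eq (Submodule.map_le_iff_le_comap.mpr fun x hx => ?_)
            (LinearEquiv.finrank_map_eq u _)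
          show u x ∈ S.map (e₀ : (Fin N → ZMod p) →ₗ[ZMod p] (Fin N → ZMod p))
          rwa [hfix x (Submodule.map_mono (hTf.le_of_rk hS hM (by omega)) hx)]
        rw [hid]
        exact he₀ S hS (by omega)
      · rw [hTf.injOn hS hA (le_antisymm (hSr.trans hAr.ge) (hAr.le.trans hge)), hu]
        exact hA'
  obtain ⟨e, he⟩ := key (b - a) (by omega)
  refine ⟨Submodule.orderIsoMapComap e, fun X => LinearEquiv.finrank_map_eq e X, ?_⟩
  refine Finset.eq_of_subset_of_card_le (fun S hS => ?_) ?_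
  · obtain ⟨S, hS', rfl⟩ := Finset.mem_image.mp hS
    exact he S hS' (by have := (hTf.1 S hS').2; omega)
  · rw [Finset.card_image_of_injective _ (OrderIso.injective _), (mem_flags.mp hT).2,
      (mem_flags.mp hT').2]

/-- There are many subspaces of middle dimension. -/
lemma pow_le_subCount (k : ℕ) : p ^ (k * k) ≤ subCount p (2 * k) k := by
  let ι : ((Fin k → ZMod p) × (Fin k → ZMod p)) ≃ₗ[ZMod p] (Fin (2 * k) → ZMod p) :=
    LinearEquiv.ofFinrankEq _ _ (by simp; omega)
  let f : ((Fin k → ZMod p) →ₗ[ZMod p] (Fin k → ZMod p)) →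
      {W : Submodule (ZMod p) (Fin (2 * k) → ZMod p) // finrank (ZMod p) W = k} :=
    fun A => ⟨LinearMap.range (ι.toLinearMap.comp (LinearMap.id.prod A)), by
      rw [LinearMap.finrank_range_of_inj]
      · exact finrank_fin_fun _
      · intro x y h
        exact congrArg Prod.fst (ι.injective h)⟩
  have hinj : Function.Injective f := by
    intro A B h
    refine LinearMap.ext fun x => ?_
    have hmem : ι (x, A x) ∈ LinearMap.range (ι.toLinearMap.comp (LinearMap.id.prod B)) := by
      have h' : (f A).1 = (f B).1 := congrArg Subtype.val h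
      have hm : ι (x, A x) ∈ (f A).1 := ⟨x, rfl⟩
      rw [h'] at hm
      exact hm
    obtain ⟨y, hy⟩ := hmem
    have h2 : (y, B y) = (x, A x) := ι.injective hy
    obtain ⟨h3, h4⟩ := Prod.mk.inj h2
    rw [← h4, h3]
  refine le_trans (le_of_eq ?_) (Nat.card_le_card_of_injective f hinj)
  rw [Module.natCard_eq_pow_finrank (K := ZMod p), Nat.card_zmod, Module.finrank_linearMap,
    finrank_fin_fun]

end Vale.Agent.HDX.Q
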