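import Vale.Agent.HDX.Q.Geo
import Vale.Agent.HDX.Chain

open Finset

namespace Vale.Agent.HDX.Q

variable {L : Type*} [Lattice L] [BoundedOrder L] [Fintype L] [DecidableEq L] {q : ℕ}
  {G : ℕ → ℕ → ℕ}

set_option linter.unusedSectionVars false

lemma size_lc {f : Finset L → Ch L} {z : Ch L} {m : ℕ}
    (h : ∀ σ ∈ z.support, (f σ).support.card ≤ m) :
    (Finsupp.linearCombination (ZMod 2) f z).support.card ≤ z.support.card * m := by
  classical
  rw [Finsupp.linearCombination_apply, Finsupp.sum]
  refine (Finset.card_le_card Finsupp.support_finsetSum).trans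
    (Finset.card_biUnion_le.trans ?_)
  exact (Finset.sum_le_card_nsmul _ _ m fun σ hσ =>
    (Finset.card_le_card Finsupp.support_smul).trans (h σ hσ)).trans_eq (smul_eq_mul _ _)

lemma size_single_le (σ : Finset L) (c : ZMod 2) :
    (Finsupp.single σ c : Ch L).support.card ≤ 1 :=
  (Finset.card_le_card Finsupp.support_single_subset).trans_eq (Finset.card_singleton σ)

lemma size_cone (X : L) (z : Ch L) : (cone X z).support.card ≤ z.support.card := by
  refine (size_lc fun σ _ => ?_).trans_eq (mul_one _)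
  split
  · simp
  · exact size_single_le _ _

lemma size_lk (X : L) (z : Ch L) : (lk X z).support.card ≤ z.support.card := by
  refine (size_lc fun σ _ => ?_).trans_eq (mul_one _)
  split
  · exact size_single_le _ _
  · simp

lemma size_sum_le {ι : Type*} [DecidableEq ι] (s : Finset ι) (f : ι → Ch L) :
    (∑ i ∈ s, f i).support.card ≤ ∑ i ∈ s, (f i).support.card :=
  (Finset.card_le_card Finsupp.support_finsetSum).trans Finset.card_biUnion_le

lemma size_add_le (x y : Ch L) : (x + y).support.card ≤ x.support.card + y.support.card :=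
  (Finset.card_le_card Finsupp.support_add).trans (Finset.card_union_le _ _)

lemma size_bd {z : Ch L} {j : ℕ} (h : ∀ σ ∈ z.support, σ.card ≤ j) :
    (bd z).support.card ≤ z.support.card * j := by
  classical
  refine size_lc fun σ hσ => (size_sum_le _ _).trans ?_
  exact ((Finset.sum_le_card_nsmul _ _ 1 fun x _ => size_single_le _ _).trans_eq
    (by rw [smul_eq_mul, mul_one])).trans (h σ hσ)

/-- One peeling step. -/
def grow (Φ : ℕ → ℕ) (N y : ℕ) : ℕ := y + (N + 2) ^ 2 * y * Φ y

/-- The number of simplices needed to fill a cycle with `x` simplices. -/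
def fillBound : ℕ → ℕ → ℕ
  | 0, x => x
  | N + 1, x => fillBound N ((grow (fillBound N) N)^[N + 2] x) +
      (grow (fillBound N) N)^[N + 2] x + x

lemma le_grow (Φ : ℕ → ℕ) (N y : ℕ) : y ≤ grow Φ N y := Nat.le_add_right _ _

lemma grow_mono {Φ : ℕ → ℕ} (h : Monotone Φ) (N : ℕ) : Monotone (grow Φ N) := fun x y hxy =>
  Nat.add_le_add hxy (Nat.mul_le_mul (Nat.mul_le_mul_left _ hxy) (h hxy))

lemma fillBound_mono : ∀ N, Monotone (fillBound N)
  | 0 => fun _ _ h => h
  | N + 1 => fun x y hxy => by
    have h1 := (grow_mono (fillBound_mono N) N).iterate (N + 2) hxy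
    exact Nat.add_le_add (Nat.add_le_add (fillBound_mono N h1) h1) hxy

lemma self_le_fillBound : ∀ N x, x ≤ fillBound N x
  | 0, _ => le_rfl
  | _ + 1, _ => Nat.le_add_left _ _

lemma fillBound_le {N M : ℕ} (h : N ≤ M) (x : ℕ) : fillBound N x ≤ fillBound M x := by
  induction M, h using Nat.le_induction with
  | base => exact le_rfl
  | succ M hM ih =>
    refine ih.trans ((fillBound_mono M
      (Function.id_le_iterate_of_id_le (fun y => le_grow (fillBound M) M y) (M + 2) x)).trans ?_)
    rw [fillBound]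
    exact (Nat.le_add_right _ _).trans (Nat.le_add_right _ _)

/-- The induction measure as a number. -/
def code (n₁ n₂ n₃ : ℕ) : ℕ := (n₁ + 2) ^ 3 + n₂ * (n₁ + 2) + n₃

lemma code_lt {n₁ n₂ n₃ m₁ m₂ m₃ : ℕ} (h : m₁ < n₁) (h2 : m₂ ≤ m₁ + 1) (h3 : m₃ ≤ m₁) :
    code m₁ m₂ m₃ < code n₁ n₂ n₃ := by
  have e1 := Nat.mul_le_mul_right (m₁ + 2) h2
  have e2 : (m₁ + 3) ^ 3 ≤ (n₁ + 2) ^ 3 := Nat.pow_le_pow_left (by omega) 3
  unfold code
  nlinarith [e1, e2]

/-- A chain of `j` elements between `B` and `U`, of ranks in `[a, b]`, avoiding and comparable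
to the fixed chain `ρ`. -/
def Simp (P : Geo L q G) (U B : L) (a b : ℕ) (ρ : Finset L) (j : ℕ) (σ : Finset L) : Prop :=
  σ.card = j ∧ (∀ S ∈ σ, B ≤ S ∧ S ≤ U ∧ a ≤ P.rk S ∧ P.rk S ≤ b ∧ S ∉ ρ ∧
      ∀ R ∈ ρ, S ≤ R ∨ R ≤ S) ∧
    ∀ S ∈ σ, ∀ T ∈ σ, S ≤ T ∨ T ≤ S

variable {P : Geo L q G}

lemma Simp.cone {U B : L} {a b j : ℕ} {ρ σ : Finset L} {X : L} (h : Simp P U B a b ρ j σ)
    (hX : B ≤ X ∧ X ≤ U ∧ a ≤ P.rk X ∧ P.rk X ≤ b ∧ X ∉ ρ ∧ ∀ R ∈ ρ, X ≤ R ∨ R ≤ X)
    (hc : ∀ S ∈ σ, S ≤ X ∨ X ≤ S) :
    Supp (Simp P U B a b ρ (j + 1)) (Vale.Agent.HDX.cone X (Finsupp.single σ 1)) := by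
  rw [cone_single]
  split
  · exact Supp.zero
  · rename_i hX'
    refine Supp.single ⟨by rw [Finset.card_insert_of_notMem hX', h.1], ?_, ?_⟩ 1
    · intro S hS
      rcases Finset.mem_insert.mp hS with rfl | hS
      · exact hX
      · exact h.2.1 S hS
    · intro S hS T hT
      rcases Finset.mem_insert.mp hS with hS | hS <;>
        rcases Finset.mem_insert.mp hT with hT | hT
      · exact Or.inl (by rw [hS, hT])
      · rw [hS]; exact (hc T hT).symm
      · rw [hT]; exact hc S hS
      · exact h.2.2 S hS T hT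

lemma cone_supp {U B : L} {a b j : ℕ} {ρ : Finset L} {z : Ch L} {X : L}
    (hz : Supp (Simp P U B a b ρ j) z)
    (hX : B ≤ X ∧ X ≤ U ∧ a ≤ P.rk X ∧ P.rk X ≤ b ∧ X ∉ ρ ∧ ∀ R ∈ ρ, X ≤ R ∨ R ≤ X)
    (hc : ∀ σ ∈ z.support, ∀ S ∈ σ, S ≤ X ∨ X ≤ S) :
    Supp (Simp P U B a b ρ (j + 1)) (cone X z) := by
  rw [← Finsupp.sum_single z, Finsupp.sum, map_sum]
  refine Supp.sum fun σ hσ => ?_
  have : (Finsupp.single σ (z σ) : Ch L) = z σ • Finsupp.single σ 1 := by simp
  rw [this, map_smul]
  exact ((hz σ hσ).cone hX (hc σ hσ)).smul _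

/-- A simplex of the link whose part below `ρ` lies under `Lc`. -/
def Seg (P : Geo L q G) (U B Lc : L) (a b : ℕ) (ρ : Finset L) (j : ℕ) (σ : Finset L) : Prop :=
  Simp P U B a b ρ j σ ∧ ∀ S ∈ σ, (∀ R ∈ ρ, S ≤ R) → S ≤ Lc

/-- Links in the rank-selected geometry are acyclic below their top dimension. The parameter
`Lc` bounds the part of the cycle below the first element of `ρ`, whose rank is `c + 1`. -/
theorem exists_filling (P : Geo L q G) (U : L) (b : ℕ) (hbU : b ≤ P.rk U) :
    ∀ (n : ℕ ×ₗ (ℕ ×ₗ ℕ)) (B Lc : L) (a : ℕ) (ρ : Finset L),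
      toLex (P.rk U - P.rk B, toLex (ρ.card, P.rk Lc - P.rk B)) = n →
      B ≤ Lc → Lc ≤ U → P.rk B ≤ a → a ≤ b + 1 →
      (∀ R ∈ ρ, B ≤ R ∧ R ≤ U ∧ a ≤ P.rk R ∧ P.rk R ≤ b) →
      (∀ R ∈ ρ, ∀ R' ∈ ρ, R ≤ R' ∨ R' ≤ R) →
      (∀ R ∈ ρ, Lc ≤ R) → (ρ = ∅ → b ≤ P.rk Lc) →
      (∀ R ∈ ρ, (∀ R' ∈ ρ, R ≤ R') → P.rk R ≤ P.rk Lc + 1) →
      ∀ j : ℕ, j + ρ.card + a ≤ b → ∀ z : Ch L,
        Supp (Seg P U B Lc a b ρ j) z → bd z = 0 →
        ∃ w, Supp (Seg P U B Lc a b ρ (j + 1)) w ∧ bd w = z ∧ w.support.card ≤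
          fillBound (code (P.rk U - P.rk B) ρ.card (P.rk Lc - P.rk B)) z.support.card := by
  intro n
  induction n using WellFoundedLT.induction with
  | ind n ih =>
  intro B Lc a ρ hn hBL hLU hBa hab hρ hρc hLρ hρ0 hmin j hj z hz hbd
  have hBU : B ≤ U := hBL.trans hLU
  have hBLr := P.mono hBL
  have hLUr := P.mono hLU
  have hρcard : ∀ (a' : ℕ) (ρ' : Finset L), (∀ R ∈ ρ', a' ≤ P.rk R ∧ P.rk R ≤ b) →
      (∀ R ∈ ρ', ∀ R' ∈ ρ', R ≤ R' ∨ R' ≤ R) → ρ'.card ≤ b + 1 - a' := by
    intro a' ρ' h1 h2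
    rw [← Nat.card_Icc]
    refine Finset.card_le_card_of_injOn P.rk (fun R hR => Finset.mem_coe.mpr
      (Finset.mem_Icc.mpr (h1 R hR))) fun R hR R' hR' he => ?_
    rcases h2 R hR R' hR' with h | h
    · exact P.strict h he.ge
    · exact (P.strict h he.le).symm
  obtain ⟨N, hN⟩ : ∃ N, code (P.rk U - P.rk B) ρ.card (P.rk Lc - P.rk B) = N + 1 :=
    ⟨_, (Nat.sub_add_cancel (le_add_right (le_add_right (Nat.one_le_pow _ _ (by omega))))).symm⟩
  rw [hN]
  have hcone : ∀ X : L, (B ≤ X ∧ X ≤ U ∧ a ≤ P.rk X ∧ P.rk X ≤ b ∧ X ∉ ρ ∧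
      ∀ R ∈ ρ, X ≤ R ∨ R ≤ X) → X ≤ Lc → (∀ σ ∈ z.support, ∀ S ∈ σ, S ≤ X ∨ X ≤ S) →
      ∃ w, Supp (Seg P U B Lc a b ρ (j + 1)) w ∧ bd w = z ∧
        w.support.card ≤ fillBound (N + 1) z.support.card := by
    intro X hX hXL hc
    refine ⟨cone X z, ?_, ?_, (size_cone X z).trans (self_le_fillBound _ _)⟩
    · intro σ hσ
      refine ⟨cone_supp (hz.mono fun σ h => h.1) hX hc σ hσ, ?_⟩
      have hmem : Supp (fun σ => ∀ S ∈ σ, (∀ R ∈ ρ, S ≤ R) → S ≤ Lc) (cone X z) := by
        refine Supp.linearCombination hz fun τ hτ => ?_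
        split
        · exact Supp.zero
        · refine Supp.single (fun S hS h => ?_) 1
          rcases Finset.mem_insert.mp hS with rfl | hS
          · exact hXL
          · exact hτ.2 S hS h
      exact hmem σ hσ
    · have := bd_cone X z
      rwa [hbd, map_zero, add_zero] at this
  by_cases hB : B ∈ ρ
  · -- the first element of `ρ` is the bottom
    have hBr := hρ B hB
    have hmin' : ∀ R ∈ ρ, B ≤ R := fun R hR => (hρ R hR).1
    have haB : P.rk B = a := le_antisymm hBa hBr.2.2.1
    have hρ' : ∀ R ∈ ρ.erase B, B ≤ R ∧ R ≤ U ∧ a + 1 ≤ P.rk R ∧ P.rk R ≤ b := by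
      intro R hR
      obtain ⟨hne, hR⟩ := Finset.mem_erase.mp hR
      obtain ⟨h1, h2, h3, h4⟩ := hρ R hR
      refine ⟨h1, h2, ?_, h4⟩
      by_contra hcon
      exact hne (P.strict h1 (by omega)).symm
    have hcard : (ρ.erase B).card + 1 = ρ.card := Finset.card_erase_add_one hB
    -- the segment up to the next element
    obtain ⟨Lc', hBL', hL'U, hL'ρ, hL'0, hL'min, hL'seg⟩ : ∃ Lc', B ≤ Lc' ∧ Lc' ≤ U ∧
        (∀ R ∈ ρ.erase B, Lc' ≤ R) ∧ (ρ.erase B = ∅ → b ≤ P.rk Lc') ∧
        (∀ R ∈ ρ.erase B, (∀ R' ∈ ρ.erase B, R ≤ R') → P.rk R ≤ P.rk Lc' + 1) ∧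
        (∀ S, B ≤ S → S ≤ U → (∀ R ∈ ρ.erase B, S ≤ R) → S ≤ Lc') := by
      rcases (ρ.erase B).eq_empty_or_nonempty with he | hne
      · exact ⟨U, hBU, le_rfl, by simp [he], fun _ => hbU, by simp [he], fun S _ h _ => h⟩
      · obtain ⟨M, hM, hMmin⟩ := Finset.exists_min_image _ P.rk hne
        have hall : ∀ R ∈ ρ.erase B, M ≤ R := by
          intro R hR
          rcases hρc M (Finset.mem_of_mem_erase hM) R (Finset.mem_of_mem_erase hR) with h | h
          · exact h
          · exact (P.strict h (hMmin R hR)).ge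
        exact ⟨M, (hρ' M hM).1, (hρ' M hM).2.1, hall, fun h => absurd h hne.ne_empty,
          fun R hR hR' => (P.mono (hR' M hM)).trans (Nat.le_succ _), fun S _ _ h => h M hM⟩
    -- the measure
    have hz' : Supp (Seg P U B Lc' (a + 1) b (ρ.erase B) j) z := by
      refine hz.mono fun σ hσ => ⟨⟨hσ.1.1, fun S hS => ?_, hσ.1.2.2⟩, fun S hS h => ?_⟩
      · obtain ⟨h1, h2, h3, h4, h5, h6⟩ := hσ.1.2.1 S hS
        refine ⟨h1, h2, ?_, h4, fun h => h5 (Finset.mem_of_mem_erase h),
          fun R hR => h6 R (Finset.mem_of_mem_erase hR)⟩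
        by_contra hcon
        exact h5 ((P.strict h1 (by omega)) ▸ hB)
      · obtain ⟨h1, h2, -⟩ := hσ.1.2.1 S hS
        exact hL'seg S h1 h2 h
    -- recursion by a lexicographic measure
    have hrec : ∃ w, Supp (Seg P U B Lc' (a + 1) b (ρ.erase B) (j + 1)) w ∧ bd w = z ∧
        w.support.card ≤ fillBound (code (P.rk U - P.rk B) (ρ.erase B).card
          (P.rk Lc' - P.rk B)) z.support.card := by
      refine ih (toLex (P.rk U - P.rk B, toLex ((ρ.erase B).card, P.rk Lc' - P.rk B))) ?_ B Lc'
        (a + 1) (ρ.erase B) rfl hBL' hL'U (by omega) (by omega) hρ'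
        (fun R hR R' hR' => hρc R (Finset.mem_of_mem_erase hR) R'
          (Finset.mem_of_mem_erase hR')) hL'ρ hL'0 hL'min j (by omega) z hz' hbd
      rw [← hn]
      exact Prod.Lex.toLex_lt_toLex.mpr (Or.inr ⟨rfl,
        Prod.Lex.toLex_lt_toLex.mpr (Or.inl (by omega))⟩)
    obtain ⟨w, hw, hwbd, hwsize⟩ := hrec
    refine ⟨w, hw.mono fun σ hσ => ⟨⟨hσ.1.1, fun S hS => ?_, hσ.1.2.2⟩, fun S hS h => ?_⟩, hwbd,
      hwsize.trans (fillBound_le ?_ _)⟩
    rotate_left 2
    · have h1 := P.mono hL'U
      have h2 := Nat.mul_le_mul_right (P.rk U - P.rk B + 2) hcard.le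
      rw [← hN]
      unfold code
      rw [add_mul, one_mul] at h2
      omega
    · obtain ⟨h1, h2, h3, h4, h5, h6⟩ := hσ.1.2.1 S hS
      refine ⟨h1, h2, by omega, h4, ?_, fun R hR => ?_⟩
      · intro h
        refine h5 (Finset.mem_erase.mpr ⟨fun he => ?_, h⟩)
        rw [he] at h3
        omega
      · by_cases hRB : R = B
        · exact Or.inr (hRB ▸ h1)
        · exact h6 R (Finset.mem_erase.mpr ⟨hRB, hR⟩)
    · exact (h B hB).trans hBL
  -- the bottom is free
  have hBρ : ∀ R ∈ ρ, B ≤ R := fun R hR => (hρ R hR).1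
  rcases eq_or_lt_of_le hBa with hBa' | hBa'
  · exact hcone B ⟨le_rfl, hBU, by omega, by omega, hB, fun R hR => Or.inl (hBρ R hR)⟩ hBL
      fun σ hσ S hS => Or.inr ((hz σ hσ).1.2.1 S hS).1
  -- the last rank of the lower segment
  obtain ⟨c, hcb, hac, hcL, hcρ, hcS, hcmin, hc0, hc1⟩ : ∃ c, c ≤ b ∧ a ≤ c + 1 ∧ c ≤ P.rk Lc ∧
      (∀ R ∈ ρ, c < P.rk R) ∧
      (∀ S, (∀ R ∈ ρ, S ≤ R) → S ∉ ρ → P.rk S ≤ b → P.rk S ≤ c) ∧
      (c + 1 = a → ∃ M ∈ ρ, P.rk M = a ∧ (∀ R ∈ ρ, M ≤ R)) ∧ (ρ = ∅ → c = b) ∧
      (∀ R ∈ ρ, (∀ R' ∈ ρ, R ≤ R') → P.rk R ≤ c + 1) := by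
    rcases ρ.eq_empty_or_nonempty with he | hne
    · exact ⟨b, le_rfl, hab, hρ0 he, by simp [he], fun S _ _ h => h, fun h => by omega,
        fun _ => rfl, by simp [he]⟩
    · obtain ⟨M, hM, hMmin⟩ := Finset.exists_min_image _ P.rk hne
      have hall : ∀ R ∈ ρ, M ≤ R := by
        intro R hR
        rcases hρc M hM R hR with h | h
        · exact h
        · exact (P.strict h (hMmin R hR)).ge
      have h1 := (hρ M hM)
      have h2 := hmin M hM hall
      refine ⟨P.rk M - 1, by omega, by omega, by omega, fun R hR => ?_, fun S hS hSρ _ => ?_,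
        fun h => ⟨M, hM, by omega, hall⟩, fun h => absurd hM (by simp [h]),
        fun R _ h => by have := P.mono (h M hM); omega⟩
      · have := P.mono (hall R hR); omega
      · have hle := hS M hM
        have h3 : P.rk S < P.rk M := by
          by_contra hcon
          exact hSρ ((P.strict hle (by omega)) ▸ hM)
        omega
  rcases eq_or_lt_of_le hac with hac' | hac'
  · -- nothing lies below `ρ`: move the bottom up to its first element
    obtain ⟨M, hM, hMa, hall⟩ := hcmin hac'.symm
    have hMr := hρ M hM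
    have hz' : Supp (Seg P U M M a b ρ j) z := by
      refine hz.mono fun σ hσ => ⟨⟨hσ.1.1, fun S hS => ?_, hσ.1.2.2⟩, fun S hS h => h M hM⟩
      obtain ⟨h1, h2, h3, h4, h5, h6⟩ := hσ.1.2.1 S hS
      refine ⟨?_, h2, h3, h4, h5, h6⟩
      rcases h6 M hM with h | h
      · exact (P.strict h (by omega)).ge
      · exact h
    obtain ⟨w, hw, hwbd, hwsize⟩ := ih (toLex (P.rk U - P.rk M, toLex (ρ.card, P.rk M - P.rk M)))
      (by
        rw [← hn]
        have := P.mono hMr.2.1
        exact Prod.Lex.toLex_lt_toLex.mpr (Or.inl (by omega)))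
      M M a ρ rfl le_rfl hMr.2.1 (by omega) hab
      (fun R hR => ⟨hall R hR, (hρ R hR).2⟩) hρc hall
      (fun h => absurd hM (by simp [h]))
      (fun R hR h => (P.mono (h M hM)).trans (Nat.le_succ _)) j hj z hz' hbd
    refine ⟨w, hw.mono fun σ hσ => ⟨⟨hσ.1.1, fun S hS => ?_, hσ.1.2.2⟩, fun S hS h => ?_⟩, hwbd,
      hwsize.trans (fillBound_le ?_ _)⟩
    rotate_left 2
    · have h1 := hρcard a ρ (fun R hR => (hρ R hR).2.2) hρc
      have h2 := P.mono hMr.2.1
      have := code_lt (n₁ := P.rk U - P.rk B) (n₂ := ρ.card) (n₃ := P.rk Lc - P.rk B)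
        (m₁ := P.rk U - P.rk M) (m₂ := ρ.card) (m₃ := P.rk M - P.rk M)
        (by omega) (by omega) (by omega)
      omega
    · obtain ⟨h1, h2⟩ := hσ.1.2.1 S hS
      exact ⟨(hBρ M hM).trans h1, h2⟩
    · obtain ⟨h1, -, -, -, h5, -⟩ := hσ.1.2.1 S hS
      exact absurd (le_antisymm (h M hM) h1 ▸ hM) h5
  rcases eq_or_lt_of_le hcL with hcL' | hcL'
  · -- the lower segment is a cone
    refine hcone Lc ⟨hBL, hLU, by omega, by omega, fun h => ?_, fun R hR => Or.inl (hLρ R hR)⟩
      le_rfl fun σ hσ S hS => ?_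
    · have := hcρ Lc h; omega
    · by_cases h : ∀ R ∈ ρ, S ≤ R
      · exact Or.inl ((hz σ hσ).2 S hS h)
      · push Not at h
        obtain ⟨R, hR, hRS⟩ := h
        exact Or.inr ((hLρ R hR).trans ((((hz σ hσ).1.2.1 S hS).2.2.2.2.2 R hR).resolve_left hRS))
  -- peel the elements outside a hyperplane of the lower segment
  obtain ⟨Hy, hBH, hHL, hHr⟩ := P.between hBL (r := P.rk Lc - 1) (by omega) (by omega)
  have hHU : Hy ≤ U := hHL.trans hLU
  have hlower : ∀ σ, Seg P U B Lc a b ρ j σ → ∀ S ∈ σ, S ≤ Lc ∨ Lc ≤ S := by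
    intro σ hσ S hS
    by_cases h : ∀ R ∈ ρ, S ≤ R
    · exact Or.inl (hσ.2 S hS h)
    · push Not at h
      obtain ⟨R, hR, hRS⟩ := h
      exact Or.inr ((hLρ R hR).trans (((hσ.1.2.1 S hS).2.2.2.2.2 R hR).resolve_left hRS))
  have hstep : ∀ s, a ≤ s → s ≤ b + 1 → ∃ z', Supp (Seg P U B Lc a b ρ j) z' ∧ bd z' = 0 ∧
      (∀ σ ∈ z'.support, ∀ S ∈ σ, (∀ R ∈ ρ, S ≤ R) → ¬ S ≤ Hy → s ≤ P.rk S) ∧
      ∃ w, Supp (Seg P U B Lc a b ρ (j + 1)) w ∧ z = z' + bd w ∧
        z'.support.card + w.support.card ≤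
          (grow (fillBound N) N)^[s - a] z.support.card := by
    intro s hs
    induction s, hs using Nat.le_induction with
    | base =>
      exact fun _ => ⟨z, hz, hbd, fun σ hσ S hS _ _ => ((hz σ hσ).1.2.1 S hS).2.2.1, 0,
        Supp.zero, by simp, by simp⟩
    | succ s hs ihs =>
      intro hsb
      obtain ⟨z', hz', hbd', hlow, w, hw, hzw, hsize⟩ := ihs (by omega)
      classical
      set bad := (z'.support.biUnion id).filter
        (fun S => P.rk S = s ∧ (∀ R ∈ ρ, S ≤ R) ∧ ¬ S ≤ Hy) with hbad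
      have hfill : ∀ S ∈ bad, ∃ v, bd v = lk S z' ∧
          Supp (fun σ => Seg P U B Lc a b ρ j σ ∧
            ∀ T ∈ σ, (∀ R ∈ ρ, T ≤ R) → ¬ T ≤ Hy → s + 1 ≤ P.rk T) v ∧
          Supp (Seg P U B Lc a b ρ (j + 1)) (cone S v) ∧
          v.support.card ≤ fillBound N z'.support.card := by
        intro S hS
        obtain ⟨hSm, hSr, hSρ, hSH⟩ := Finset.mem_filter.mp hS
        obtain ⟨σ₀, hσ₀, hSσ₀⟩ := Finset.mem_biUnion.mp hSm
        obtain ⟨hS1, hS2, hS3, hS4, hS5, hS6⟩ := (hz' σ₀ hσ₀).1.2.1 S hSσ₀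
        have hSL : S ≤ Lc := (hz' σ₀ hσ₀).2 S hSσ₀ hSρ
        have hj1 : 1 ≤ j := by
          rw [← (hz' σ₀ hσ₀).1.1]; exact Finset.card_pos.mpr ⟨S, hSσ₀⟩
        have hlk : Supp (fun σ => Seg P U B Lc a b ρ (j - 1) σ ∧ S ∉ σ ∧
            (∀ T ∈ σ, T < S ∨ S < T) ∧
            ∀ T ∈ σ, (∀ R ∈ ρ, T ≤ R) → ¬ T ≤ Hy → s ≤ P.rk T) (lk S z') := by
          refine Supp.linearCombination (p := fun σ => σ ∈ z'.support) (fun σ h => h)
            fun σ hσ => ?_
          split
          · rename_i hSσ
            refine Supp.single ⟨⟨⟨?_, ?_, ?_⟩, ?_⟩, Finset.notMem_erase S σ, ?_, ?_⟩ 1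
            · rw [Finset.card_erase_of_mem hSσ, (hz' σ hσ).1.1]
            · exact fun T hT => (hz' σ hσ).1.2.1 T (Finset.mem_of_mem_erase hT)
            · exact fun T hT R hR => (hz' σ hσ).1.2.2 T (Finset.mem_of_mem_erase hT) R
                (Finset.mem_of_mem_erase hR)
            · exact fun T hT => (hz' σ hσ).2 T (Finset.mem_of_mem_erase hT)
            · intro T hT
              have hne := Finset.ne_of_mem_erase hT
              rcases (hz' σ hσ).1.2.2 T (Finset.mem_of_mem_erase hT) S hSσ with h | h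
              · exact Or.inl (lt_of_le_of_ne h hne)
              · exact Or.inr (lt_of_le_of_ne h hne.symm)
            · exact fun T hT => hlow σ hσ T (Finset.mem_of_mem_erase hT)
          · exact Supp.zero
        have hbdlk : bd (lk S z') = 0 := by rw [bd_lk, hbd', map_zero]
        have hrklt : ∀ {x y : L}, x < y → P.rk x < P.rk y := fun {x y} h => by
          by_contra hcon
          exact h.ne (P.strict h.le (by omega))
        suffices h : ∃ v, bd v = lk S z' ∧ Supp (fun σ => Seg P U B Lc a b ρ j σ ∧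
            (∀ T ∈ σ, (T ≤ S ∨ S ≤ T)) ∧
            ∀ T ∈ σ, (∀ R ∈ ρ, T ≤ R) → ¬ T ≤ Hy → s + 1 ≤ P.rk T) v ∧
            v.support.card ≤ fillBound N z'.support.card by
          obtain ⟨v, hv, hvs, hvsize⟩ := h
          refine ⟨v, hv, hvs.mono fun σ h => ⟨h.1, h.2.2⟩, ?_, hvsize⟩
          intro σ hσ
          refine ⟨cone_supp (hvs.mono fun σ h => h.1.1) ⟨hS1, hS2, hS3, hS4, hS5, hS6⟩
            (fun σ hσ T hT => (hvs σ hσ).2.1 T hT) σ hσ, ?_⟩
          have hmem : Supp (fun σ => ∀ T ∈ σ, (∀ R ∈ ρ, T ≤ R) → T ≤ Lc) (cone S v) := by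
            refine Supp.linearCombination hvs fun τ hτ => ?_
            split
            · exact Supp.zero
            · refine Supp.single (fun T hT h => ?_) 1
              rcases Finset.mem_insert.mp hT with rfl | hT
              · exact hSL
              · exact hτ.1.2 T hT h
          exact hmem σ hσ
        rcases eq_or_lt_of_le hs with hsa | hsa
        · -- the bottom rank
          have hup : Supp (Seg P U S Lc (a + 1) b ρ (j - 1)) (lk S z') := by
            refine hlk.mono fun σ hσ => ⟨⟨hσ.1.1.1, fun T hT => ?_, hσ.1.1.2.2⟩, hσ.1.2⟩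
            obtain ⟨_, h2, h3, h4⟩ := hσ.1.1.2.1 T hT
            rcases hσ.2.2.1 T hT with h | h
            · have := hrklt h; omega
            · have := hrklt h
              exact ⟨h.le, h2, by omega, h4⟩
          obtain ⟨v, hv, hvbd, hvsize⟩ := ih
            (toLex (P.rk U - P.rk S, toLex (ρ.card, P.rk Lc - P.rk S))) (by
              rw [← hn]
              have := P.mono hS2
              exact Prod.Lex.toLex_lt_toLex.mpr (Or.inl (by omega)))
            S Lc (a + 1) ρ rfl hSL hLU (by omega) (by omega)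
            (fun R hR => ⟨hSρ R hR, (hρ R hR).2.1, by have := hcρ R hR; omega,
              (hρ R hR).2.2.2⟩)
            hρc hLρ hρ0 hmin (j - 1) (by omega) (lk S z') hup hbdlk
          refine ⟨v, hvbd, hv.mono fun σ hσ => ⟨⟨⟨?_, ?_, hσ.1.2.2⟩, hσ.2⟩, ?_, ?_⟩,
            hvsize.trans ((fillBound_le ?_ _).trans (fillBound_mono N (size_lk S z')))⟩
          rotate_left 4
          · have h1 := hρcard (a + 1) ρ (fun R hR =>
              ⟨by have := hcρ R hR; omega, (hρ R hR).2.2.2⟩) hρc
            have h2 := P.mono hS2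
            have h3 := P.mono hSL
            have := code_lt (n₁ := P.rk U - P.rk B) (n₂ := ρ.card) (n₃ := P.rk Lc - P.rk B)
              (m₁ := P.rk U - P.rk S) (m₂ := ρ.card) (m₃ := P.rk Lc - P.rk S)
              (by omega) (by omega) (by omega)
            omega
          · rw [hσ.1.1]; omega
          · intro T hT
            obtain ⟨h1, h2, h3, h4⟩ := hσ.1.2.1 T hT
            exact ⟨hS1.trans h1, h2, by omega, h4⟩
          · exact fun T hT => Or.inr (hσ.1.2.1 T hT).1
          · intro T hT _ _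
            have := (hσ.1.2.1 T hT).2.2.1
            omega
        · -- higher ranks
          set X := S ⊓ Hy with hX
          have hXr : P.rk X + 1 = s := by
            have h1 : S ⊔ Hy ≤ Lc := sup_le hSL hHL
            have h2 : P.rk Hy < P.rk (S ⊔ Hy) := by
              by_contra hcon
              push Not at hcon
              exact hSH ((le_sup_left (b := Hy)).trans (P.strict le_sup_right hcon).ge)
            have := P.mono h1
            have h3 := P.modular S Hy
            rw [← hX, hSr] at h3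
            omega
          have hXS : X ≤ S := inf_le_left
          have hXρ : ∀ R ∈ ρ, X ≤ R := fun R hR => hXS.trans (hSρ R hR)
          have hXcomp : ∀ σ ∈ (lk S z').support, ∀ T ∈ σ, T ≤ X ∨ X ≤ T := by
            intro σ hσ T hT
            rcases (hlk σ hσ).2.2.1 T hT with h | h
            · refine Or.inl (le_inf h.le ?_)
              by_contra hTH
              have := hrklt h
              have := (hlk σ hσ).2.2.2 T hT (fun R hR => h.le.trans (hSρ R hR)) hTH
              omega
            · exact Or.inr (hXS.trans h.le)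
          refine ⟨cone X (lk S z'), ?_, ?_, ((size_cone X _).trans (size_lk S z')).trans
            (self_le_fillBound _ _)⟩
          · have := bd_cone X (lk S z')
            rwa [hbdlk, map_zero, add_zero] at this
          · rw [cone]
            refine Supp.linearCombination (p := fun σ => σ ∈ (lk S z').support) (fun σ h => h)
              fun σ hσ => ?_
            split
            · exact Supp.zero
            · rename_i hXσ
              obtain ⟨⟨hσ1, hσseg⟩, hσ2, hσ3, hσ4⟩ := hlk σ hσ
              have hXnot : X ∉ ρ := fun h => by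
                have := hcρ X h
                have := hcS S hSρ hS5 hS4
                omega
              have h1 := Simp.cone hσ1 (X := X)
                ⟨le_inf hS1 hBH, hXS.trans hS2, by omega, by omega, hXnot,
                  fun R hR => Or.inl (hXρ R hR)⟩ (hXcomp σ hσ)
              rw [cone_single, if_neg hXσ] at h1
              have h2 := h1 (insert X σ) (by simp)
              rw [show j - 1 + 1 = j by omega] at h2
              refine Supp.single ⟨⟨h2, ?_⟩, ?_, ?_⟩ 1
              · intro T hT h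
                rcases Finset.mem_insert.mp hT with rfl | hT
                · exact hXS.trans hSL
                · exact hσseg T hT h
              · intro T hT
                rcases Finset.mem_insert.mp hT with rfl | hT
                · exact Or.inl hXS
                · exact (hσ3 T hT).imp le_of_lt le_of_lt
              · intro T hT h hTH
                rcases Finset.mem_insert.mp hT with rfl | hT
                · exact absurd inf_le_right hTH
                · rcases hσ3 T hT with h' | h' <;> have := hrklt h' <;>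
                    have := hσ4 T hT h hTH <;> omega
      choose! v hv hvs hvc hvsize using hfill
      refine ⟨z' + ∑ S ∈ bad, bd (cone S (v S)), ?_, ?_, ?_,
        w + ∑ S ∈ bad, cone S (v S), hw.add (Supp.sum hvc), ?_, ?_⟩
      rotate_left 4
      · set y := z'.support.card + w.support.card with hy
        have hjN : j + 2 ≤ N + 2 := by
          have h1 := P.mono hBU
          have h2 : P.rk U - P.rk B + 2 ≤ (P.rk U - P.rk B + 2) ^ 3 :=
            Nat.le_self_pow (by norm_num) _
          unfold code at hN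
          omega
        have hbadc : bad.card ≤ j * y := by
          refine (Finset.card_filter_le _ _).trans (Finset.card_biUnion_le.trans ?_)
          refine (Finset.sum_le_card_nsmul _ _ j fun σ hσ => (hz' σ hσ).1.1.le).trans ?_
          rw [smul_eq_mul, Nat.mul_comm]
          exact Nat.mul_le_mul_left _ (Nat.le_add_right _ _)
        have hv' : ∀ S ∈ bad, (cone S (v S)).support.card ≤ fillBound N y := fun S hS =>
          (size_cone S _).trans ((hvsize S hS).trans (fillBound_mono N (Nat.le_add_right _ _)))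
        have h1 : (∑ S ∈ bad, cone S (v S)).support.card ≤ j * y * fillBound N y :=
          (size_sum_le _ _).trans ((Finset.sum_le_card_nsmul _ _ _ hv').trans
            (by rw [smul_eq_mul]; exact Nat.mul_le_mul_right _ hbadc))
        have h2 : (∑ S ∈ bad, bd (cone S (v S))).support.card ≤
            j * y * fillBound N y * (j + 1) := by
          refine (size_sum_le _ _).trans ((Finset.sum_le_card_nsmul _ _ (fillBound N y * (j + 1))
            fun S hS => (size_bd fun σ hσ => ((hvc S hS σ hσ).1.1).le).trans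
              (Nat.mul_le_mul_right _ (hv' S hS))).trans ?_)
          rw [smul_eq_mul, ← Nat.mul_assoc]
          exact Nat.mul_le_mul_right _ (Nat.mul_le_mul_right _ hbadc)
        have h3 : j * (j + 2) ≤ (N + 2) ^ 2 := by
          rw [sq]; exact Nat.mul_le_mul (by omega) hjN
        have h4 := Nat.mul_le_mul_right (y * fillBound N y) h3
        rw [show s + 1 - a = (s - a) + 1 by omega, Function.iterate_succ_apply']
        refine le_trans ?_ (grow_mono (fillBound_mono N) N hsize)
        rw [grow]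
        have h5 := size_add_le z' (∑ S ∈ bad, bd (cone S (v S)))
        have h6 := size_add_le w (∑ S ∈ bad, cone S (v S))
        have h7 : j * y * fillBound N y * (j + 1) + j * y * fillBound N y =
            j * (j + 2) * (y * fillBound N y) := by ring
        have h8 : (N + 2) ^ 2 * y * fillBound N y = (N + 2) ^ 2 * (y * fillBound N y) := by ring
        omega
      rotate_left
      · rw [map_add, hbd', map_sum, zero_add]
        exact Finset.sum_eq_zero fun S _ => bd_bd _
      rotate_left
      · rw [hzw, map_add, map_sum]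
        rw [show ∀ a b c : Ch L, a + b + (c + b) = a + c + (b + b) from fun a b c => by abel,
          ZModModule.add_self, add_zero]
      all_goals
        have hkey : z' + ∑ S ∈ bad, bd (cone S (v S)) =
            (z' + ∑ S ∈ bad, cone S (lk S z')) + ∑ S ∈ bad, v S := by
          rw [add_assoc, ← Finset.sum_add_distrib]
          congr 1
          refine Finset.sum_congr rfl fun S hS => ?_
          have h := bd_cone S (v S)
          rw [hv S hS] at h
          calc bd (cone S (v S))
              = bd (cone S (v S)) + (cone S (lk S z') + cone S (lk S z')) := by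
                rw [ZModModule.add_self, add_zero]
            _ = v S + cone S (lk S z') := by rw [← add_assoc, h]
            _ = cone S (lk S z') + v S := add_comm _ _
        have hrest : Supp (fun σ => Seg P U B Lc a b ρ j σ ∧
            ∀ T ∈ σ, (∀ R ∈ ρ, T ≤ R) → ¬ T ≤ Hy → s + 1 ≤ P.rk T)
            (z' + ∑ S ∈ bad, cone S (lk S z')) := by
          have hmap : z' + ∑ S ∈ bad, cone S (lk S z') =
              Finsupp.linearCombination (ZMod 2)
                (fun σ => Finsupp.single σ 1 + ∑ S ∈ bad,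
                  if S ∈ σ then Finsupp.single σ 1 else 0) z' := by
            suffices h : (LinearMap.id + ∑ S ∈ bad, (cone S).comp (lk S) :
                Ch L →ₗ[ZMod 2] Ch L) =
                Finsupp.linearCombination (ZMod 2)
                  (fun σ => Finsupp.single σ 1 + ∑ S ∈ bad,
                    if S ∈ σ then Finsupp.single σ 1 else 0) by
              have := LinearMap.congr_fun h z'
              simpa [LinearMap.sum_apply] using this
            refine ch_ext fun σ => ?_
            simp only [LinearMap.add_apply, LinearMap.id_apply, LinearMap.sum_apply,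
              LinearMap.comp_apply, Finsupp.linearCombination_single, one_smul, lk_single]
            congr 1
            refine Finset.sum_congr rfl fun S _ => ?_
            split
            · rename_i h
              rw [cone_single, if_neg (Finset.notMem_erase S σ), Finset.insert_erase h]
            · simp
          rw [hmap]
          refine Supp.linearCombination (p := fun σ => σ ∈ z'.support) (fun σ h => h)
            fun σ hσ => ?_
          by_cases hb : ∃ S ∈ bad, S ∈ σ
          · obtain ⟨S, hS, hSσ⟩ := hb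
            rw [Finset.sum_eq_single_of_mem S hS, if_pos hSσ, ZModModule.add_self]
            · exact Supp.zero
            · intro T hT hne
              rw [if_neg]
              intro hTσ
              have h1 := (Finset.mem_filter.mp hS).2.1
              have h2 := (Finset.mem_filter.mp hT).2.1
              rcases (hz' σ hσ).1.2.2 T hTσ S hSσ with h | h
              · exact hne (P.strict h (by omega))
              · exact hne (P.strict h (by omega)).symm
          · rw [Finset.sum_eq_zero (fun S hS => if_neg fun h => hb ⟨S, hS, h⟩), add_zero]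
            refine Supp.single ⟨hz' σ hσ, fun T hT h hTH => ?_⟩ 1
            have h1 := hlow σ hσ T hT h hTH
            have h2 : P.rk T ≠ s := fun hs' => hb ⟨T, Finset.mem_filter.mpr
              ⟨Finset.mem_biUnion.mpr ⟨σ, hσ, hT⟩, hs', h, hTH⟩, hT⟩
            omega
        have hall := hrest.add (Supp.sum hvs)
        rw [← hkey] at hall
        first
          | exact hall.mono fun σ h => h.1
          | exact fun σ hσ => (hall σ hσ).2
  obtain ⟨z', hz', hbd', hlow, w, hw, hzw, hsize⟩ := hstep (b + 1) (by omega) le_rfl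
  have hz'' : Supp (Seg P U B Hy a b ρ j) z' := by
    intro σ hσ
    refine ⟨(hz' σ hσ).1, fun T hT h => ?_⟩
    by_contra hTH
    have := hlow σ hσ T hT h hTH
    have := ((hz' σ hσ).1.2.1 T hT).2.2.2.1
    omega
  obtain ⟨w', hw', hw'bd, hw'size⟩ := ih (toLex (P.rk U - P.rk B, toLex (ρ.card, P.rk Hy - P.rk B))) (by
      rw [← hn]
      exact Prod.Lex.toLex_lt_toLex.mpr (Or.inr ⟨rfl,
        Prod.Lex.toLex_lt_toLex.mpr (Or.inr ⟨rfl, by omega⟩)⟩))
    B Hy a ρ rfl hBH hHU hBa hab hρ hρc (fun R hR => hHL.trans (hLρ R hR))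
    (fun h => by have := hc0 h; omega)
    (fun R hR h => by have := hc1 R hR h; omega)
    j hj z' hz'' hbd'
  refine ⟨w' + w, Supp.add (hw'.mono fun σ hσ => ⟨hσ.1, fun T hT h => ?_⟩) hw, ?_, ?_⟩
  · exact (hσ.2 T hT h).trans hHL
  · rw [map_add, hw'bd, hzw]
  · have h0 : b + 1 - a ≤ N + 2 := by
      have h1 := P.mono hBU
      have h2 : P.rk U - P.rk B + 2 ≤ (P.rk U - P.rk B + 2) ^ 3 :=
        Nat.le_self_pow (by norm_num) _
      unfold code at hN
      omega
    have h1 : (grow (fillBound N) N)^[b + 1 - a] z.support.card ≤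
        (grow (fillBound N) N)^[N + 2] z.support.card :=
      Function.monotone_iterate_of_id_le (fun y => le_grow (fillBound N) N y) h0 _
    have h2 : code (P.rk U - P.rk B) ρ.card (P.rk Hy - P.rk B) ≤ N := by
      unfold code at hN ⊢
      have := P.mono hBH
      omega
    have h3 := hw'size.trans ((fillBound_le h2 _).trans (fillBound_mono N
      ((Nat.le_add_right _ w.support.card).trans (hsize.trans h1))))
    have h4 := size_add_le w' w
    have h5 := (Nat.le_add_left w.support.card z'.support.card).trans (hsize.trans h1)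
    rw [fillBound]
    omega

end Vale.Agent.HDX.Q
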