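import Vale.Agent.HDX.Q.Geo

open Finset

namespace Vale.Agent.HDX.Q

variable {L : Type*} [Lattice L] [BoundedOrder L] [Fintype L] [DecidableEq L] {q : ℕ}
  {G : ℕ → ℕ → ℕ}

/-- A chain with ranks in `[a, b]`. -/
def IsFlag (P : Geo L q G) (a b : ℕ) (σ : Finset L) : Prop :=
  (∀ S ∈ σ, a ≤ P.rk S ∧ P.rk S ≤ b) ∧ ∀ S ∈ σ, ∀ T ∈ σ, S ≤ T ∨ T ≤ S

open Classical in
/-- The complete chains with ranks `a, …, b`. -/
noncomputable def flags (P : Geo L q G) (a b : ℕ) : Finset (Finset L) :=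
  (Finset.univ : Finset (Finset L)).filter fun τ => IsFlag P a b τ ∧ τ.card = b + 1 - a

/-- The number of complete chains through a chain. -/
noncomputable def ext (P : Geo L q G) (a b : ℕ) (σ : Finset L) : ℕ :=
  ((flags P a b).filter fun τ => σ ⊆ τ).card

variable {P : Geo L q G} {a b : ℕ}

set_option linter.unusedSectionVars false

lemma mem_flags {τ : Finset L} : τ ∈ flags P a b ↔ IsFlag P a b τ ∧ τ.card = b + 1 - a := by
  simp [flags]

lemma IsFlag.subset {σ ρ : Finset L} (h : IsFlag P a b σ) (hρ : ρ ⊆ σ) : IsFlag P a b ρ :=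
  ⟨fun S hS => h.1 S (hρ hS), fun S hS T hT => h.2 S (hρ hS) T (hρ hT)⟩

lemma IsFlag.le_of_rk {σ : Finset L} (h : IsFlag P a b σ) {S T : L} (hS : S ∈ σ) (hT : T ∈ σ)
    (hr : P.rk S ≤ P.rk T) : S ≤ T := by
  rcases h.2 S hS T hT with h1 | h1
  · exact h1
  · exact (P.strict h1 hr).ge

lemma IsFlag.injOn {σ : Finset L} (h : IsFlag P a b σ) : Set.InjOn P.rk (σ : Set L) :=
  fun _ hS _ hT he => le_antisymm (h.le_of_rk hS hT he.le) (h.le_of_rk hT hS he.ge)

lemma IsFlag.image_subset {σ : Finset L} (h : IsFlag P a b σ) :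
    σ.image P.rk ⊆ Finset.Icc a b := by
  intro r hr
  obtain ⟨S, hS, rfl⟩ := Finset.mem_image.mp hr
  exact Finset.mem_Icc.mpr (h.1 S hS)

lemma IsFlag.card_le {σ : Finset L} (h : IsFlag P a b σ) : σ.card ≤ b + 1 - a := by
  rw [← Finset.card_image_of_injOn h.injOn, ← Nat.card_Icc]
  exact Finset.card_le_card h.image_subset

lemma flag_image {τ : Finset L} (h : τ ∈ flags P a b) : τ.image P.rk = Finset.Icc a b := by
  obtain ⟨h1, h2⟩ := mem_flags.mp h
  refine Finset.eq_of_subset_of_card_le h1.image_subset ?_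
  rw [Finset.card_image_of_injOn h1.injOn, h2, Nat.card_Icc]

lemma exists_rank_mem {τ : Finset L} (h : τ ∈ flags P a b) {r : ℕ} (h1 : a ≤ r) (h2 : r ≤ b) :
    ∃ S ∈ τ, P.rk S = r := by
  have : r ∈ τ.image P.rk := by rw [flag_image h]; exact Finset.mem_Icc.mpr ⟨h1, h2⟩
  exact Finset.mem_image.mp this

open Classical in
/-- The elements of rank `s` that extend the chain `σ`. -/
noncomputable def fits (P : Geo L q G) (σ : Finset L) (s : ℕ) : Finset L :=
  Finset.univ.filter fun X => P.rk X = s ∧ ∀ S ∈ σ, S ≤ X ∨ X ≤ S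

lemma mem_fits {σ : Finset L} {s : ℕ} {X : L} :
    X ∈ fits P σ s ↔ P.rk X = s ∧ ∀ S ∈ σ, S ≤ X ∨ X ≤ S := by
  simp [fits]

lemma fits_eq_level {σ : Finset L} (h : IsFlag P a b σ) {s : ℕ} (hs : s ∉ σ.image P.rk)
    {lo hi : L} (hlo : lo = (σ.filter fun S => P.rk S < s).sup id)
    (hhi : hi = (σ.filter fun S => s < P.rk S).inf id) :
    fits P σ s = P.level lo hi s := by
  ext X
  rw [mem_fits, Geo.mem_level, hlo, hhi, Finset.sup_le_iff, Finset.le_inf_iff]
  constructor
  · rintro ⟨hX, hc⟩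
    refine ⟨fun S hS => ?_, fun S hS => ?_, hX⟩
    · obtain ⟨hS1, hS2⟩ := Finset.mem_filter.mp hS
      rcases hc S hS1 with h1 | h1
      · exact h1
      · have := P.mono h1; omega
    · obtain ⟨hS1, hS2⟩ := Finset.mem_filter.mp hS
      rcases hc S hS1 with h1 | h1
      · have := P.mono h1; omega
      · exact h1
  · rintro ⟨h1, h2, hX⟩
    refine ⟨hX, fun S hS => ?_⟩
    have hne : P.rk S ≠ s := fun he => hs (Finset.mem_image.mpr ⟨S, hS, he⟩)
    rcases lt_or_gt_of_ne hne with h' | h'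
    · exact Or.inl (h1 S (Finset.mem_filter.mpr ⟨hS, h'⟩))
    · exact Or.inr (h2 S (Finset.mem_filter.mpr ⟨hS, h'⟩))

lemma sup_chain {σ : Finset L} (h : IsFlag P a b σ) {s : Finset L} (hs : s ⊆ σ) :
    P.rk (s.sup id) = if s.Nonempty then (s.image P.rk).sup id else P.rk ⊥ := by
  rcases s.eq_empty_or_nonempty with rfl | hne
  · simp
  · obtain ⟨M, hM, hmax⟩ := Finset.exists_max_image s P.rk hne
    have h1 : s.sup id = M := le_antisymm
      (Finset.sup_le fun S hS => h.le_of_rk (hs hS) (hs hM) (hmax S hS))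
      (Finset.le_sup (f := id) hM)
    rw [h1, if_pos hne]
    refine le_antisymm (Finset.le_sup (f := id) (Finset.mem_image_of_mem P.rk hM))
      (Finset.sup_le fun r hr => ?_)
    obtain ⟨S, hS, rfl⟩ := Finset.mem_image.mp hr
    exact hmax S hS

lemma inf_chain {σ : Finset L} (h : IsFlag P a b σ) {s : Finset L} (hs : s ⊆ σ) :
    P.rk (s.inf id) = if hne : s.Nonempty then (s.image P.rk).min' (hne.image _) else P.rk ⊤ := by
  rcases s.eq_empty_or_nonempty with rfl | hne
  · simp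
  · obtain ⟨M, hM, hmin⟩ := Finset.exists_min_image s P.rk hne
    have h1 : s.inf id = M := le_antisymm (Finset.inf_le (f := id) hM)
      (Finset.le_inf fun S hS => h.le_of_rk (hs hM) (hs hS) (hmin S hS))
    rw [h1, dif_pos hne]
    refine le_antisymm ?_ (Finset.min'_le _ _ (Finset.mem_image_of_mem P.rk hM))
    refine Finset.le_min' _ _ _ fun r hr => ?_
    obtain ⟨S, hS, rfl⟩ := Finset.mem_image.mp hr
    exact hmin S hS

lemma lo_le_hi {σ : Finset L} (h : IsFlag P a b σ) (s : ℕ) :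
    (σ.filter fun S => P.rk S < s).sup id ≤ (σ.filter fun S => s < P.rk S).inf id := by
  refine Finset.sup_le fun S hS => Finset.le_inf fun T hT => ?_
  obtain ⟨hS1, hS2⟩ := Finset.mem_filter.mp hS
  obtain ⟨hT1, hT2⟩ := Finset.mem_filter.mp hT
  exact h.le_of_rk hS1 hT1 (hS2.le.trans hT2.le)

lemma lo_rk_le {σ : Finset L} (h : IsFlag P a b σ) (hbot : P.rk ⊥ ≤ a) {s : ℕ} (hs : a ≤ s) :
    P.rk ((σ.filter fun S => P.rk S < s).sup id) ≤ s := by
  rw [sup_chain h (Finset.filter_subset _ _)]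
  split
  · refine Finset.sup_le fun r hr => ?_
    obtain ⟨S, hS, rfl⟩ := Finset.mem_image.mp hr
    exact (Finset.mem_filter.mp hS).2.le
  · omega

lemma hi_rk_ge {σ : Finset L} (h : IsFlag P a b σ) (htop : b ≤ P.rk ⊤) {s : ℕ} (hs : s ≤ b) :
    s ≤ P.rk ((σ.filter fun S => s < P.rk S).inf id) := by
  rw [inf_chain h (Finset.filter_subset _ _)]
  split
  · refine Finset.le_min' _ _ _ fun r hr => ?_
    obtain ⟨S, hS, rfl⟩ := Finset.mem_image.mp hr
    exact (Finset.mem_filter.mp hS).2.le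
  · omega

lemma IsFlag.insert {σ : Finset L} (h : IsFlag P a b σ) {s : ℕ} (h1 : a ≤ s) (h2 : s ≤ b)
    {X : L} (hX : X ∈ fits P σ s) : IsFlag P a b (insert X σ) := by
  obtain ⟨hX1, hX2⟩ := mem_fits.mp hX
  refine ⟨fun S hS => ?_, fun S hS T hT => ?_⟩
  · rcases Finset.mem_insert.mp hS with rfl | hS
    · exact ⟨hX1 ▸ h1, hX1 ▸ h2⟩
    · exact h.1 S hS
  · rcases Finset.mem_insert.mp hS with hS | hS <;> rcases Finset.mem_insert.mp hT with hT | hT
    · exact Or.inl (by rw [hS, hT])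
    · rw [hS]; exact (hX2 T hT).symm
    · rw [hT]; exact hX2 S hS
    · exact h.2 S hS T hT

lemma fits_nonempty {σ : Finset L} (h : IsFlag P a b σ) (hbot : P.rk ⊥ ≤ a) (htop : b ≤ P.rk ⊤)
    {s : ℕ} (h1 : a ≤ s) (h2 : s ≤ b) (hs : s ∉ σ.image P.rk) : (fits P σ s).Nonempty := by
  rw [fits_eq_level h hs rfl rfl]
  obtain ⟨z, hz⟩ := P.between (lo_le_hi h s) (lo_rk_le h hbot h1) (hi_rk_ge h htop h2)
  exact ⟨z, P.mem_level.mpr hz⟩

/-- The extensions split according to their element of a missing rank. -/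
lemma ext_eq_sum {σ : Finset L} (h : IsFlag P a b σ) {s : ℕ} (h1 : a ≤ s) (h2 : s ≤ b)
    (hs : s ∉ σ.image P.rk) :
    ext P a b σ = ∑ X ∈ fits P σ s, ext P a b (insert X σ) := by
  classical
  unfold ext
  rw [← Finset.card_biUnion]
  · congr 1
    ext τ
    simp only [Finset.mem_filter, Finset.mem_biUnion]
    constructor
    · rintro ⟨hτ, hστ⟩
      obtain ⟨S, hS, hSr⟩ := exists_rank_mem hτ h1 h2
      exact ⟨S, mem_fits.mpr ⟨hSr, fun T hT => (mem_flags.mp hτ).1.2 T (hστ hT) S hS⟩, hτ,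
        Finset.insert_subset hS hστ⟩
    · rintro ⟨X, -, hτ, hX⟩
      exact ⟨hτ, (Finset.subset_insert X σ).trans hX⟩
  · intro X hX Y hY hne
    rw [Function.onFun, Finset.disjoint_left]
    intro τ hτX hτY
    obtain ⟨hτ, hXτ⟩ := Finset.mem_filter.mp hτX
    obtain ⟨-, hYτ⟩ := Finset.mem_filter.mp hτY
    exact hne ((mem_flags.mp hτ).1.injOn (hXτ (Finset.mem_insert_self _ _))
      (hYτ (Finset.mem_insert_self _ _))
      ((mem_fits.mp hX).1.trans (mem_fits.mp hY).1.symm))

lemma ext_pos {σ : Finset L} (h : IsFlag P a b σ) (hbot : P.rk ⊥ ≤ a) (htop : b ≤ P.rk ⊤) :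
    0 < ext P a b σ := by
  classical
  generalize hn : b + 1 - a - σ.card = n
  induction n generalizing σ with
  | zero =>
    refine Finset.card_pos.mpr ⟨σ, Finset.mem_filter.mpr ⟨mem_flags.mpr ⟨h, ?_⟩, subset_rfl⟩⟩
    have := h.card_le
    omega
  | succ n ih =>
    obtain ⟨s, hs, hsσ⟩ : ∃ s ∈ Finset.Icc a b, s ∉ σ.image P.rk := by
      refine Finset.exists_mem_notMem_of_card_lt_card ?_
      rw [Finset.card_image_of_injOn h.injOn, Nat.card_Icc]
      omega
    obtain ⟨h1, h2⟩ := Finset.mem_Icc.mp hs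
    obtain ⟨X, hX⟩ := fits_nonempty h hbot htop h1 h2 hsσ
    rw [ext_eq_sum h h1 h2 hsσ]
    have hXσ : X ∉ σ := fun hXσ => hsσ (Finset.mem_image.mpr ⟨X, hXσ, (mem_fits.mp hX).1⟩)
    refine lt_of_lt_of_le (ih (h.insert h1 h2 hX) ?_)
      (Finset.single_le_sum (f := fun X => ext P a b (insert X σ)) (fun _ _ => Nat.zero_le _) hX)
    rw [Finset.card_insert_of_notMem hXσ]
    omega

/-- The number of extensions depends only on the set of ranks. -/
lemma ext_congr {σ σ' : Finset L} (h : IsFlag P a b σ) (h' : IsFlag P a b σ')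
    (hbot : P.rk ⊥ ≤ a) (htop : b ≤ P.rk ⊤)
    (he : σ.image P.rk = σ'.image P.rk) : ext P a b σ = ext P a b σ' := by
  classical
  generalize hn : b + 1 - a - σ.card = n
  induction n generalizing σ σ' with
  | zero =>
    have hc : σ.card = σ'.card := by
      rw [← Finset.card_image_of_injOn h.injOn, he, Finset.card_image_of_injOn h'.injOn]
    have hone : ∀ ρ : Finset L, IsFlag P a b ρ → ρ.card = b + 1 - a → ext P a b ρ = 1 := by
      intro ρ hρ hρc
      refine Finset.card_eq_one.mpr ⟨ρ, Finset.eq_singleton_iff_unique_mem.mpr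
        ⟨Finset.mem_filter.mpr ⟨mem_flags.mpr ⟨hρ, hρc⟩, subset_rfl⟩, fun τ hτ => ?_⟩⟩
      obtain ⟨hτ1, hτ2⟩ := Finset.mem_filter.mp hτ
      exact (Finset.eq_of_subset_of_card_le hτ2 (by rw [hρc, (mem_flags.mp hτ1).2])).symm
    have := h.card_le
    rw [hone σ h (by omega), hone σ' h' (by omega)]
  | succ n ih =>
    obtain ⟨s, hs, hsσ⟩ : ∃ s ∈ Finset.Icc a b, s ∉ σ.image P.rk := by
      refine Finset.exists_mem_notMem_of_card_lt_card ?_
      rw [Finset.card_image_of_injOn h.injOn, Nat.card_Icc]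
      omega
    obtain ⟨h1, h2⟩ := Finset.mem_Icc.mp hs
    have hsσ' : s ∉ σ'.image P.rk := he ▸ hsσ
    rw [ext_eq_sum h h1 h2 hsσ, ext_eq_sum h' h1 h2 hsσ']
    obtain ⟨X₀, hX₀⟩ := fits_nonempty h hbot htop h1 h2 hsσ
    have hval : ∀ (ρ : Finset L), IsFlag P a b ρ → ρ.image P.rk = σ.image P.rk →
        ∀ X ∈ fits P ρ s, ext P a b (insert X₀ σ) = ext P a b (insert X ρ) := by
      intro ρ hρ hρe X hX
      refine ih (h.insert h1 h2 hX₀) (hρ.insert h1 h2 hX) ?_ ?_
      · rw [Finset.image_insert, Finset.image_insert, (mem_fits.mp hX₀).1, (mem_fits.mp hX).1, hρe]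
      · rw [Finset.card_insert_of_notMem fun hm =>
          hsσ (Finset.mem_image.mpr ⟨X₀, hm, (mem_fits.mp hX₀).1⟩)]
        omega
    rw [Finset.sum_congr rfl fun X hX => (hval σ h rfl X hX).symm,
      Finset.sum_congr rfl fun X hX => (hval σ' h' he.symm X hX).symm, Finset.sum_const,
      Finset.sum_const]
    congr 1
    rw [fits_eq_level h hsσ rfl rfl, fits_eq_level h' hsσ' rfl rfl,
      P.card_level (lo_le_hi h s) (lo_rk_le h hbot h1),
      P.card_level (lo_le_hi h' s) (lo_rk_le h' hbot h1)]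
    have e1 : (σ.filter fun S => P.rk S < s).image P.rk =
        (σ'.filter fun S => P.rk S < s).image P.rk := by
      rw [← Finset.filter_image (p := fun r => r < s), ← Finset.filter_image (p := fun r => r < s),
        he]
    have e2 : (σ.filter fun S => s < P.rk S).image P.rk =
        (σ'.filter fun S => s < P.rk S).image P.rk := by
      rw [← Finset.filter_image (p := fun r => s < r), ← Finset.filter_image (p := fun r => s < r),
        he]
    have l1 : P.rk ((σ.filter fun S => P.rk S < s).sup id) =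
        P.rk ((σ'.filter fun S => P.rk S < s).sup id) := by
      rw [sup_chain h (Finset.filter_subset _ _), sup_chain h' (Finset.filter_subset _ _)]
      by_cases hne : (σ.filter fun S => P.rk S < s).Nonempty
      · have hne' : (σ'.filter fun S => P.rk S < s).Nonempty := by
          rw [← Finset.image_nonempty (f := P.rk), ← e1]; exact hne.image _
        rw [if_pos hne, if_pos hne', e1]
      · have hne' : ¬ (σ'.filter fun S => P.rk S < s).Nonempty := fun hh => hne (by
          rw [← Finset.image_nonempty (f := P.rk), e1]; exact hh.image _)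
        rw [if_neg hne, if_neg hne']
    have l2 : P.rk ((σ.filter fun S => s < P.rk S).inf id) =
        P.rk ((σ'.filter fun S => s < P.rk S).inf id) := by
      rw [inf_chain h (Finset.filter_subset _ _), inf_chain h' (Finset.filter_subset _ _)]
      by_cases hne : (σ.filter fun S => s < P.rk S).Nonempty
      · have hne' : (σ'.filter fun S => s < P.rk S).Nonempty := by
          rw [← Finset.image_nonempty (f := P.rk), ← e2]; exact hne.image _
        rw [dif_pos hne, dif_pos hne']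
        simp only [e2]
      · have hne' : ¬ (σ'.filter fun S => s < P.rk S).Nonempty := fun hh => hne (by
          rw [← Finset.image_nonempty (f := P.rk), e2]; exact hh.image _)
        rw [dif_neg hne, dif_neg hne']
    rw [l1, l2]

end Vale.Agent.HDX.Q
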