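import Mathlib

open Finset

namespace Vale.Agent.HDX.Q

/-- A finite homogeneous geometry: a ranked modular lattice in which the number of elements of
each rank in an interval depends only on the length of the interval. -/
structure Geo (L : Type*) [Lattice L] [BoundedOrder L] [Fintype L] (q : ℕ) (G : ℕ → ℕ → ℕ) where
  /-- The rank function. -/
  rk : L → ℕ
  mono : ∀ {x y : L}, x ≤ y → rk x ≤ rk y
  strict : ∀ {x y : L}, x ≤ y → rk y ≤ rk x → x = y
  modular : ∀ x y : L, rk (x ⊔ y) + rk (x ⊓ y) = rk x + rk y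
  count : ∀ {x y : L} (s : ℕ), x ≤ y →
    Nat.card {z : L // x ≤ z ∧ z ≤ y ∧ rk z = rk x + s} = G (rk y - rk x) s
  G_pos : ∀ {m s : ℕ}, s ≤ m → 0 < G m s
  G_zero : ∀ {m s : ℕ}, m < s → G m s = 0
  q_two : 2 ≤ q
  G_one : ∀ m, 1 ≤ m → q ^ (m - 1) ≤ G m 1 ∧ G m 1 ≤ 2 * q ^ (m - 1)
  G_coatom : ∀ m, 1 ≤ m → G m (m - 1) = G m 1

namespace Geo

variable {L : Type*} [Lattice L] [BoundedOrder L] [Fintype L] {q : ℕ} {G : ℕ → ℕ → ℕ}
  (P : Geo L q G)

open Classical in
/-- The elements of rank `r` in an interval. -/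
noncomputable def level (x y : L) (r : ℕ) : Finset L :=
  Finset.univ.filter fun z => x ≤ z ∧ z ≤ y ∧ P.rk z = r

lemma mem_level {x y z : L} {r : ℕ} : z ∈ P.level x y r ↔ x ≤ z ∧ z ≤ y ∧ P.rk z = r := by
  simp [level]

lemma card_level {x y : L} {r : ℕ} (h : x ≤ y) (hr : P.rk x ≤ r) :
    (P.level x y r).card = G (P.rk y - P.rk x) (r - P.rk x) := by
  classical
  rw [← P.count (r - P.rk x) h, Nat.card_eq_fintype_card, Fintype.card_subtype]
  refine congrArg Finset.card (Finset.filter_congr fun z _ => ?_)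
  rw [Nat.add_sub_cancel' hr]

lemma between {x y : L} (h : x ≤ y) {r : ℕ} (h1 : P.rk x ≤ r) (h2 : r ≤ P.rk y) :
    ∃ z, x ≤ z ∧ z ≤ y ∧ P.rk z = r := by
  have h3 : 0 < (P.level x y r).card := by
    rw [P.card_level h h1]
    exact P.G_pos (by omega)
  obtain ⟨z, hz⟩ := Finset.card_pos.mp h3
  exact ⟨z, P.mem_level.mp hz⟩

/-- A uniform bound on the size of an interval. -/
def intervalBound (G : ℕ → ℕ → ℕ) (m : ℕ) : ℕ :=
  ∑ n ∈ Finset.range (m + 1), ∑ s ∈ Finset.range (m + 1), G n s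

lemma card_interval_le {x y : L} (h : x ≤ y) {m : ℕ} (hm : P.rk y ≤ P.rk x + m)
    [DecidablePred fun z => x ≤ z ∧ z ≤ y] :
    (Finset.univ.filter fun z => x ≤ z ∧ z ≤ y).card ≤ intervalBound G m := by
  classical
  have hsub : (Finset.univ.filter fun z => x ≤ z ∧ z ≤ y) ⊆
      (Finset.range (m + 1)).biUnion fun s => P.level x y (P.rk x + s) := by
    intro z hz
    obtain ⟨-, h1, h2⟩ := Finset.mem_filter.mp hz
    have := P.mono h1
    have := P.mono h2
    exact Finset.mem_biUnion.mpr ⟨P.rk z - P.rk x, Finset.mem_range.mpr (by omega),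
      P.mem_level.mpr ⟨h1, h2, by omega⟩⟩
  refine (Finset.card_le_card hsub).trans (Finset.card_biUnion_le.trans ?_)
  refine le_trans (le_of_eq (Finset.sum_congr rfl fun s _ => ?_))
    (Finset.single_le_sum (f := fun n => ∑ s ∈ Finset.range (m + 1), G n s)
      (fun _ _ => Nat.zero_le _) (Finset.mem_range.mpr (by omega : P.rk y - P.rk x < m + 1)))
  rw [P.card_level h (Nat.le_add_right _ _), Nat.add_sub_cancel_left]

/-- Two distinct elements of equal rank below a common cover. -/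
lemma common_cover {z z' X : L} {r : ℕ} (hz : P.rk z = r + 1) (hz' : P.rk z' = r + 1)
    (hne : z ≠ z') (h1 : z ≤ X) (h2 : z' ≤ X) (hX : P.rk X = r + 2) :
    X = z ⊔ z' ∧ P.rk (z ⊓ z') = r := by
  have hle : z ⊔ z' ≤ X := sup_le h1 h2
  have hlt : P.rk z < P.rk (z ⊔ z') := by
    by_contra hcon
    push Not at hcon
    have h3 : z = z ⊔ z' := P.strict le_sup_left hcon
    have h4 : z' ≤ z := h3 ▸ le_sup_right
    exact hne (P.strict h4 (by omega)).symm
  have := P.mono hle
  have := P.modular z z'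
  exact ⟨(P.strict hle (by omega)).symm, by omega⟩

/-- The dual numbers. -/
def dualCount (G : ℕ → ℕ → ℕ) (m s : ℕ) : ℕ := if s ≤ m then G m (m - s) else 0

/-- The order dual of a geometry. -/
noncomputable def dual : Geo Lᵒᵈ q (dualCount G) where
  rk x := P.rk ⊤ - P.rk (OrderDual.ofDual x)
  mono {x y} h := Nat.sub_le_sub_left (P.mono (OrderDual.ofDual_le_ofDual.mpr h)) _
  strict {x y} h h' := by
    have h1 : P.rk (OrderDual.ofDual x) ≤ P.rk ⊤ := P.mono le_top
    have h2 : P.rk (OrderDual.ofDual y) ≤ P.rk ⊤ := P.mono le_top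
    exact OrderDual.ofDual.injective (P.strict (OrderDual.ofDual_le_ofDual.mpr h) (by omega)).symm
  modular x y := by
    have := P.modular (OrderDual.ofDual x) (OrderDual.ofDual y)
    have : P.rk (OrderDual.ofDual x ⊔ OrderDual.ofDual y) ≤ P.rk ⊤ := P.mono le_top
    have : P.rk (OrderDual.ofDual x) ≤ P.rk ⊤ := P.mono le_top
    have : P.rk (OrderDual.ofDual y) ≤ P.rk ⊤ := P.mono le_top
    have : P.rk (OrderDual.ofDual x ⊓ OrderDual.ofDual y) ≤ P.rk ⊤ := P.mono le_top
    simp only [_root_.ofDual_sup, _root_.ofDual_inf]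
    omega
  count {x y} s h := by
    classical
    have hle : OrderDual.ofDual y ≤ OrderDual.ofDual x := OrderDual.ofDual_le_ofDual.mpr h
    have hx : P.rk (OrderDual.ofDual x) ≤ P.rk ⊤ := P.mono le_top
    have hyx := P.mono hle
    have hm : P.rk ⊤ - P.rk (OrderDual.ofDual y) - (P.rk ⊤ - P.rk (OrderDual.ofDual x)) =
        P.rk (OrderDual.ofDual x) - P.rk (OrderDual.ofDual y) := by omega
    rw [hm, dualCount]
    split
    · rename_i hs
      rw [← P.count _ hle]
      refine Nat.card_congr (Equiv.subtypeEquiv OrderDual.ofDual fun z => ?_)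
      constructor
      · rintro ⟨h1, h2, h3⟩
        have := P.mono (OrderDual.ofDual_le_ofDual.mpr h1)
        exact ⟨OrderDual.ofDual_le_ofDual.mpr h2, OrderDual.ofDual_le_ofDual.mpr h1, by omega⟩
      · rintro ⟨h1, h2, h3⟩
        exact ⟨OrderDual.ofDual_le_ofDual.mp h2, OrderDual.ofDual_le_ofDual.mp h1, by omega⟩
    · rename_i hs
      refine Nat.card_eq_zero.mpr (Or.inl ⟨fun ⟨z, h1, h2, h3⟩ => ?_⟩)
      have := P.mono (OrderDual.ofDual_le_ofDual.mpr h1)
      have := P.mono (OrderDual.ofDual_le_ofDual.mpr h2)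
      omega
  G_pos {m s} h := by
    rw [dualCount, if_pos h]
    exact P.G_pos (Nat.sub_le _ _)
  G_zero {m s} h := if_neg (not_le.mpr h)
  q_two := P.q_two
  G_one m hm := by
    rw [dualCount, if_pos hm, P.G_coatom m hm]
    exact P.G_one m hm
  G_coatom m hm := by
    rw [dualCount, if_pos (Nat.sub_le _ _), dualCount, if_pos hm, P.G_coatom m hm,
      Nat.sub_sub_self hm]

end Geo

end Vale.Agent.HDX.Q
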