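import Vale.Agent.HDX.Defs
import Vale.Agent.HDX.Chain
import Vale.Agent.HDX.General

open Finset

namespace Vale.Agent.HDX.Q

variable {α : Type*} [DecidableEq α]

/-- The number of top faces through a set. -/
def cnt (F : Finset (Finset α)) (σ : Finset α) : ℕ := (F.filter fun τ => σ ⊆ τ).card

/-- The total number of top faces through the members of a family. -/
def mass (F : Finset (Finset α)) (S : Finset (Finset α)) : ℕ := ∑ σ ∈ S, cnt F σ

/-- The faces where a cochain is nonzero. -/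
def suppOn (F : Finset (Finset α)) (j : ℕ) (f : Finset α → ZMod 2) : Finset (Finset α) :=
  (faces F j).filter fun σ => f σ ≠ 0

lemma mass_mono {F S T : Finset (Finset α)} (h : S ⊆ T) : mass F S ≤ mass F T :=
  Finset.sum_le_sum_of_subset h

lemma sum_cnt_le {F : Finset (Finset α)} {D : ℕ} (hF : ∀ τ ∈ F, τ.card = D + 1) (ρ : Finset α)
    (S : Finset (Finset α)) (hS : ∀ σ ∈ S, ρ ⊆ σ) : mass F S ≤ 2 ^ (D + 1) * cnt F ρ := by
  simp only [mass, cnt, Finset.card_filter]
  rw [Finset.sum_comm, Finset.mul_sum]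
  refine Finset.sum_le_sum fun τ hτ => ?_
  rw [← Finset.card_filter]
  by_cases h : ρ ⊆ τ
  · rw [if_pos h, mul_one, ← hF τ hτ, ← Finset.card_powerset]
    exact Finset.card_le_card fun σ hσ => Finset.mem_powerset.mpr (Finset.mem_filter.mp hσ).2
  · rw [if_neg h, mul_zero, Nat.le_zero, Finset.card_eq_zero, Finset.filter_eq_empty_iff]
    exact fun σ hσ hστ => h ((hS σ hσ).trans hστ)

lemma mass_union_le {F S T : Finset (Finset α)} : mass F (S ∪ T) ≤ mass F S + mass F T := by
  have h := Finset.sum_union_inter (s₁ := S) (s₂ := T) (f := fun σ => cnt F σ)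
  simp only [mass]
  omega

lemma mass_biUnion_le {F : Finset (Finset α)} {ι : Type*} [DecidableEq ι] (s : Finset ι)
    (t : ι → Finset (Finset α)) : mass F (s.biUnion t) ≤ ∑ i ∈ s, mass F (t i) := by
  induction s using Finset.induction_on with
  | empty => simp [mass]
  | insert i s hi ih =>
    rw [Finset.biUnion_insert, Finset.sum_insert hi]
    exact mass_union_le.trans (Nat.add_le_add_left ih _)

lemma mem_faces_of_subset {F : Finset (Finset α)} {j : ℕ} {σ ρ : Finset α}
    (h : σ ∈ faces F j) (hρ : ρ ⊆ σ) : ρ ∈ faces F ρ.card := by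
  obtain ⟨⟨τ, hτ, hστ⟩, -⟩ := mem_faces.mp h
  exact mem_faces.mpr ⟨⟨τ, hτ, hρ.trans hστ⟩, rfl⟩

lemma card_filter_subset_le {F : Finset (Finset α)} {D j : ℕ} (hF : ∀ τ ∈ F, τ.card = D + 1)
    (S : Finset (Finset α)) {σ : Finset α} (hσ : σ ∈ faces F j) :
    (S.filter fun ρ => ρ ⊆ σ).card ≤ 2 ^ (D + 1) := by
  obtain ⟨⟨τ, hτ, hστ⟩, hc⟩ := mem_faces.mp hσ
  refine (Finset.card_le_card (t := τ.powerset) fun ρ hρ => ?_).trans (by
    rw [Finset.card_powerset, hF τ hτ])
  exact Finset.mem_powerset.mpr ((Finset.mem_filter.mp hρ).2.trans hστ)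

/-- Summing over the members of `S` inside each member of `T` costs a constant factor. -/
lemma sum_mass_above_le {F : Finset (Finset α)} {D j : ℕ} (hF : ∀ τ ∈ F, τ.card = D + 1)
    (S T : Finset (Finset α)) (hT : T ⊆ faces F j) :
    ∑ ρ ∈ S, mass F (T.filter fun σ => ρ ⊆ σ) ≤ 2 ^ (D + 1) * mass F T := by
  simp only [mass, Finset.sum_filter]
  rw [Finset.sum_comm, Finset.mul_sum]
  refine Finset.sum_le_sum fun σ hσ => ?_
  rw [← Finset.sum_filter, Finset.sum_const, smul_eq_mul]
  exact Nat.mul_le_mul_right _ (card_filter_subset_le hF S (hT hσ))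

open Classical in
/-- Iterated fat faces below the support of a cochain on faces with `c` vertices. -/
noncomputable def fat (F : Finset (Finset α)) (η : ℕ → ℝ) (c : ℕ) (u : Finset α → ZMod 2) :
    ℕ → Finset (Finset α)
  | 0 => suppOn F c u
  | i + 1 => (faces F (c - (i + 1))).filter fun ρ =>
      η i * (cnt F ρ : ℝ) ≤ (mass F ((fat F η c u i).filter fun σ => ρ ⊆ σ) : ℝ)

variable {F : Finset (Finset α)} {η : ℕ → ℝ} {c : ℕ} {u : Finset α → ZMod 2}

lemma fat_subset_faces : ∀ i, fat F η c u i ⊆ faces F (c - i)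
  | 0 => Finset.filter_subset _ _
  | _ + 1 => Finset.filter_subset _ _

lemma mem_fat_card {i : ℕ} {ρ : Finset α} (h : ρ ∈ fat F η c u i) : ρ.card = c - i :=
  (mem_faces.mp (fat_subset_faces i h)).2

/-- A fat face, at the index given by its size. -/
def IsFat (F : Finset (Finset α)) (η : ℕ → ℝ) (c : ℕ) (u : Finset α → ZMod 2) (ρ : Finset α) :
    Prop := ρ.card ≤ c ∧ ρ ∈ fat F η c u (c - ρ.card)

/-- One step in a chain of fat faces. -/
def FatStep (F : Finset (Finset α)) (η : ℕ → ℝ) (c : ℕ) (u : Finset α → ZMod 2)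
    (ρ σ : Finset α) : Prop :=
  ρ ⊆ σ ∧ σ.card = ρ.card + 1 ∧ IsFat F η c u ρ ∧ IsFat F η c u σ

/-- A fat face none of whose facets is fat. -/
def IsMinFat (F : Finset (Finset α)) (η : ℕ → ℝ) (c : ℕ) (u : Finset α → ZMod 2)
    (ρ : Finset α) : Prop :=
  IsFat F η c u ρ ∧ ∀ x ∈ ρ, ¬ IsFat F η c u (ρ.erase x)

lemma exists_min_chain {ρ : Finset α} (h : IsFat F η c u ρ) :
    ∃ μ, IsMinFat F η c u μ ∧ Relation.ReflTransGen (FatStep F η c u) μ ρ := by
  generalize hn : ρ.card = n
  induction n using Nat.strong_induction_on generalizing ρ with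
  | _ n ih =>
    by_cases hmin : ∀ x ∈ ρ, ¬ IsFat F η c u (ρ.erase x)
    · exact ⟨ρ, ⟨h, hmin⟩, .refl⟩
    · push Not at hmin
      obtain ⟨x, hx, hfat⟩ := hmin
      have hc : (ρ.erase x).card + 1 = ρ.card := Finset.card_erase_add_one hx
      obtain ⟨μ, hμ, hchain⟩ := ih _ (by omega) hfat rfl
      exact ⟨μ, hμ, hchain.tail ⟨Finset.erase_subset _ _, hc.symm, hfat, h⟩⟩

lemma chain_subset {μ ρ : Finset α} (h : Relation.ReflTransGen (FatStep F η c u) μ ρ) :
    μ ⊆ ρ := by
  induction h with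
  | refl => exact subset_rfl
  | tail _ h2 ih => exact ih.trans h2.1

/-- In a face where fat faces are closed under adjacent intersection, the chains from a minimal
fat face reach every member of the support. -/
lemma chain_closed {τ μ σ σ' : Finset α} (hτ : τ.card = c + 1)
    (hgood : ∀ a b : Finset α, a ⊆ τ → b ⊆ τ → a ≠ b → a.card = b.card →
      (a ∩ b).card + 1 = a.card → IsFat F η c u a → IsFat F η c u b → IsFat F η c u (a ∩ b))
    (hμ : IsMinFat F η c u μ) (hch : Relation.ReflTransGen (FatStep F η c u) μ σ)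
    (hσ : σ.card = c) (hστ : σ ⊆ τ) (hσ'τ : σ' ⊆ τ) (hσ' : σ'.card = c)
    (hσfat : IsFat F η c u σ) (hσ'fat : IsFat F η c u σ') :
    Relation.ReflTransGen (FatStep F η c u) μ σ' := by
  by_cases heq : σ = σ'
  · exact heq ▸ hch
  have hun : σ ∪ σ' ⊆ τ := Finset.union_subset hστ hσ'τ
  have hint : (σ ∩ σ').card + 1 = σ.card := by
    have h1 := Finset.card_union_add_card_inter σ σ'
    have h2 := Finset.card_le_card hun
    have h3 : (σ ∩ σ').card ≠ σ.card := fun h => heq (Finset.eq_of_subset_of_card_le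
      (Finset.inter_eq_left.mp (Finset.eq_of_subset_of_card_le Finset.inter_subset_left h.ge))
      (by omega))
    have := Finset.card_le_card (Finset.inter_subset_left : σ ∩ σ' ⊆ σ)
    omega
  obtain ⟨x, hx⟩ : ∃ x, σ \ σ' = {x} := Finset.card_eq_one.mp (by
    have := Finset.card_inter_add_card_sdiff σ σ'
    omega)
  have hxσ : x ∈ σ ∧ x ∉ σ' := by
    rw [← Finset.mem_sdiff, hx]; exact Finset.mem_singleton_self x
  have hmeet : σ ∩ σ' = σ.erase x := Finset.eq_of_subset_of_card_le
    (fun z hz => Finset.mem_erase.mpr ⟨fun h => hxσ.2 (h ▸ (Finset.mem_inter.mp hz).2),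
      (Finset.mem_inter.mp hz).1⟩)
    (by rw [Finset.card_erase_of_mem hxσ.1]; omega)
  have htop : IsFat F η c u (σ.erase x) := by
    rw [← hmeet]
    exact hgood σ σ' hστ hσ'τ heq (hσ.trans hσ'.symm) hint hσfat hσ'fat
  -- every element of the chain containing `x` stays fat without it
  have hdown : ∀ z, Relation.ReflTransGen (FatStep F η c u) μ z →
      Relation.ReflTransGen (FatStep F η c u) z σ → x ∈ z → IsFat F η c u (z.erase x) := by
    intro z _ hz
    induction hz using Relation.ReflTransGen.head_induction_on with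
    | refl => exact fun _ => htop
    | @head z w hzw hwσ ih =>
      intro hxz
      obtain ⟨hsub, hcard, hzf, hwf⟩ := hzw
      have hw := ih (by exact Relation.ReflTransGen.tail (by assumption) ⟨hsub, hcard, hzf, hwf⟩)
        (hsub hxz)
      have hwτ : w ⊆ τ := (chain_subset hwσ).trans hστ
      have hxw : x ∈ w := hsub hxz
      have hzne : z ≠ w.erase x := fun h => (Finset.notMem_erase x w) (h ▸ hxz)
      have hi : z ∩ w.erase x = z.erase x := by
        ext y
        simp only [Finset.mem_inter, Finset.mem_erase]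
        exact ⟨fun ⟨h1, h2, _⟩ => ⟨h2, h1⟩, fun ⟨h1, h2⟩ => ⟨h2, h1, hsub h2⟩⟩
      rw [← hi]
      refine hgood z (w.erase x) (hsub.trans hwτ) ((Finset.erase_subset _ _).trans hwτ) hzne
        (by rw [Finset.card_erase_of_mem hxw]; omega) ?_ hzf hw
      rw [hi, Finset.card_erase_add_one hxz]
  have hxμ : x ∉ μ := fun h => hμ.2 x h (hdown μ .refl hch h)
  -- follow the chain upwards without `x`
  have hup : ∀ z, Relation.ReflTransGen (FatStep F η c u) μ z →
      Relation.ReflTransGen (FatStep F η c u) z σ →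
      (x ∈ z → Relation.ReflTransGen (FatStep F η c u) μ (z.erase x)) ∧
      (x ∉ z → Relation.ReflTransGen (FatStep F η c u) μ z) := by
    intro z hz
    induction hz with
    | refl => exact fun _ => ⟨fun h => absurd h hxμ, fun _ => .refl⟩
    | @tail w z hμw hwz ih =>
      intro hzσ
      obtain ⟨ih1, ih2⟩ := ih (Relation.ReflTransGen.head hwz hzσ)
      refine ⟨fun hxz => ?_, fun _ => hμw.tail hwz⟩
      by_cases hxw : x ∈ w
      · refine (ih1 hxw).tail ⟨Finset.erase_subset_erase x hwz.1, ?_,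
          hdown w hμw (Relation.ReflTransGen.head hwz hzσ) hxw,
          hdown z (hμw.tail hwz) hzσ hxz⟩
        rw [Finset.card_erase_of_mem hxw, Finset.card_erase_of_mem hxz]
        have := hwz.2.1
        have : 0 < w.card := Finset.card_pos.mpr ⟨x, hxw⟩
        omega
      · have : z.erase x = w := (Finset.eq_of_subset_of_card_le (fun y hy => Finset.mem_erase.mpr
          ⟨fun h => hxw (by rw [← h]; exact hy), hwz.1 hy⟩)
          (by rw [Finset.card_erase_of_mem hxz]; have := hwz.2.1; omega)).symm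
        rw [this]
        exact ih2 hxw
  refine ((hup σ hch .refl).1 hxσ.1).tail ⟨?_, ?_, htop, hσ'fat⟩
  · rw [← hmeet]; exact Finset.inter_subset_right
  · rw [Finset.card_erase_of_mem hxσ.1, hσ']
    have : 0 < σ.card := Finset.card_pos.mpr ⟨x, hxσ.1⟩
    omega

/-- No local change lowers the support by more than `e` times the base. -/
def LocMin (F : Finset (Finset α)) (e : ℝ) (c : ℕ) (u : Finset α → ZMod 2) : Prop :=
  ∀ ρ ∈ (Finset.range c).biUnion (fun j => faces F (j + 1)), ∀ h : Finset α → ZMod 2,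
    (∀ σ, h σ ≠ 0 → ρ ⊆ σ) →
    (mass F (suppOn F c u) : ℝ) ≤
      mass F (suppOn F c fun σ => u σ + cobd (c - 1) h σ) + e * cnt F ρ

/-- Coboundary expansion in the links, phrased inside the whole complex. -/
def LinkExpansion (F : Finset (Finset α)) (K : ℝ) (c : ℕ) : Prop :=
  ∀ ρ, 1 ≤ ρ.card → ρ.card ≤ c → ρ ∈ faces F ρ.card → ∀ g : Finset α → ZMod 2,
    (∀ σ, g σ ≠ 0 → ρ ⊆ σ) → ∃ h : Finset α → ZMod 2, (∀ σ, h σ ≠ 0 → ρ ⊆ σ) ∧
      (mass F (suppOn F c fun σ => g σ + cobd (c - 1) h σ) : ℝ) ≤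
        K * mass F ((suppOn F (c + 1) (cobd c g)).filter fun τ => ρ ⊆ τ)

/-- Mixing of the graphs in the links. -/
def LinkMixing (F : Finset (Finset α)) (D : ℕ) (Cm lam : ℝ) : Prop :=
  ∀ η, η.card + 2 ≤ D + 1 → η ∈ faces F η.card → ∀ A, A ⊆ faces F (η.card + 1) →
    (∀ σ ∈ A, η ⊆ σ) →
    (mass F ((faces F (η.card + 2)).filter fun τ =>
        ∃ σ ∈ A, ∃ σ' ∈ A, σ ≠ σ' ∧ σ ⊆ τ ∧ σ' ⊆ τ) : ℝ) ≤
      Cm * ((mass F A : ℝ) ^ 2 / cnt F η) + lam * mass F A

/-- The sequence controlling the fat faces. -/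
noncomputable def fatP (C B : ℝ) : ℕ → ℝ
  | 0 => 1
  | i + 1 => C * B * fatP C B i ^ 2

lemma one_le_fatP {C B : ℝ} (hC : 1 ≤ C) (hB : 1 ≤ B) : ∀ i, 1 ≤ fatP C B i
  | 0 => le_rfl
  | i + 1 => by
    have h := one_le_fatP hC hB i
    have : 1 ≤ C * B := one_le_mul_of_one_le_of_one_le hC hB
    exact one_le_mul_of_one_le_of_one_le this (one_le_pow₀ h)

lemma fatP_mono {C B : ℝ} (hC : 1 ≤ C) (hB : 1 ≤ B) : Monotone (fatP C B) := by
  refine monotone_nat_of_le_succ fun i => ?_
  have h := one_le_fatP hC hB i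
  have h1 : 1 ≤ C * B := one_le_mul_of_one_le_of_one_le hC hB
  calc fatP C B i ≤ fatP C B i * fatP C B i := le_mul_of_one_le_left (by linarith) h
    _ ≤ C * B * fatP C B i ^ 2 := by rw [sq]; exact le_mul_of_one_le_left (by positivity) h1

/-- Small locally minimal cocycles vanish. -/
theorem cocycle_eq_zero {D : ℕ} (hF : ∀ τ ∈ F, τ.card = D + 1) (hc : 1 ≤ c) (hcD : c ≤ D)
    {K Cm lam e B : ℝ} (hK : 0 ≤ K) (hCm : 0 ≤ Cm) (hlam : 0 ≤ lam) (he : 0 ≤ e)
    (hlink : LinkExpansion F K c) (hmix : LinkMixing F D Cm lam)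
    (hB : 4 * ((D : ℝ) + 2) * ((2 : ℝ) ^ (D + 1)) ^ 3 * (K + 1) * (Cm + 1) ≤ B)
    (hlamB : lam * (B * fatP (2 ^ (D + 1)) B (D + 1)) ≤ 1)
    (heB : e * (B * fatP (2 ^ (D + 1)) B (D + 1)) ≤ 1)
    (hmin : LocMin F e c u)
    (hcoc : ∀ τ ∈ faces F (c + 1), cobd c u τ = 0)
    (hsmall : fatP (2 ^ (D + 1)) B (D + 1) * mass F (suppOn F c u) < (F.card : ℝ)) :
    mass F (suppOn F c u) = 0 := by
  classical
  set C : ℝ := (2 : ℝ) ^ (D + 1) with hCdef
  have hC : 1 ≤ C := one_le_pow₀ (by norm_num)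
  have hB1 : 1 ≤ B := by
    refine le_trans ?_ hB
    have h1 : (1 : ℝ) ≤ 4 * ((D : ℝ) + 2) := by
      have : (0 : ℝ) ≤ D := Nat.cast_nonneg _
      linarith
    have h2 : (1 : ℝ) ≤ C ^ 3 := one_le_pow₀ hC
    exact one_le_mul_of_one_le_of_one_le (one_le_mul_of_one_le_of_one_le
      (one_le_mul_of_one_le_of_one_le h1 h2) (by linarith)) (by linarith)
  set P := fatP C B with hP
  set η : ℕ → ℝ := fun i => 1 / (B * P i) with hη
  have hP1 := one_le_fatP hC hB1
  set m : ℝ := (mass F (suppOn F c u) : ℝ) with hm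
  have hm0 : 0 ≤ m := Nat.cast_nonneg _
  set Ft := fat F η c u with hFt
  -- the fat families are small
  have hfat : ∀ i, (mass F (Ft i) : ℝ) ≤ P i * m := by
    intro i
    induction i with
    | zero => rw [hFt, fat, hP, fatP, one_mul]
    | succ i ih =>
      have h1 : η i * (mass F (Ft (i + 1)) : ℝ) ≤ C * mass F (Ft i) := by
        have h2 : η i * (mass F (Ft (i + 1)) : ℝ) ≤
            ((∑ ρ ∈ Ft (i + 1), mass F ((Ft i).filter fun σ => ρ ⊆ σ) : ℕ) : ℝ) := by
          rw [mass]
          push_cast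
          rw [Finset.mul_sum]
          exact Finset.sum_le_sum fun ρ hρ => (Finset.mem_filter.mp hρ).2
        refine h2.trans ?_
        rw [hCdef]
        exact_mod_cast sum_mass_above_le hF _ _ (fat_subset_faces i)
      have hpos : 0 < η i := by
        rw [hη]; have := hP1 i; positivity
      rw [← mul_le_mul_iff_right₀ hpos]
      refine h1.trans (le_trans (mul_le_mul_of_nonneg_left ih (by linarith)) (le_of_eq ?_))
      rw [hη]
      simp only [hP, fatP]
      have hne : fatP C B i ≠ 0 := (lt_of_lt_of_le one_pos (hP1 i)).ne'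
      have hBne : B ≠ 0 := by linarith
      field_simp
  have hηB : ∀ i, η i * P i = 1 / B := by
    intro i
    rw [hη]
    have hne : P i ≠ 0 := (lt_of_lt_of_le one_pos (hP1 i)).ne'
    have hBne : B ≠ 0 := by linarith
    field_simp
  -- the empty face is not fat
  have hempty : ¬ IsFat F η c u ∅ := by
    rintro ⟨-, h⟩
    rw [Finset.card_empty, Nat.sub_zero] at h
    obtain ⟨i, rfl⟩ : ∃ i, c = i + 1 := ⟨c - 1, by omega⟩
    have h1 := (Finset.mem_filter.mp h).2
    have h2 : (cnt F ∅ : ℝ) = F.card := by simp [cnt]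
    rw [h2] at h1
    have h3 : η i * (F.card : ℝ) ≤ P i * m := by
      refine h1.trans (le_trans ?_ (hfat i))
      exact_mod_cast mass_mono (Finset.filter_subset _ _)
    have hFc : (0 : ℝ) ≤ F.card := Nat.cast_nonneg _
    have h4 : (F.card : ℝ) ≤ P (i + 1) * m := by
      have hPi := hP1 i
      have h5 : (F.card : ℝ) = B * P i * (η i * F.card) := by
        rw [show B * P i * (η i * (F.card : ℝ)) = B * (η i * P i) * F.card by ring, hηB]
        have hBne : B ≠ 0 := by linarith
        field_simp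
      rw [h5]
      calc B * P i * (η i * F.card) ≤ B * P i * (P i * m) :=
            mul_le_mul_of_nonneg_left h3 (by positivity)
        _ = 1 * (B * P i ^ 2 * m) := by ring
        _ ≤ C * (B * P i ^ 2 * m) := mul_le_mul_of_nonneg_right hC (by positivity)
        _ = _ := by simp only [hP, fatP]; ring
    have h6 : P (i + 1) * m ≤ P (D + 1) * m :=
      mul_le_mul_of_nonneg_right (fatP_mono hC hB1 (by omega)) hm0
    linarith
  -- the bad faces
  set bad := (faces F (c + 1)).filter fun τ => ∃ a b : Finset α, a ⊆ τ ∧ b ⊆ τ ∧ a ≠ b ∧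
    a.card = b.card ∧ (a ∩ b).card + 1 = a.card ∧ IsFat F η c u a ∧ IsFat F η c u b ∧
      ¬ IsFat F η c u (a ∩ b) with hbad
  set pairsAt : Finset α → ℕ → Finset (Finset α) := fun ν i =>
    (faces F (ν.card + 2)).filter fun τ => ∃ σ ∈ (Ft i).filter (fun σ => ν ⊆ σ),
      ∃ σ' ∈ (Ft i).filter (fun σ => ν ⊆ σ), σ ≠ σ' ∧ σ ⊆ τ ∧ σ' ⊆ τ with hpairs
  set nonfat : ℕ → Finset (Finset α) := fun i =>
    (faces F (c - (i + 1))).filter fun ν => ν ∉ Ft (i + 1) with hnonfat
  have hcover : bad ⊆ (Finset.range c).biUnion fun i => (nonfat i).biUnion fun ν =>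
      (pairsAt ν i).biUnion fun τ' => (faces F (c + 1)).filter fun τ => τ' ⊆ τ := by
    intro τ hτ
    obtain ⟨hτF, a, b, haτ, hbτ, hne, hab, hi, ⟨hac, ha⟩, ⟨hbc, hb⟩, hnot⟩ :=
      Finset.mem_filter.mp hτ
    have hapos : 1 ≤ a.card := by omega
    refine Finset.mem_biUnion.mpr ⟨c - a.card, Finset.mem_range.mpr (by omega), ?_⟩
    refine Finset.mem_biUnion.mpr ⟨a ∩ b, Finset.mem_filter.mpr ⟨?_, fun h => hnot ⟨by omega, ?_⟩⟩,
      ?_⟩
    · rw [show c - (c - a.card + 1) = (a ∩ b).card by omega]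
      exact mem_faces_of_subset hτF (Finset.inter_subset_left.trans haτ)
    · rw [show c - (a ∩ b).card = c - a.card + 1 by omega]; exact h
    · refine Finset.mem_biUnion.mpr ⟨a ∪ b, Finset.mem_filter.mpr ⟨?_, a, ?_, b, ?_, hne,
        Finset.subset_union_left, Finset.subset_union_right⟩,
        Finset.mem_filter.mpr ⟨hτF, Finset.union_subset haτ hbτ⟩⟩
      · have := Finset.card_union_add_card_inter a b
        rw [show (a ∩ b).card + 2 = (a ∪ b).card by omega]
        exact mem_faces_of_subset hτF (Finset.union_subset haτ hbτ)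
      · exact Finset.mem_filter.mpr ⟨ha, Finset.inter_subset_left⟩
      · refine Finset.mem_filter.mpr ⟨?_, Finset.inter_subset_right⟩
        rwa [hab]
  have hbadmass : (mass F bad : ℝ) ≤ (c : ℝ) * (C ^ 2 * (lam * P (D + 1) + Cm / B) * m) := by
    have h1 : mass F bad ≤ ∑ i ∈ Finset.range c, ∑ ν ∈ nonfat i, ∑ τ' ∈ pairsAt ν i,
        2 ^ (D + 1) * cnt F τ' := by
      refine (mass_mono hcover).trans ((mass_biUnion_le _ _).trans
        (Finset.sum_le_sum fun i _ => (mass_biUnion_le _ _).trans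
          (Finset.sum_le_sum fun ν _ => (mass_biUnion_le _ _).trans
            (Finset.sum_le_sum fun τ' _ => ?_))))
      exact sum_cnt_le hF τ' _ fun σ hσ => (Finset.mem_filter.mp hσ).2
    have h2 : (mass F bad : ℝ) ≤ ∑ i ∈ Finset.range c, ∑ ν ∈ nonfat i,
        C * (mass F (pairsAt ν i) : ℝ) := by
      refine le_trans (Nat.cast_le.mpr h1) (le_of_eq ?_)
      simp only [mass, hCdef]
      push_cast
      simp only [Finset.mul_sum]
    refine h2.trans ?_
    refine (Finset.sum_le_card_nsmul _ _ (C ^ 2 * (lam * P (D + 1) + Cm / B) * m)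
      fun i hi => ?_).trans (le_of_eq (by rw [Finset.card_range, nsmul_eq_mul]))
    rw [Finset.mem_range] at hi
    have h3 : ∀ ν ∈ nonfat i, C * (mass F (pairsAt ν i) : ℝ) ≤
        C * ((Cm * η i + lam) * (mass F ((Ft i).filter fun σ => ν ⊆ σ) : ℝ)) := by
      intro ν hν
      refine mul_le_mul_of_nonneg_left ?_ (by linarith)
      obtain ⟨hνF, hνnot⟩ := Finset.mem_filter.mp hν
      have hνc : ν.card = c - (i + 1) := (mem_faces.mp hνF).2
      have hA : (Ft i).filter (fun σ => ν ⊆ σ) ⊆ faces F (ν.card + 1) := by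
        intro σ hσ
        have := fat_subset_faces i (Finset.mem_filter.mp hσ).1
        rwa [show ν.card + 1 = c - i by omega]
      have h4 := hmix ν (by omega) (by rw [hνc]; exact hνF) _ hA
        fun σ hσ => (Finset.mem_filter.mp hσ).2
      refine h4.trans ?_
      set S : ℝ := (mass F ((Ft i).filter fun σ => ν ⊆ σ) : ℝ) with hS
      have hS0 : 0 ≤ S := Nat.cast_nonneg _
      have hlt : S < η i * (cnt F ν : ℝ) := by
        by_contra hcon
        push Not at hcon
        exact hνnot (Finset.mem_filter.mpr ⟨hνF, hcon⟩)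
      have hν0 : (0 : ℝ) < cnt F ν := by
        obtain ⟨⟨τ, hτ, hsub⟩, -⟩ := mem_faces.mp hνF
        exact_mod_cast Finset.card_pos.mpr ⟨τ, Finset.mem_filter.mpr ⟨hτ, hsub⟩⟩
      have h5 : S ^ 2 / (cnt F ν : ℝ) ≤ η i * S := by
        rw [div_le_iff₀ hν0, sq]
        calc S * S ≤ η i * (cnt F ν : ℝ) * S := mul_le_mul_of_nonneg_right hlt.le hS0
          _ = _ := by ring
      calc Cm * (S ^ 2 / (cnt F ν : ℝ)) + lam * S ≤ Cm * (η i * S) + lam * S := by gcongr
        _ = _ := by ring
    refine (Finset.sum_le_sum h3).trans ?_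
    rw [← Finset.mul_sum, ← Finset.mul_sum]
    have hη0 : 0 ≤ η i := by rw [hη]; have := hP1 i; positivity
    have h6 : (∑ ν ∈ nonfat i, (mass F ((Ft i).filter fun σ => ν ⊆ σ) : ℝ)) ≤
        C * (mass F (Ft i) : ℝ) := by
      rw [hCdef]
      exact_mod_cast sum_mass_above_le hF _ _ (fat_subset_faces i)
    calc C * ((Cm * η i + lam) *
          ∑ ν ∈ nonfat i, (mass F ((Ft i).filter fun σ => ν ⊆ σ) : ℝ))
        ≤ C * ((Cm * η i + lam) * (C * (P i * m))) := by
          gcongr
          exact h6.trans (mul_le_mul_of_nonneg_left (hfat i) (by linarith))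
      _ = C ^ 2 * (Cm * (η i * P i) + lam * P i) * m := by ring
      _ ≤ C ^ 2 * (lam * P (D + 1) + Cm / B) * m := by
          rw [hηB, mul_one_div, add_comm (Cm / B)]
          gcongr
          exact fatP_mono hC hB1 (by omega)
  -- link inequality at the minimal fat faces
  set minF := ((Finset.range (c + 1)).biUnion fun i => Ft i).filter
    (fun ρ => IsMinFat F η c u ρ) with hminF
  have hlocal : ∀ ρ ∈ minF, (mass F ((suppOn F c u).filter fun σ =>
      Relation.ReflTransGen (FatStep F η c u) ρ σ) : ℝ) ≤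
        K * mass F (bad.filter fun τ => ρ ⊆ τ) + e * cnt F ρ := by
    intro ρ hρ
    obtain ⟨-, hρmin⟩ := Finset.mem_filter.mp hρ
    obtain ⟨hρc, hρfat⟩ := hρmin.1
    have hρ1 : 1 ≤ ρ.card := by
      by_contra h
      have h0 : ρ = ∅ := Finset.card_eq_zero.mp (by omega)
      exact hempty (h0 ▸ hρmin.1)
    have hρF : ρ ∈ faces F ρ.card := by
      have := fat_subset_faces _ hρfat
      rwa [show c - (c - ρ.card) = ρ.card by omega] at this
    set g : Finset α → ZMod 2 := fun σ =>
      if Relation.ReflTransGen (FatStep F η c u) ρ σ then u σ else 0 with hg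
    have hgsupp : ∀ σ, g σ ≠ 0 → ρ ⊆ σ := by
      intro σ hσ
      by_contra h
      exact hσ (if_neg fun h' => h (chain_subset h'))
    have hgset : suppOn F c g = (suppOn F c u).filter fun σ =>
        Relation.ReflTransGen (FatStep F η c u) ρ σ := by
      ext σ
      simp only [suppOn, Finset.mem_filter, hg]
      by_cases h : Relation.ReflTransGen (FatStep F η c u) ρ σ <;> simp [h]
    obtain ⟨h, hh, hK'⟩ := hlink ρ hρ1 hρc hρF g hgsupp
    have hsub : (suppOn F (c + 1) (cobd c g)).filter (fun τ => ρ ⊆ τ) ⊆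
        bad.filter fun τ => ρ ⊆ τ := by
      intro τ hτ
      obtain ⟨hτ', hρτ⟩ := Finset.mem_filter.mp hτ
      obtain ⟨hτF, hτne⟩ := Finset.mem_filter.mp hτ'
      refine Finset.mem_filter.mpr ⟨?_, hρτ⟩
      by_contra hnb
      have hτc : τ.card = c + 1 := (mem_faces.mp hτF).2
      have hgood : ∀ a b : Finset α, a ⊆ τ → b ⊆ τ → a ≠ b → a.card = b.card →
          (a ∩ b).card + 1 = a.card → IsFat F η c u a → IsFat F η c u b →
            IsFat F η c u (a ∩ b) := by
        intro a b h1 h2 h3 h4 h5 h6 h7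
        by_contra hn
        exact hnb (Finset.mem_filter.mpr ⟨hτF, a, b, h1, h2, h3, h4, h5, h6, h7, hn⟩)
      have hfatsupp : ∀ σ ∈ τ.powersetCard c, u σ ≠ 0 → IsFat F η c u σ := by
        intro σ hσ hne
        obtain ⟨hστ, hσc⟩ := Finset.mem_powersetCard.mp hσ
        refine ⟨hσc.le, ?_⟩
        rw [hσc, Nat.sub_self]
        exact Finset.mem_filter.mpr ⟨hσc ▸ mem_faces_of_subset hτF hστ, hne⟩
      obtain ⟨σ, hσ, hσne⟩ : ∃ σ ∈ τ.powersetCard c, g σ ≠ 0 := by
        by_contra hcon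
        push Not at hcon
        exact hτne (Finset.sum_eq_zero hcon)
      have hch : Relation.ReflTransGen (FatStep F η c u) ρ σ := by
        by_contra h'; exact hσne (if_neg h')
      have hσu : u σ ≠ 0 := by simpa [hg, hch] using hσne
      have hall : ∀ σ' ∈ τ.powersetCard c, g σ' = u σ' := by
        intro σ' hσ'
        by_cases hu' : u σ' = 0
        · simp only [hg]; split <;> simp [hu']
        · obtain ⟨h1, h2⟩ := Finset.mem_powersetCard.mp hσ
          obtain ⟨h3, h4⟩ := Finset.mem_powersetCard.mp hσ'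
          simp only [hg]
          rw [if_pos (chain_closed hτc hgood hρmin hch h2 h1 h3 h4 (hfatsupp σ hσ hσu)
            (hfatsupp σ' hσ' hu'))]
      refine hτne ?_
      rw [cobd, Finset.sum_congr rfl hall]
      exact hcoc τ hτF
    have hloc := hmin ρ (Finset.mem_biUnion.mpr ⟨ρ.card - 1, Finset.mem_range.mpr (by omega),
      by rw [Nat.sub_add_cancel hρ1]; exact hρF⟩) h hh
    have hsplit : mass F (suppOn F c fun σ => u σ + cobd (c - 1) h σ) ≤
        mass F (suppOn F c fun σ => g σ + cobd (c - 1) h σ) +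
          mass F ((suppOn F c u).filter fun σ =>
            ¬ Relation.ReflTransGen (FatStep F η c u) ρ σ) := by
      refine le_trans (mass_mono (T := suppOn F c (fun σ => g σ + cobd (c - 1) h σ) ∪
        (suppOn F c u).filter fun σ => ¬ Relation.ReflTransGen (FatStep F η c u) ρ σ) ?_) ?_
      · intro σ hσ
        obtain ⟨hσF, hne⟩ := Finset.mem_filter.mp hσ
        rw [Finset.mem_union]
        by_cases hr : Relation.ReflTransGen (FatStep F η c u) ρ σ
        · exact Or.inl (Finset.mem_filter.mpr ⟨hσF, by simpa [hg, hr] using hne⟩)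
        · by_cases hu0 : u σ = 0
          · exact Or.inl (Finset.mem_filter.mpr ⟨hσF, by simpa [hg, hr, hu0] using hne⟩)
          · exact Or.inr (Finset.mem_filter.mpr ⟨Finset.mem_filter.mpr ⟨hσF, hu0⟩, hr⟩)
      · exact mass_union_le
    have hparts : mass F (suppOn F c u) =
        mass F ((suppOn F c u).filter fun σ => Relation.ReflTransGen (FatStep F η c u) ρ σ) +
        mass F ((suppOn F c u).filter fun σ =>
            ¬ Relation.ReflTransGen (FatStep F η c u) ρ σ) :=
      (Finset.sum_filter_add_sum_filter_not _ _ _).symm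
    have hsub' : (mass F ((suppOn F (c + 1) (cobd c g)).filter fun τ => ρ ⊆ τ) : ℝ) ≤
        mass F (bad.filter fun τ => ρ ⊆ τ) := by exact_mod_cast mass_mono hsub
    have hsplit' := (Nat.cast_le (α := ℝ)).mpr hsplit
    have hparts' := congrArg (fun n : ℕ => (n : ℝ)) hparts
    push_cast at hsplit' hparts'
    have := mul_le_mul_of_nonneg_left hsub' hK
    linarith
  have hcoverU : suppOn F c u ⊆ minF.biUnion fun ρ => (suppOn F c u).filter fun σ =>
      Relation.ReflTransGen (FatStep F η c u) ρ σ := by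
    intro σ hσ
    have hσc : σ.card = c := (mem_faces.mp (Finset.mem_filter.mp hσ).1).2
    have hσfat : IsFat F η c u σ := ⟨hσc.le, by rw [hσc, Nat.sub_self]; exact hσ⟩
    obtain ⟨μ, hμ, hch⟩ := exists_min_chain hσfat
    refine Finset.mem_biUnion.mpr ⟨μ, Finset.mem_filter.mpr ⟨?_, hμ⟩,
      Finset.mem_filter.mpr ⟨hσ, hch⟩⟩
    exact Finset.mem_biUnion.mpr ⟨c - μ.card, Finset.mem_range.mpr (by omega), hμ.1.2⟩
  have htotal : m ≤ K * (C * mass F bad) + e * ∑ i ∈ Finset.range (c + 1), P i * m := by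
    calc m ≤ ∑ ρ ∈ minF, (mass F ((suppOn F c u).filter fun σ =>
          Relation.ReflTransGen (FatStep F η c u) ρ σ) : ℝ) := by
          rw [hm]
          exact_mod_cast (mass_mono hcoverU).trans (mass_biUnion_le _ _)
      _ ≤ ∑ ρ ∈ minF, (K * mass F (bad.filter fun τ => ρ ⊆ τ) + e * cnt F ρ) :=
          Finset.sum_le_sum hlocal
      _ ≤ _ := by
          rw [Finset.sum_add_distrib, ← Finset.mul_sum, ← Finset.mul_sum]
          refine add_le_add (mul_le_mul_of_nonneg_left ?_ hK) (mul_le_mul_of_nonneg_left ?_ he)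
          · rw [hCdef]
            exact_mod_cast sum_mass_above_le hF minF bad (Finset.filter_subset _ _)
          · have h7 : (mass F minF : ℝ) ≤ ∑ i ∈ Finset.range (c + 1), (mass F (Ft i) : ℝ) := by
              exact_mod_cast (mass_mono (Finset.filter_subset _ _)).trans (mass_biUnion_le _ _)
            have h8 : (∑ ρ ∈ minF, (cnt F ρ : ℝ)) = (mass F minF : ℝ) := by
              rw [mass]; push_cast; rfl
            rw [h8]
            exact h7.trans (Finset.sum_le_sum fun i _ => hfat i)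
  -- conclude
  have hB0 : 0 < B := by linarith
  have hPD := hP1 (D + 1)
  have hsumP : ∑ i ∈ Finset.range (c + 1), P i * m ≤ ((D : ℝ) + 2) * (P (D + 1) * m) := by
    refine (Finset.sum_le_card_nsmul _ _ (P (D + 1) * m) fun i hi => ?_).trans ?_
    · rw [Finset.mem_range] at hi
      exact mul_le_mul_of_nonneg_right (fatP_mono hC hB1 (by omega)) hm0
    · rw [Finset.card_range, nsmul_eq_mul]
      refine mul_le_mul_of_nonneg_right ?_ (by positivity)
      have : (c : ℝ) ≤ D := by exact_mod_cast hcD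
      push_cast
      linarith
  have hlam' : lam * P (D + 1) ≤ 1 / B := by
    rw [le_div_iff₀ hB0]; linarith
  have he' : e * P (D + 1) ≤ 1 / B := by
    rw [le_div_iff₀ hB0]; linarith
  have hcD' : (c : ℝ) ≤ (D : ℝ) + 2 := by
    have : (c : ℝ) ≤ D := by exact_mod_cast hcD
    linarith
  have hfinal : m ≤ m / 2 := by
    calc m ≤ K * (C * mass F bad) + e * ∑ i ∈ Finset.range (c + 1), P i * m := htotal
      _ ≤ K * (C * (((D : ℝ) + 2) * (C ^ 2 * ((1 + Cm) / B) * m))) +
          ((D : ℝ) + 2) * (1 / B * m) := by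
          refine add_le_add (mul_le_mul_of_nonneg_left (mul_le_mul_of_nonneg_left ?_
            (by linarith)) hK) ?_
          · refine hbadmass.trans (mul_le_mul hcD' ?_ (by positivity) (by positivity))
            refine mul_le_mul_of_nonneg_right (mul_le_mul_of_nonneg_left ?_ (by positivity)) hm0
            rw [add_div]; linarith
          · calc e * ∑ i ∈ Finset.range (c + 1), P i * m
                ≤ e * (((D : ℝ) + 2) * (P (D + 1) * m)) := mul_le_mul_of_nonneg_left hsumP he
              _ = ((D : ℝ) + 2) * ((e * P (D + 1)) * m) := by ring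
              _ ≤ _ := by gcongr
      _ = ((D : ℝ) + 2) * (K * C ^ 3 * (1 + Cm) + 1) / B * m := by ring
      _ ≤ 1 / 2 * m := by
          refine mul_le_mul_of_nonneg_right ?_ hm0
          rw [div_le_iff₀ hB0]
          have hC3 : 1 ≤ C ^ 3 := one_le_pow₀ hC
          have hKC : K * C ^ 3 * (1 + Cm) + 1 ≤ 2 * (C ^ 3 * (K + 1) * (Cm + 1)) := by
            have h1 : (1 : ℝ) ≤ C ^ 3 * (K + 1) * (Cm + 1) := one_le_mul_of_one_le_of_one_le
              (one_le_mul_of_one_le_of_one_le hC3 (by linarith)) (by linarith)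
            have h2 : K * C ^ 3 * (1 + Cm) ≤ C ^ 3 * (K + 1) * (Cm + 1) := by
              calc K * C ^ 3 * (1 + Cm) = C ^ 3 * K * (Cm + 1) := by ring
                _ ≤ _ := by gcongr; linarith
            linarith
          calc ((D : ℝ) + 2) * (K * C ^ 3 * (1 + Cm) + 1)
              ≤ ((D : ℝ) + 2) * (2 * (C ^ 3 * (K + 1) * (Cm + 1))) :=
                mul_le_mul_of_nonneg_left hKC (by positivity)
            _ = 1 / 2 * (4 * ((D : ℝ) + 2) * C ^ 3 * (K + 1) * (Cm + 1)) := by ring
            _ ≤ 1 / 2 * B := mul_le_mul_of_nonneg_left hB (by norm_num)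
      _ = m / 2 := by ring
  have : m = 0 := le_antisymm (by linarith) hm0
  rw [hm] at this
  exact_mod_cast this

lemma cobd_add (j : ℕ) (f g : Finset α → ZMod 2) (σ : Finset α) :
    cobd j (fun ρ => f ρ + g ρ) σ = cobd j f σ + cobd j g σ := Finset.sum_add_distrib

lemma cobd_cobd (j : ℕ) (f : Finset α → ZMod 2) {τ : Finset α} (hτ : τ.card = j + 2) :
    cobd (j + 1) (cobd j f) τ = 0 := by
  rw [cobd_eq_sum_erase _ τ hτ,
    Finset.sum_congr rfl fun x hx => cobd_eq_sum_erase f (τ.erase x) (i := j)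
      (by rw [Finset.card_erase_of_mem hx]; omega), Finset.sum_sigma']
  refine Finset.sum_involution (fun w _ => ⟨w.2, w.1⟩) ?_ ?_ ?_ ?_
  · rintro ⟨x, y⟩ _
    rw [Finset.erase_right_comm]
    exact ZModModule.add_self _
  · rintro ⟨x, y⟩ h _ he
    simp only [Finset.mem_sigma, Finset.mem_erase] at h
    simp only [Sigma.mk.injEq, heq_eq_eq] at he
    exact h.2.1 he.1
  · rintro ⟨x, y⟩ h
    simp only [Finset.mem_sigma, Finset.mem_erase] at h ⊢
    exact ⟨h.2.2, h.2.1.symm, h.1⟩
  · rintro ⟨x, y⟩ _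
    rfl

lemma mass_add_le (F : Finset (Finset α)) (j : ℕ) (f g : Finset α → ZMod 2) :
    mass F (suppOn F j fun σ => f σ + g σ) ≤ mass F (suppOn F j f) + mass F (suppOn F j g) := by
  refine le_trans (mass_mono (T := suppOn F j f ∪ suppOn F j g) fun σ hσ => ?_)
    mass_union_le
  obtain ⟨hσF, hne⟩ := Finset.mem_filter.mp hσ
  rw [Finset.mem_union]
  by_cases h : f σ = 0
  · exact Or.inr (Finset.mem_filter.mpr ⟨hσF, by simpa [h] using hne⟩)
  · exact Or.inl (Finset.mem_filter.mpr ⟨hσF, h⟩)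

/-- Improving locally, with bounded total change. -/
lemma exists_locMin {D : ℕ} (hF : ∀ τ ∈ F, τ.card = D + 1) (j : ℕ) {e : ℝ} (he : 0 < e)
    (f : Finset α → ZMod 2) :
    ∃ h : Finset α → ZMod 2, LocMin F e (j + 1) (cobd j fun σ => f σ + h σ) ∧
      e * mass F (suppOn F j h) ≤ (2 : ℝ) ^ (D + 1) *
        ((mass F (suppOn F (j + 1) (cobd j f)) : ℝ) -
          mass F (suppOn F (j + 1) (cobd j fun σ => f σ + h σ))) := by
  classical
  generalize hn : mass F (suppOn F (j + 1) (cobd j f)) = n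
  induction n using Nat.strong_induction_on generalizing f with
  | _ n ih =>
    by_cases hmin : LocMin F e (j + 1) (cobd j f)
    · refine ⟨fun _ => 0, by simpa using hmin, ?_⟩
      simp [suppOn, mass, ← hn]
    · simp only [LocMin, not_forall, not_le] at hmin
      obtain ⟨ρ, hρ, h1, hh1, hlt⟩ := hmin
      simp only [Nat.add_sub_cancel] at hlt
      have hfun : (fun σ => cobd j f σ + cobd j h1 σ) = cobd j fun σ => f σ + h1 σ := by
        funext σ; rw [cobd_add]
      rw [hfun, hn] at hlt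
      set n' := mass F (suppOn F (j + 1) (cobd j fun σ => f σ + h1 σ)) with hn'
      have hρpos : 0 ≤ e * (cnt F ρ : ℝ) := by positivity
      have hn'n : n' < n := by
        have : (n' : ℝ) < n := by linarith
        exact_mod_cast this
      obtain ⟨h2, hmin2, hb2⟩ := ih n' hn'n (fun σ => f σ + h1 σ) hn'.symm
      refine ⟨fun σ => h1 σ + h2 σ, ?_, ?_⟩
      · simpa [add_assoc] using hmin2
      · have hh : (mass F (suppOn F j h1) : ℝ) ≤ (2 : ℝ) ^ (D + 1) * cnt F ρ := by
          exact_mod_cast sum_cnt_le hF ρ _ fun σ hσ => hh1 σ (Finset.mem_filter.mp hσ).2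
        have hadd : (mass F (suppOn F j fun σ => h1 σ + h2 σ) : ℝ) ≤
            mass F (suppOn F j h1) + mass F (suppOn F j h2) := by
          exact_mod_cast mass_add_le F j h1 h2
        simp only [add_assoc] at hb2
        have hC : (0 : ℝ) ≤ (2 : ℝ) ^ (D + 1) := by positivity
        calc e * (mass F (suppOn F j fun σ => h1 σ + h2 σ) : ℝ)
            ≤ e * mass F (suppOn F j h1) + e * mass F (suppOn F j h2) := by
              rw [← mul_add]; exact mul_le_mul_of_nonneg_left hadd he.le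
          _ ≤ (2 : ℝ) ^ (D + 1) * (e * cnt F ρ) + e * mass F (suppOn F j h2) := by
              have := mul_le_mul_of_nonneg_left hh he.le
              linarith
          _ ≤ _ := by
              have := mul_le_mul_of_nonneg_left (hlt.le) hC
              linarith

/-- From links, mixing and exactness to coboundary expansion. -/
theorem expansion {D j : ℕ} (hF : ∀ τ ∈ F, τ.card = D + 1) (hjD : j + 1 ≤ D)
    {K Cm lam B : ℝ} (hK : 0 ≤ K) (hCm : 0 ≤ Cm) (hlam : 0 ≤ lam)
    (hlink : LinkExpansion F K (j + 1)) (hmix : LinkMixing F D Cm lam)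
    (hB : 4 * ((D : ℝ) + 2) * ((2 : ℝ) ^ (D + 1)) ^ 3 * (K + 1) * (Cm + 1) ≤ B)
    (hlamB : lam * (B * fatP (2 ^ (D + 1)) B (D + 1)) ≤ 1)
    (hexact : ∀ f : Finset α → ZMod 2, (∀ τ ∈ faces F (j + 1), cobd j f τ = 0) →
      ∃ g, ∀ σ ∈ faces F j, f σ = cobd (j - 1) g σ)
    (f : Finset α → ZMod 2) :
    ∃ g, (mass F (suppOn F j fun σ => f σ + cobd (j - 1) g σ) : ℝ) ≤
      (2 : ℝ) ^ (D + 1) * (B * fatP (2 ^ (D + 1)) B (D + 1)) *
        mass F (suppOn F (j + 1) (cobd j f)) := by
  classical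
  set C : ℝ := (2 : ℝ) ^ (D + 1) with hCdef
  have hC : 1 ≤ C := one_le_pow₀ (by norm_num)
  have hB1 : 1 ≤ B := by
    refine le_trans ?_ hB
    have h1 : (1 : ℝ) ≤ 4 * ((D : ℝ) + 2) := by
      have : (0 : ℝ) ≤ D := Nat.cast_nonneg _
      linarith
    exact one_le_mul_of_one_le_of_one_le (one_le_mul_of_one_le_of_one_le
      (one_le_mul_of_one_le_of_one_le h1 (one_le_pow₀ hC)) (by linarith)) (by linarith)
  set Q := fatP C B (D + 1) with hQ
  have hQ1 : 1 ≤ Q := one_le_fatP hC hB1 _
  set mu : ℝ := (mass F (suppOn F (j + 1) (cobd j f)) : ℝ) with hmu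
  have hmu0 : 0 ≤ mu := Nat.cast_nonneg _
  rcases lt_or_ge (Q * mu) (F.card : ℝ) with hs | hs
  · obtain ⟨h, hmin, hhb⟩ := exists_locMin hF j (e := 1 / (B * Q)) (by positivity) f
    set m' : ℝ := (mass F (suppOn F (j + 1) (cobd j fun σ => f σ + h σ)) : ℝ) with hm'
    have hm'0 : 0 ≤ m' := Nat.cast_nonneg _
    have hm'le : m' ≤ mu := by
      have h0 : 0 ≤ 1 / (B * Q) * (mass F (suppOn F j h) : ℝ) := by positivity
      have h1 := h0.trans hhb
      have : 0 ≤ mu - m' := (mul_nonneg_iff_of_pos_left (by positivity)).mp h1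
      linarith
    have hzero := cocycle_eq_zero hF (c := j + 1) (by omega) hjD hK hCm hlam
      (e := 1 / (B * Q)) (by positivity) hlink hmix hB hlamB
      (le_of_eq (by rw [div_mul_cancel₀]; positivity)) hmin
      (fun τ hτ => cobd_cobd j _ (mem_faces.mp hτ).2)
      (lt_of_le_of_lt (mul_le_mul_of_nonneg_left hm'le (by linarith)) hs)
    have hcoc : ∀ τ ∈ faces F (j + 1), cobd j (fun σ => f σ + h σ) τ = 0 := by
      intro τ hτ
      by_contra hne
      have h1 : cnt F τ ≤ mass F (suppOn F (j + 1) (cobd j fun σ => f σ + h σ)) :=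
        Finset.single_le_sum (f := cnt F) (fun _ _ => Nat.zero_le _)
          (Finset.mem_filter.mpr ⟨hτ, hne⟩)
      obtain ⟨⟨ρ, hρ, hsub⟩, -⟩ := mem_faces.mp hτ
      have h2 : 0 < cnt F τ := Finset.card_pos.mpr ⟨ρ, Finset.mem_filter.mpr ⟨hρ, hsub⟩⟩
      omega
    obtain ⟨g, hg⟩ := hexact _ hcoc
    refine ⟨g, ?_⟩
    have hle : mass F (suppOn F j fun σ => f σ + cobd (j - 1) g σ) ≤
        mass F (suppOn F j h) := by
      refine mass_mono fun σ hσ => ?_
      obtain ⟨hσF, hne⟩ := Finset.mem_filter.mp hσ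
      refine Finset.mem_filter.mpr ⟨hσF, fun h0 => hne ?_⟩
      show f σ + cobd (j - 1) g σ = 0
      rw [← hg σ hσF, h0, add_zero]
      exact ZModModule.add_self _
    calc (mass F (suppOn F j fun σ => f σ + cobd (j - 1) g σ) : ℝ)
        ≤ mass F (suppOn F j h) := by exact_mod_cast hle
      _ = B * Q * (1 / (B * Q) * mass F (suppOn F j h)) := by field_simp
      _ ≤ B * Q * (C * (mu - m')) := mul_le_mul_of_nonneg_left hhb (by positivity)
      _ ≤ B * Q * (C * mu) := by gcongr; linarith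
      _ = _ := by ring
  · refine ⟨fun _ => 0, ?_⟩
    have h1 : (mass F (suppOn F j fun σ => f σ + cobd (j - 1) (fun _ => 0) σ) : ℝ) ≤
        C * F.card := by
      have := sum_cnt_le hF ∅ (suppOn F j fun σ => f σ + cobd (j - 1) (fun _ => 0) σ)
        fun σ _ => Finset.empty_subset σ
      have h2 : cnt F ∅ = F.card := by simp [cnt]
      rw [h2] at this
      rw [hCdef]
      exact_mod_cast this
    refine h1.trans ?_
    calc C * (F.card : ℝ) ≤ C * (Q * mu) := mul_le_mul_of_nonneg_left hs (by linarith)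
      _ = C * (1 * Q) * mu := by ring
      _ ≤ _ := by gcongr

end Vale.Agent.HDX.Q
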