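import Vale.Agent.HDX.Q.Flags
import Vale.Agent.HDX.Q.Fill
import Vale.Agent.HDX.Q.LocalGlobal

open Finset

namespace Vale.Agent.HDX.Q

variable {L : Type*} [Lattice L] [BoundedOrder L] [Fintype L] [DecidableEq L] {q : ℕ}
  {G : ℕ → ℕ → ℕ} {P : Geo L q G} {a b : ℕ}

set_option linter.unusedSectionVars false

lemma cnt_flags (σ : Finset L) : cnt (flags P a b) σ = ext P a b σ := rfl

lemma flags_card {τ : Finset L} (h : τ ∈ flags P a b) (hab : a ≤ b) :
    τ.card = b - a + 1 := by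
  rw [(mem_flags.mp h).2]; omega

lemma mem_faces_flags (hbot : P.rk ⊥ ≤ a) (htop : b ≤ P.rk ⊤) {j : ℕ} {σ : Finset L} :
    σ ∈ faces (flags P a b) j ↔ IsFlag P a b σ ∧ σ.card = j := by
  rw [mem_faces]
  constructor
  · rintro ⟨⟨τ, hτ, hστ⟩, hc⟩
    exact ⟨(mem_flags.mp hτ).1.subset hστ, hc⟩
  · rintro ⟨h, hc⟩
    obtain ⟨τ, hτ⟩ := Finset.card_pos.mp (ext_pos h hbot htop)
    obtain ⟨hτ1, hτ2⟩ := Finset.mem_filter.mp hτ
    exact ⟨⟨τ, hτ1, hτ2⟩, hc⟩

lemma IsFlag.sup_eq {σ : Finset L} (h : IsFlag P a b σ) {S : L} (hS : S ∈ σ)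
    (hmax : ∀ T ∈ σ, P.rk T ≤ P.rk S) : σ.sup id = S :=
  le_antisymm (Finset.sup_le fun T hT => h.le_of_rk hT hS (hmax T hT))
    (Finset.le_sup (f := id) hS)

lemma IsFlag.inf_eq {σ : Finset L} (h : IsFlag P a b σ) {S : L} (hS : S ∈ σ)
    (hmin : ∀ T ∈ σ, P.rk S ≤ P.rk T) : σ.inf id = S :=
  le_antisymm (Finset.inf_le (f := id) hS)
    (Finset.le_inf fun T hT => h.le_of_rk hS hT (hmin T hT))

lemma IsFlag.sup_mem {σ : Finset L} (h : IsFlag P a b σ) (hne : σ.Nonempty) :
    σ.sup id ∈ σ := by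
  obtain ⟨S, hS, hmax⟩ := Finset.exists_max_image σ P.rk hne
  rw [h.sup_eq hS hmax]; exact hS

lemma IsFlag.inf_mem {σ : Finset L} (h : IsFlag P a b σ) (hne : σ.Nonempty) :
    σ.inf id ∈ σ := by
  obtain ⟨S, hS, hmin⟩ := Finset.exists_min_image σ P.rk hne
  rw [h.inf_eq hS hmin]; exact hS

lemma flag_ends {τ : Finset L} (h : τ ∈ flags P a b) (hab : a ≤ b) :
    τ.sup id ∈ τ ∧ P.rk (τ.sup id) = b ∧ τ.inf id ∈ τ ∧ P.rk (τ.inf id) = a := by
  obtain ⟨S, hS, hSr⟩ := exists_rank_mem h hab le_rfl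
  obtain ⟨R, hR, hRr⟩ := exists_rank_mem h le_rfl hab
  have hf := (mem_flags.mp h).1
  rw [hf.sup_eq hS fun T hT => hSr ▸ (hf.1 T hT).2, hf.inf_eq hR fun T hT => hRr ▸ (hf.1 T hT).1]
  exact ⟨hS, hSr, hR, hRr⟩

/-- The interval available to a filling of `σ` from the apex `T`. -/
def InGround (T σ : Finset L) (S : L) : Prop := (σ ∪ T).inf id ≤ S ∧ S ≤ (σ ∪ T).sup id

/-- The number of simplices of a cone over a simplex with `j` vertices. -/
def coneBound (D : ℕ) : ℕ → ℕ
  | 0 => fillBound (code (2 * D) (2 * D + 1) (2 * D)) 1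
  | j + 1 => fillBound (code (2 * D) (2 * D + 1) (2 * D)) (1 + (j + 1) * coneBound D j)

/-- Cones in the link of `ρ` with apex a complete chain `T`. -/
lemma exists_link_cones (P : Geo L q G) (a b : ℕ) (hab : a ≤ b) {ρ T : Finset L}
    (hT : T ∈ flags P a b) (hρT : ρ ⊆ T) :
    ∃ C : Finset L → Ch L, ∀ σ, IsFlag P a b (ρ ∪ σ) → Disjoint σ ρ →
      σ.card + ρ.card + a ≤ b →
      Supp (fun τ => Simp P ⊤ ⊥ a b ρ (σ.card + 1) τ ∧ ∀ S ∈ τ, InGround T σ S) (C σ) ∧
        bd (C σ) = Finsupp.single σ 1 + ∑ x ∈ σ, C (σ.erase x) ∧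
        (ρ.Nonempty → (C σ).support.card ≤ coneBound (b - a) σ.card) := by
  classical
  suffices h : ∀ j, ∃ C : Finset L → Ch L, ∀ σ, σ.card ≤ j → IsFlag P a b (ρ ∪ σ) →
      Disjoint σ ρ → σ.card + ρ.card + a ≤ b →
      Supp (fun τ => Simp P ⊤ ⊥ a b ρ (σ.card + 1) τ ∧ ∀ S ∈ τ, InGround T σ S) (C σ) ∧
        bd (C σ) = Finsupp.single σ 1 + ∑ x ∈ σ, C (σ.erase x) ∧
        (ρ.Nonempty → (C σ).support.card ≤ coneBound (b - a) σ.card) by
    obtain ⟨C, hC⟩ := h b
    exact ⟨C, fun σ h1 h2 h3 => hC σ (by omega) h1 h2 h3⟩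
  obtain ⟨hTt, hTtr, hTb, hTbr⟩ := flag_ends hT hab
  have hTf := (mem_flags.mp hT).1
  have hρf : IsFlag P a b ρ := hTf.subset hρT
  -- the single filling step
  have hstep : ∀ (C : Finset L → Ch L) (σ : Finset L), IsFlag P a b (ρ ∪ σ) → Disjoint σ ρ →
      σ.card + ρ.card + a ≤ b →
      (∀ x ∈ σ, Supp (fun τ => Simp P ⊤ ⊥ a b ρ σ.card τ ∧
          ∀ S ∈ τ, InGround T σ S) (C (σ.erase x))) →
      bd (Finsupp.single σ 1 + ∑ x ∈ σ, C (σ.erase x)) = 0 →
      ∃ w, Supp (fun τ => Simp P ⊤ ⊥ a b ρ (σ.card + 1) τ ∧ ∀ S ∈ τ, InGround T σ S) w ∧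
        bd w = Finsupp.single σ 1 + ∑ x ∈ σ, C (σ.erase x) ∧
        (ρ.Nonempty → ∀ m, (∀ x ∈ σ, (C (σ.erase x)).support.card ≤ m) → w.support.card ≤
          fillBound (code (2 * (b - a)) (2 * (b - a) + 1) (2 * (b - a))) (1 + σ.card * m)) := by
    intro C σ hσ hdis hcard hC hbd
    set U := (σ ∪ T).sup id with hU
    set W := (σ ∪ T).inf id with hW
    have hle : ∀ S ∈ σ ∪ T, W ≤ S ∧ S ≤ U := fun S hS =>
      ⟨Finset.inf_le (f := id) hS, Finset.le_sup (f := id) hS⟩
    have hTin : ∀ {S}, S ∈ T → W ≤ S ∧ S ≤ U := fun hS => hle _ (Finset.mem_union_right _ hS)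
    have hUr : b ≤ P.rk U := hTtr ▸ P.mono (hTin hTt).2
    have hWr : P.rk W ≤ a := hTbr ▸ P.mono (hTin hTb).1
    set Lc := U ⊓ ρ.inf id with hLc
    have hWU : W ≤ U := (hTin hTt).1.trans (hTin hTt).2
    have hWL : W ≤ Lc := le_inf hWU (Finset.le_inf fun R hR => (hTin (hρT hR)).1)
    have hρ0 : ρ = ∅ → b ≤ P.rk Lc := by
      intro h
      rw [hLc, h, Finset.inf_empty, inf_top_eq]
      exact hUr
    have hz : Supp (Seg P U W Lc a b ρ σ.card)
        (Finsupp.single σ 1 + ∑ x ∈ σ, C (σ.erase x)) := by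
      refine Supp.add ?_ ?_
      · refine Supp.single ?_ 1
        refine ⟨⟨rfl, fun S hS => ?_, fun S hS R hR => hσ.2 S (Finset.mem_union_right _ hS) R
          (Finset.mem_union_right _ hR)⟩, fun S hS h =>
            le_inf (hle S (Finset.mem_union_left _ hS)).2 (Finset.le_inf h)⟩
        obtain ⟨h1, h2⟩ := hle S (Finset.mem_union_left _ hS)
        obtain ⟨h3, h4⟩ := hσ.1 S (Finset.mem_union_right _ hS)
        exact ⟨h1, h2, h3, h4, Finset.disjoint_left.mp hdis hS,
          fun R hR => hσ.2 S (Finset.mem_union_right _ hS) R (Finset.mem_union_left _ hR)⟩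
      · refine Supp.sum fun x hx => ?_
        refine (hC x hx).mono fun τ hτ => ?_
        refine ⟨⟨hτ.1.1, fun S hS => ⟨(hτ.2 S hS).1, (hτ.2 S hS).2, (hτ.1.2.1 S hS).2.2⟩,
          hτ.1.2.2⟩, fun S hS h => le_inf (hτ.2 S hS).2 (Finset.le_inf h)⟩
    obtain ⟨w, hw, hwbd, hwsize⟩ := exists_filling P U b hUr _ W Lc a ρ rfl hWL inf_le_left hWr
      (by omega)
      (fun R hR => ⟨(hTin (hρT hR)).1, (hTin (hρT hR)).2, (hρf.1 R hR).1, (hρf.1 R hR).2⟩)
      (fun R hR R' hR' => hρf.2 R hR R' hR')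
      (fun R hR => inf_le_right.trans (Finset.inf_le (f := id) hR)) hρ0
      (fun R hR h => by
        have : R ≤ Lc := le_inf (hTin (hρT hR)).2 (Finset.le_inf h)
        exact (P.mono this).trans (Nat.le_succ _))
      σ.card hcard (Finsupp.single σ 1 + ∑ x ∈ σ, C (σ.erase x)) hz hbd
    refine ⟨w, hw.mono fun τ hτ => ⟨⟨hτ.1.1, fun S hS => ?_, hτ.1.2.2⟩,
      fun S hS => ⟨(hτ.1.2.1 S hS).1, (hτ.1.2.1 S hS).2.1⟩⟩, hwbd, fun hne m hm => ?_⟩
    rotate_left
    · refine hwsize.trans ((fillBound_le ?_ _).trans (fillBound_mono _ ?_))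
      · obtain ⟨M, hM⟩ := hne
        have hMr := hρf.1 M hM
        have hσρ := Finset.union_subset_union (subset_refl ρ) (subset_refl σ)
        have hne' : (ρ ∪ σ).Nonempty := ⟨M, Finset.mem_union_left _ hM⟩
        have hSt := (hσ.1 _ (hσ.sup_mem hne')).2
        have hSb := (hσ.1 _ (hσ.inf_mem hne')).1
        have hU' : U ≤ T.sup id ⊔ (ρ ∪ σ).sup id := Finset.sup_le fun S hS => by
          rcases Finset.mem_union.mp hS with h | h
          · exact (Finset.le_sup (f := id) (Finset.mem_union_right ρ h)).trans le_sup_right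
          · exact (Finset.le_sup (f := id) h).trans le_sup_left
        have hW' : T.inf id ⊓ (ρ ∪ σ).inf id ≤ W := Finset.le_inf fun S hS => by
          rcases Finset.mem_union.mp hS with h | h
          · exact inf_le_right.trans (Finset.inf_le (f := id) (Finset.mem_union_right ρ h))
          · exact inf_le_left.trans (Finset.inf_le (f := id) h)
        have h1 := P.mono hU'
        have h2 := P.mono hW'
        have h3 := P.modular (T.sup id) ((ρ ∪ σ).sup id)
        have h4 := P.modular (T.inf id) ((ρ ∪ σ).inf id)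
        have h5 : P.rk M ≤ P.rk (T.sup id ⊓ (ρ ∪ σ).sup id) := P.mono (le_inf
          (Finset.le_sup (f := id) (hρT hM)) (Finset.le_sup (f := id) (Finset.mem_union_left σ hM)))
        have h6 : P.rk (T.inf id ⊔ (ρ ∪ σ).inf id) ≤ P.rk M := P.mono (sup_le
          (Finset.inf_le (f := id) (hρT hM)) (Finset.inf_le (f := id) (Finset.mem_union_left σ hM)))
        have h7 : P.rk U - P.rk W ≤ 2 * (b - a) := by omega
        have h8 : P.rk Lc - P.rk W ≤ 2 * (b - a) := by
          have := P.mono (show Lc ≤ U from inf_le_left)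
          omega
        have h9 : ρ.card ≤ 2 * (b - a) + 1 := by
          have := hρf.card_le
          omega
        unfold code
        gcongr
      · refine (size_add_le _ _).trans (Nat.add_le_add (size_single_le _ _) ?_)
        refine (size_sum_le _ _).trans ((Finset.sum_le_card_nsmul _ _ m hm).trans ?_)
        rw [smul_eq_mul]
    obtain ⟨-, -, h3⟩ := hτ.1.2.1 S hS
    exact ⟨bot_le, le_top, h3⟩
  intro j
  induction j with
  | zero =>
    by_cases h : IsFlag P a b (ρ ∪ ∅) ∧ (∅ : Finset L).card + ρ.card + a ≤ b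
    · obtain ⟨w, hw, hwbd, hwsize⟩ := hstep (fun _ => 0) ∅ h.1 (Finset.disjoint_empty_left ρ) h.2
        (by simp) (by simp [bd_single])
      refine ⟨fun _ => w, fun σ hσ _ _ _ => ?_⟩
      obtain rfl : σ = ∅ := Finset.card_eq_zero.mp (by omega)
      refine ⟨hw, by simpa using hwbd, fun hne => ?_⟩
      rw [Finset.card_empty, coneBound]
      simpa using hwsize hne 0 (by simp)
    · refine ⟨fun _ => 0, fun σ hσ h1 h2 h3 => ?_⟩
      obtain rfl : σ = ∅ := Finset.card_eq_zero.mp (by omega)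
      exact absurd ⟨h1, h3⟩ h
  | succ j ih =>
    obtain ⟨C, hC⟩ := ih
    have hnew : ∀ σ : Finset L, ∃ w : Ch L, σ.card = j + 1 → IsFlag P a b (ρ ∪ σ) →
        Disjoint σ ρ → σ.card + ρ.card + a ≤ b →
        Supp (fun τ => Simp P ⊤ ⊥ a b ρ (σ.card + 1) τ ∧ ∀ S ∈ τ, InGround T σ S) w ∧
          bd w = Finsupp.single σ 1 + ∑ x ∈ σ, C (σ.erase x) ∧
          (ρ.Nonempty → w.support.card ≤ coneBound (b - a) σ.card) := by
      intro σ
      by_cases h : σ.card = j + 1 ∧ IsFlag P a b (ρ ∪ σ) ∧ Disjoint σ ρ ∧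
          σ.card + ρ.card + a ≤ b
      · obtain ⟨hc, hf, hd, hb'⟩ := h
        have hC' : ∀ x ∈ σ,
            Supp (fun τ => Simp P ⊤ ⊥ a b ρ ((σ.erase x).card + 1) τ ∧
              ∀ S ∈ τ, InGround T (σ.erase x) S) (C (σ.erase x)) ∧
            bd (C (σ.erase x)) = Finsupp.single (σ.erase x) 1 +
              ∑ y ∈ σ.erase x, C ((σ.erase x).erase y) ∧
            (ρ.Nonempty → (C (σ.erase x)).support.card ≤ coneBound (b - a) (σ.erase x).card) :=
          fun x hx => hC _ (by rw [Finset.card_erase_of_mem hx]; omega)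
            (hf.subset (Finset.union_subset_union subset_rfl (Finset.erase_subset _ _)))
            (Disjoint.mono_left (Finset.erase_subset _ _) hd)
            (by rw [Finset.card_erase_of_mem hx]; omega)
        obtain ⟨w, hw, hwbd, hwsize⟩ := hstep C σ hf hd hb' (fun x hx => (hC' x hx).1.mono fun τ hτ => by
          obtain ⟨h1, h2⟩ := hτ
          rw [Finset.card_erase_add_one hx] at h1
          refine ⟨h1, fun S hS => ⟨le_trans ?_ (h2 S hS).1, (h2 S hS).2.trans ?_⟩⟩
          · exact Finset.inf_mono (Finset.union_subset_union (Finset.erase_subset _ _) subset_rfl)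
          · exact Finset.sup_mono (Finset.union_subset_union (Finset.erase_subset _ _) subset_rfl))
          (by
            rw [map_add, map_sum, bd_single, ← Finset.sum_add_distrib,
              Finset.sum_congr rfl fun x hx => by
                rw [(hC' x hx).2.1, ← add_assoc, ZModModule.add_self, zero_add]]
            rw [Finset.sum_sigma']
            refine Finset.sum_involution (fun w _ => ⟨w.2, w.1⟩) ?_ ?_ ?_ ?_
            · rintro ⟨x, y⟩ _
              rw [Finset.erase_right_comm]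
              exact ZModModule.add_self _
            · rintro ⟨x, y⟩ h _ he'
              simp only [Finset.mem_sigma, Finset.mem_erase] at h
              simp only [Sigma.mk.injEq, heq_eq_eq] at he'
              exact h.2.1 he'.1
            · rintro ⟨x, y⟩ h
              simp only [Finset.mem_sigma, Finset.mem_erase] at h ⊢
              exact ⟨h.2.2, h.2.1.symm, h.1⟩
            · rintro ⟨x, y⟩ _
              rfl)
        refine ⟨w, fun _ _ _ _ => ⟨hw, hwbd, fun hne => ?_⟩⟩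
        rw [hc, coneBound]
        refine (hwsize hne (coneBound (b - a) j) fun x hx => ((hC' x hx).2.2 hne).trans_eq ?_).trans
          (le_of_eq (by rw [hc]))
        rw [Finset.card_erase_of_mem hx, hc, Nat.add_sub_cancel]
      · exact ⟨0, fun h1 h2 h3 h4 => absurd ⟨h1, h2, h3, h4⟩ h⟩
    choose Wf hWf using hnew
    refine ⟨fun σ => if σ.card ≤ j then C σ else Wf σ, fun σ hσ h1 h2 h3 => ?_⟩
    dsimp only
    have hsum : ∀ x ∈ σ, (if (σ.erase x).card ≤ j then C (σ.erase x) else Wf (σ.erase x)) =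
        C (σ.erase x) := fun x hx => if_pos (by rw [Finset.card_erase_of_mem hx]; omega)
    rw [Finset.sum_congr rfl hsum]
    by_cases hle : σ.card ≤ j
    · rw [if_pos hle]; exact hC σ hle h1 h2 h3
    · rw [if_neg hle]; exact hWf σ (by omega) h1 h2 h3

/-- The rank preserving automorphisms act transitively on complete chains. -/
def Homog (P : Geo L q G) (a b : ℕ) : Prop :=
  ∀ T ∈ flags P a b, ∀ T' ∈ flags P a b,
    ∃ e : L ≃o L, (∀ x, P.rk (e x) = P.rk x) ∧ T.image e = T'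

noncomputable instance : Fintype (L ≃o L) :=
  Fintype.ofInjective (fun e : L ≃o L => e.toEquiv) RelIso.toEquiv_injective

open Classical in
/-- The rank preserving automorphisms fixing a chain. -/
noncomputable def autos (P : Geo L q G) (ρ : Finset L) : Finset (L ≃o L) :=
  Finset.univ.filter fun e => (∀ x, P.rk (e x) = P.rk x) ∧ ρ.image e = ρ

lemma mem_autos {ρ : Finset L} {e : L ≃o L} :
    e ∈ autos P ρ ↔ (∀ x, P.rk (e x) = P.rk x) ∧ ρ.image e = ρ := by
  simp [autos]

lemma image_symm_image (e : L ≃o L) (σ : Finset L) : (σ.image e).image e.symm = σ := by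
  rw [Finset.image_image, show (e.symm ∘ e : L → L) = id from funext e.symm_apply_apply,
    Finset.image_id]

lemma image_image_symm (e : L ≃o L) (σ : Finset L) : (σ.image e.symm).image e = σ := by
  rw [Finset.image_image, show (e ∘ e.symm : L → L) = id from funext e.apply_symm_apply,
    Finset.image_id]

lemma symm_mem_autos {ρ : Finset L} {e : L ≃o L} (he : e ∈ autos P ρ) :
    e.symm ∈ autos P ρ := by
  obtain ⟨h1, h2⟩ := mem_autos.mp he
  refine mem_autos.mpr ⟨fun x => ?_, ?_⟩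
  · simpa using (h1 (e.symm x)).symm
  · conv_lhs => rw [← h2]
    exact image_symm_image e ρ

lemma IsFlag.map {σ : Finset L} (h : IsFlag P a b σ) {e : L ≃o L}
    (he : ∀ x, P.rk (e x) = P.rk x) : IsFlag P a b (σ.image e) := by
  refine ⟨fun S hS => ?_, fun S hS T hT => ?_⟩
  · obtain ⟨S, hS', rfl⟩ := Finset.mem_image.mp hS
    rw [he]; exact h.1 S hS'
  · obtain ⟨S, hS', rfl⟩ := Finset.mem_image.mp hS
    obtain ⟨T, hT', rfl⟩ := Finset.mem_image.mp hT
    simpa using h.2 S hS' T hT'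

lemma flags_map {τ : Finset L} (h : τ ∈ flags P a b) {e : L ≃o L}
    (he : ∀ x, P.rk (e x) = P.rk x) : τ.image e ∈ flags P a b :=
  mem_flags.mpr ⟨(mem_flags.mp h).1.map he,
    (Finset.card_image_of_injective τ e.injective).trans (mem_flags.mp h).2⟩

lemma cnt_map {σ : Finset L} {e : L ≃o L} (he : ∀ x, P.rk (e x) = P.rk x) :
    cnt (flags P a b) (σ.image e) = cnt (flags P a b) σ := by
  classical
  have hes : ∀ x, P.rk (e.symm x) = P.rk x := fun x => by simpa using (he (e.symm x)).symm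
  refine Finset.card_nbij' (fun τ => τ.image e.symm) (fun τ => τ.image e) ?_ ?_ ?_ ?_
  · intro τ hτ
    obtain ⟨h1, h2⟩ := Finset.mem_filter.mp hτ
    refine Finset.mem_filter.mpr ⟨flags_map h1 hes, ?_⟩
    rw [← image_symm_image e σ]
    exact Finset.image_subset_image h2
  · intro τ hτ
    obtain ⟨h1, h2⟩ := Finset.mem_filter.mp hτ
    exact Finset.mem_filter.mpr ⟨flags_map h1 he, Finset.image_subset_image h2⟩
  · exact fun τ _ => image_image_symm e τ
  · exact fun τ _ => image_symm_image e τ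

open Classical in
/-- The automorphisms are equidistributed on the complete chains through `ρ`. -/
lemma autos_equi (hH : Homog P a b) {ρ T X : Finset L} (hT : T ∈ flags P a b) (hρT : ρ ⊆ T)
    (hX : X ∈ flags P a b) (hρX : ρ ⊆ X) :
    ((flags P a b).filter fun τ => ρ ⊆ τ).card *
      ((autos P ρ).filter fun e : L ≃o L => T.image e = X).card = (autos P ρ).card := by
  set H := autos P ρ with hH'
  set Lk := (flags P a b).filter fun τ => ρ ⊆ τ with hLk
  have hmove : ∀ e ∈ H, T.image e ∈ Lk := by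
    intro e he
    obtain ⟨h3, h4⟩ := mem_autos.mp he
    exact Finset.mem_filter.mpr ⟨flags_map hT h3, h4 ▸ Finset.image_subset_image hρT⟩
  have hle : ∀ X ∈ Lk, ∀ X' ∈ Lk, (H.filter fun e : L ≃o L => T.image e = X).card ≤
      (H.filter fun e : L ≃o L => T.image e = X').card := by
    intro X hX X' hX'
    obtain ⟨hXF, hρX⟩ := Finset.mem_filter.mp hX
    obtain ⟨hX'F, hρX'⟩ := Finset.mem_filter.mp hX'
    obtain ⟨u, hu, huX⟩ := hH X hXF X' hX'F
    have huρ : ρ.image u = ρ := by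
      refine Finset.eq_of_subset_of_card_le (fun y hy => ?_)
        (Finset.card_image_of_injective ρ u.injective).ge
      obtain ⟨x, hx, rfl⟩ := Finset.mem_image.mp hy
      have h1 : u x ∈ X' := huX ▸ Finset.mem_image_of_mem u (hρX hx)
      rw [(mem_flags.mp hX'F).1.injOn h1 (hρX' hx) (hu x)]
      exact hx
    refine Finset.card_le_card_of_injOn (fun e : L ≃o L => e.trans u) (fun e he => ?_)
      (fun e _ e' _ h => OrderIso.ext (funext fun x => u.injective ?_))
    · obtain ⟨he1, he2⟩ := Finset.mem_filter.mp (Finset.mem_coe.mp he)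
      obtain ⟨he3, he4⟩ := mem_autos.mp he1
      refine Finset.mem_coe.mpr (Finset.mem_filter.mpr ⟨mem_autos.mpr ⟨fun x => ?_, ?_⟩, ?_⟩)
      · simp [hu, he3]
      · rw [OrderIso.coe_trans, ← Finset.image_image, he4, huρ]
      · rw [OrderIso.coe_trans, ← Finset.image_image, he2, huX]
    · simpa using DFunLike.congr_fun h x
  have hXLk : X ∈ Lk := Finset.mem_filter.mpr ⟨hX, hρX⟩
  have hsum : H.card = ∑ X' ∈ Lk, (H.filter fun e : L ≃o L => T.image e = X').card :=
    Finset.card_eq_sum_card_fiberwise hmove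
  rw [hsum]
  exact (Finset.sum_const_nat fun X' hX' => le_antisymm (hle X' hX' X hXLk)
    (hle X hXLk X' hX')).symm

open Classical in
/-- Few automorphisms carry a face onto a given one. -/
lemma autos_fibre (hbot : P.rk ⊥ ≤ a) (htop : b ≤ P.rk ⊤) (hH : Homog P a b) {ρ τ : Finset L}
    (hτ : IsFlag P a b τ) (hρτ : ρ ⊆ τ) (τ' : Finset L) :
    ((flags P a b).filter fun η => ρ ⊆ η).card *
      ((autos P ρ).filter fun e : L ≃o L => τ.image e = τ').card ≤
        cnt (flags P a b) τ' * (autos P ρ).card := by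
  obtain ⟨T, hT⟩ := Finset.card_pos.mp (ext_pos hτ hbot htop)
  obtain ⟨hTF, hτT⟩ := Finset.mem_filter.mp hT
  set Lk := (flags P a b).filter fun η => ρ ⊆ η with hLk
  set A := Lk.filter fun X => τ' ⊆ X with hA
  calc Lk.card * ((autos P ρ).filter fun e : L ≃o L => τ.image e = τ').card
      ≤ Lk.card * ∑ X ∈ A, ((autos P ρ).filter fun e : L ≃o L => T.image e = X).card := by
        refine Nat.mul_le_mul_left _ ((Finset.card_le_card (t := A.biUnion fun X =>
          (autos P ρ).filter fun e : L ≃o L => T.image e = X) fun e he => ?_).trans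
          Finset.card_biUnion_le)
        obtain ⟨he1, he2⟩ := Finset.mem_filter.mp he
        obtain ⟨h3, h4⟩ := mem_autos.mp he1
        exact Finset.mem_biUnion.mpr ⟨T.image e, Finset.mem_filter.mpr
          ⟨Finset.mem_filter.mpr ⟨flags_map hTF h3,
            h4 ▸ Finset.image_subset_image (hρτ.trans hτT)⟩,
            he2 ▸ Finset.image_subset_image hτT⟩,
          Finset.mem_filter.mpr ⟨he1, rfl⟩⟩
    _ = A.card * (autos P ρ).card := by
        rw [Finset.mul_sum]
        refine Finset.sum_const_nat fun X hX => ?_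
        obtain ⟨h1, h2⟩ := Finset.mem_filter.mp (Finset.mem_filter.mp hX).1
        exact autos_equi hH hTF (hρτ.trans hτT) h1 h2
    _ ≤ cnt (flags P a b) τ' * (autos P ρ).card :=
        Nat.mul_le_mul_right _ (Finset.card_le_card fun X hX => by
          obtain ⟨h1, h2⟩ := Finset.mem_filter.mp hX
          exact Finset.mem_filter.mpr ⟨(Finset.mem_filter.mp h1).1, h2⟩)

open Classical in
/-- The average number of hits on a family is small. -/
lemma hits_le (hbot : P.rk ⊥ ≤ a) (htop : b ≤ P.rk ⊤) (hH : Homog P a b) {ρ : Finset L} {N : ℕ}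
    (Φ : Finset (Finset L)) (hN : Φ.card ≤ N) (hΦ : ∀ τ ∈ Φ, IsFlag P a b τ ∧ ρ ⊆ τ)
    (S : Finset (Finset L)) :
    ((flags P a b).filter fun η => ρ ⊆ η).card *
      ((autos P ρ).filter fun e : L ≃o L => ∃ τ ∈ Φ, τ.image e ∈ S).card ≤
        N * (mass (flags P a b) S * (autos P ρ).card) := by
  set Lk := (flags P a b).filter fun η => ρ ⊆ η with hLk
  calc Lk.card * ((autos P ρ).filter fun e : L ≃o L => ∃ τ ∈ Φ, τ.image e ∈ S).card
      ≤ Lk.card * ∑ τ ∈ Φ, ∑ τ' ∈ S,
          ((autos P ρ).filter fun e : L ≃o L => τ.image e = τ').card := by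
        refine Nat.mul_le_mul_left _ ((Finset.card_le_card (t := Φ.biUnion fun τ => S.biUnion
          fun τ' => (autos P ρ).filter fun e : L ≃o L => τ.image e = τ') fun e he => ?_).trans
          (Finset.card_biUnion_le.trans (Finset.sum_le_sum fun τ _ => Finset.card_biUnion_le)))
        obtain ⟨he1, τ, hτ, hτS⟩ := Finset.mem_filter.mp he
        exact Finset.mem_biUnion.mpr ⟨τ, hτ, Finset.mem_biUnion.mpr
          ⟨τ.image e, hτS, Finset.mem_filter.mpr ⟨he1, rfl⟩⟩⟩
    _ ≤ ∑ _τ ∈ Φ, mass (flags P a b) S * (autos P ρ).card := by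
        rw [Finset.mul_sum]
        refine Finset.sum_le_sum fun τ hτ => ?_
        rw [Finset.mul_sum, mass, Finset.sum_mul]
        exact Finset.sum_le_sum fun τ' _ => autos_fibre hbot htop hH (hΦ τ hτ).1 (hΦ τ hτ).2 τ'
    _ ≤ _ := by
        rw [Finset.sum_const, smul_eq_mul]
        exact Nat.mul_le_mul_right _ hN

/-- Averaging over the automorphisms: some automorphism moves few faces onto a given family. -/
lemma exists_good_aut (hbot : P.rk ⊥ ≤ a) (htop : b ≤ P.rk ⊤) (hab : a ≤ b) (hH : Homog P a b)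
    {ρ : Finset L} (hρ : IsFlag P a b ρ) {c N : ℕ} (Ψ : Finset L → Finset (Finset L))
    (hΨ : ∀ σ ∈ faces (flags P a b) c, ρ ⊆ σ →
      (Ψ σ).card ≤ N ∧ ∀ τ ∈ Ψ σ, IsFlag P a b τ ∧ ρ ⊆ τ)
    (S : Finset (Finset L)) :
    ∃ e ∈ autos P ρ, mass (flags P a b) ((faces (flags P a b) c).filter fun σ =>
        ρ ⊆ σ ∧ ∃ τ ∈ Ψ σ, τ.image e ∈ S) ≤
      2 ^ (b - a + 1) * N * mass (flags P a b) S := by
  classical
  set F := flags P a b with hF
  set H := autos P ρ with hH'
  set Lk := F.filter fun τ => ρ ⊆ τ with hLk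
  have hLk0 : 0 < Lk.card := ext_pos hρ hbot htop
  have hHne : H.Nonempty := ⟨OrderIso.refl L, mem_autos.mpr ⟨fun _ => rfl, by simp⟩⟩
  set B := (faces F c).filter fun σ => ρ ⊆ σ with hB
  have hBm : mass F B ≤ 2 ^ (b - a + 1) * Lk.card :=
    sum_cnt_le (fun τ hτ => flags_card hτ hab) ρ B fun σ hσ => (Finset.mem_filter.mp hσ).2
  have hswap : ∑ e ∈ H, mass F ((faces F c).filter fun σ =>
        ρ ⊆ σ ∧ ∃ τ ∈ Ψ σ, τ.image e ∈ S) =
      ∑ σ ∈ B, cnt F σ * (H.filter fun e : L ≃o L => ∃ τ ∈ Ψ σ, τ.image e ∈ S).card := by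
    simp only [mass, hB, ← Finset.filter_filter]
    simp only [Finset.sum_filter (p := fun σ => ∃ τ ∈ Ψ σ, _), Finset.card_filter, Finset.mul_sum]
    rw [Finset.sum_comm]
    simp only [mul_ite, mul_one, mul_zero]
  have hsum : ∑ e ∈ H, mass F ((faces F c).filter fun σ =>
        ρ ⊆ σ ∧ ∃ τ ∈ Ψ σ, τ.image e ∈ S) ≤
      ∑ _e ∈ H, 2 ^ (b - a + 1) * N * mass F S := by
    refine Nat.le_of_mul_le_mul_left ?_ hLk0
    rw [hswap, Finset.mul_sum, Finset.sum_const, smul_eq_mul]
    refine (Finset.sum_le_sum (g := fun σ => cnt F σ * (N * (mass F S * H.card)))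
      fun σ hσ => ?_).trans ?_
    · obtain ⟨hσF, hρσ⟩ := Finset.mem_filter.mp hσ
      rw [Nat.mul_left_comm]
      exact Nat.mul_le_mul_left _
        (hits_le hbot htop hH (Ψ σ) (hΨ σ hσF hρσ).1 (hΨ σ hσF hρσ).2 S)
    · rw [← Finset.sum_mul]
      refine (Nat.mul_le_mul_right _ hBm).trans_eq ?_
      ring
  exact Finset.exists_le_of_sum_le hHne hsum

/-- Evaluation of a cochain on a chain. -/
noncomputable def ev (f : Finset L → ZMod 2) : Ch L →ₗ[ZMod 2] ZMod 2 :=
  Finsupp.linearCombination (ZMod 2) f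

lemma ev_bd (f : Finset L → ZMod 2) {z : Ch L} {i : ℕ}
    (hz : Supp (fun τ => τ.card = i + 1) z) : ev f (bd z) = ev (cobd i f) z := by
  conv_lhs => rw [← Finsupp.sum_single z]
  conv_rhs => rw [← Finsupp.sum_single z]
  rw [Finsupp.sum, map_sum, map_sum, map_sum]
  refine Finset.sum_congr rfl fun τ hτ => ?_
  have : (Finsupp.single τ (z τ) : Ch L) = z τ • Finsupp.single τ 1 := by simp
  rw [this, map_smul, map_smul, map_smul, bd_single, map_sum]
  simp [ev, cobd_eq_sum_erase f τ (hz τ hτ)]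

lemma exists_of_ev_ne_zero {f : Finset L → ZMod 2} {z : Ch L} (h : ev f z ≠ 0) :
    ∃ τ ∈ z.support, f τ ≠ 0 := by
  by_contra hcon
  push Not at hcon
  refine h ?_
  rw [ev, Finsupp.linearCombination_apply]
  exact Finset.sum_eq_zero fun τ hτ => by simp [hcon τ hτ]

/-- Pulling a cochain back along an automorphism. -/
lemma cobd_map (e : L ≃o L) (j : ℕ) (f : Finset L → ZMod 2) (τ : Finset L) :
    cobd j (fun η => f (η.image e)) τ = cobd j f (τ.image e) := by
  rw [cobd, cobd, show τ.image e = τ.map e.toEquiv.toEmbedding from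
    (Finset.map_eq_image _ _).symm, Finset.powersetCard_map, Finset.sum_map]
  refine Finset.sum_congr rfl fun η _ => congrArg f ?_
  exact (Finset.map_eq_image e.toEquiv.toEmbedding η).symm

/-- A cone fills a face up to the coboundary of the cochain. -/
lemma cone_defect {ρ σ : Finset L} {c : ℕ} (hρ : IsFlag P a b ρ)
    (hσf : IsFlag P a b σ) (hσc : σ.card = c) (hc : c + a ≤ b) (hne : ρ.Nonempty)
    {C : Finset L → Ch L} {T : Finset L}
    (hC : ∀ σ, IsFlag P a b (ρ ∪ σ) → Disjoint σ ρ → σ.card + ρ.card + a ≤ b →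
      Supp (fun τ => Simp P ⊤ ⊥ a b ρ (σ.card + 1) τ ∧ ∀ S ∈ τ, InGround T σ S) (C σ) ∧
        bd (C σ) = Finsupp.single σ 1 + ∑ x ∈ σ, C (σ.erase x) ∧
        (ρ.Nonempty → (C σ).support.card ≤ coneBound (b - a) σ.card))
    {g : Finset L → ZMod 2} (hg : ∀ σ, g σ ≠ 0 → ρ ⊆ σ)
    (hval : g σ + cobd (c - 1)
      (fun η => if ρ ⊆ η then ev (fun τ => g (ρ ∪ τ)) (C (η \ ρ)) else 0) σ ≠ 0) :
    ρ ⊆ σ ∧ ∃ τ ∈ (C (σ \ ρ)).support, cobd c g (ρ ∪ τ) ≠ 0 := by
  set g' : Finset L → ZMod 2 := fun τ => g (ρ ∪ τ) with hg'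
  have hρσ : ρ ⊆ σ := by
    by_contra h
    refine hval ?_
    have h1 : g σ = 0 := by by_contra h'; exact h (hg σ h')
    have h2 : cobd (c - 1) (fun η => if ρ ⊆ η then ev g' (C (η \ ρ)) else 0) σ = 0 :=
      Finset.sum_eq_zero fun η hη =>
        if_neg fun h' => h (h'.trans (Finset.mem_powersetCard.mp hη).1)
    rw [h1, h2, add_zero]
  refine ⟨hρσ, ?_⟩
  have hc1 : 1 ≤ c := hσc ▸ (Finset.card_pos.mpr hne).trans_le (Finset.card_le_card hρσ)
  set σ₀ := σ \ ρ with hσ₀
  have hσun : ρ ∪ σ₀ = σ := Finset.union_sdiff_of_subset hρσ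
  have hdis : Disjoint σ₀ ρ := Finset.sdiff_disjoint
  have hσ₀c : σ₀.card + ρ.card = c := by
    rw [hσ₀, Finset.card_sdiff_of_subset hρσ, hσc]
    have := Finset.card_le_card hρσ
    omega
  obtain ⟨hsupp, hbd, -⟩ := hC σ₀ (hσun ▸ hσf) hdis (by omega)
  have hev : g σ + cobd (c - 1) (fun η => if ρ ⊆ η then ev g' (C (η \ ρ)) else 0) σ =
      ev (cobd σ₀.card g') (C σ₀) := by
    rw [← ev_bd g' (hsupp.mono fun τ h => h.1.1), hbd, map_add, map_sum,
      cobd_eq_sum_erase _ σ (i := c - 1) (by omega)]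
    congr 1
    · simp [ev, hg', hσun]
    · refine (Finset.sum_subset Finset.sdiff_subset fun x hx hx' => ?_).symm.trans
        (Finset.sum_congr rfl fun x hx => ?_)
      · have hxρ : x ∈ ρ := by
          by_contra h; exact hx' (Finset.mem_sdiff.mpr ⟨hx, h⟩)
        exact if_neg fun h => Finset.notMem_erase x σ (h hxρ)
      · obtain ⟨hxσ, hxρ⟩ := Finset.mem_sdiff.mp hx
        rw [if_pos (Finset.subset_erase.mpr ⟨hρσ, hxρ⟩)]
        congr 2
        rw [hσ₀]
        ext y
        simp only [Finset.mem_sdiff, Finset.mem_erase]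
        tauto
  obtain ⟨τ, hτ, hτne⟩ := exists_of_ev_ne_zero fun h0 => hval (hev.trans h0)
  obtain ⟨hτs, -⟩ := hsupp τ hτ
  have hτdis : Disjoint τ ρ := Finset.disjoint_left.mpr fun x hx => (hτs.2.1 x hx).2.2.2.2.1
  refine ⟨τ, hτ, ?_⟩
  have hτc : (ρ ∪ τ).card = c + 1 := by
    rw [Finset.card_union_of_disjoint hτdis.symm, hτs.1]; omega
  have hcob : cobd c g (ρ ∪ τ) = cobd σ₀.card g' τ := by
    rw [cobd_eq_sum_erase g _ hτc, cobd_eq_sum_erase g' τ hτs.1,
      Finset.sum_union hτdis.symm,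
      Finset.sum_eq_zero (s := ρ) (fun x hx => by
        by_contra h
        exact Finset.notMem_erase x (ρ ∪ τ) (hg _ h hx)), zero_add]
    refine Finset.sum_congr rfl fun x hx => ?_
    rw [hg']
    congr 1
    rw [Finset.erase_union_distrib, Finset.erase_eq_of_notMem
      (Finset.disjoint_left.mp hτdis hx)]
  rw [hcob]
  exact hτne

/-- The expansion constant of the links. -/
def linkBound (D : ℕ) : ℕ := 2 ^ (D + 1) * ∑ i ∈ Finset.range (D + 1), coneBound D i

/-- Bounded cones in the link of a chain, moved by a good automorphism. -/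
lemma exists_good_cones (hbot : P.rk ⊥ ≤ a) (htop : b ≤ P.rk ⊤) (hH : Homog P a b)
    {ρ : Finset L} (hρ : IsFlag P a b ρ) (hne : ρ.Nonempty) {c : ℕ} (hc : c + a ≤ b)
    (S : Finset (Finset L)) :
    ∃ T ∈ flags P a b, ∃ C : Finset L → Ch L,
      (∀ σ, IsFlag P a b (ρ ∪ σ) → Disjoint σ ρ → σ.card + ρ.card + a ≤ b →
        Supp (fun τ => Simp P ⊤ ⊥ a b ρ (σ.card + 1) τ ∧ ∀ S ∈ τ, InGround T σ S) (C σ) ∧
          bd (C σ) = Finsupp.single σ 1 + ∑ x ∈ σ, C (σ.erase x) ∧
          (ρ.Nonempty → (C σ).support.card ≤ coneBound (b - a) σ.card)) ∧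
      ∃ e ∈ autos P ρ, mass (flags P a b) ((faces (flags P a b) c).filter fun σ =>
          ρ ⊆ σ ∧ ∃ τ ∈ (C (σ \ ρ)).support, (ρ ∪ τ).image e ∈ S) ≤
        linkBound (b - a) * mass (flags P a b) S := by
  classical
  have hab : a ≤ b := by omega
  obtain ⟨T, hT⟩ := Finset.card_pos.mp (ext_pos hρ hbot htop)
  obtain ⟨hTF, hρT⟩ := Finset.mem_filter.mp hT
  obtain ⟨C, hC⟩ := exists_link_cones P a b hab hTF hρT
  refine ⟨T, hTF, C, hC, ?_⟩
  have hΨ : ∀ σ ∈ faces (flags P a b) c, ρ ⊆ σ →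
      ((C (σ \ ρ)).support.image (ρ ∪ ·)).card ≤
        ∑ i ∈ Finset.range (b - a + 1), coneBound (b - a) i ∧
      ∀ τ ∈ (C (σ \ ρ)).support.image (ρ ∪ ·), IsFlag P a b τ ∧ ρ ⊆ τ := by
    intro σ hσ hρσ
    obtain ⟨hσf, hσc⟩ := (mem_faces_flags hbot htop).mp hσ
    have hcard : (σ \ ρ).card + ρ.card = c := by
      rw [Finset.card_sdiff_of_subset hρσ, hσc]
      have := Finset.card_le_card hρσ
      omega
    obtain ⟨hs, -, hsize⟩ := hC (σ \ ρ) (by rwa [Finset.union_sdiff_of_subset hρσ])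
      Finset.sdiff_disjoint (by omega)
    refine ⟨Finset.card_image_le.trans ((hsize hne).trans (Finset.single_le_sum
      (f := coneBound (b - a)) (fun _ _ => Nat.zero_le _) (Finset.mem_range.mpr (by omega)))),
      fun τ' hτ' => ?_⟩
    obtain ⟨τ, hτ, rfl⟩ := Finset.mem_image.mp hτ'
    obtain ⟨hτs, -⟩ := hs τ hτ
    refine ⟨⟨fun x hx => ?_, fun x hx y hy => ?_⟩, Finset.subset_union_left⟩
    · rcases Finset.mem_union.mp hx with h | h
      · exact hρ.1 x h
      · exact ⟨(hτs.2.1 x h).2.2.1, (hτs.2.1 x h).2.2.2.1⟩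
    · rcases Finset.mem_union.mp hx with h | h <;> rcases Finset.mem_union.mp hy with h' | h'
      · exact hρ.2 x h y h'
      · exact ((hτs.2.1 y h').2.2.2.2.2 x h).symm
      · exact (hτs.2.1 x h).2.2.2.2.2 y h'
      · exact hτs.2.2 x h y h'
  obtain ⟨e, he, hle⟩ := exists_good_aut hbot htop hab hH hρ (c := c)
    (fun σ => (C (σ \ ρ)).support.image (ρ ∪ ·)) hΨ S
  refine ⟨e, he, le_trans (mass_mono fun σ hσ => ?_) hle⟩
  obtain ⟨h1, h2, τ, hτ, h3⟩ := Finset.mem_filter.mp hσ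
  exact Finset.mem_filter.mpr ⟨h1, h2, ρ ∪ τ, Finset.mem_image.mpr ⟨τ, hτ, rfl⟩, h3⟩

/-- The links are coboundary expanders, with a constant depending only on the dimension. -/
theorem link_expansion (hbot : P.rk ⊥ ≤ a) (htop : b ≤ P.rk ⊤) (hH : Homog P a b) {c : ℕ}
    (hc : c + a ≤ b) : LinkExpansion (flags P a b) (linkBound (b - a)) c := by
  classical
  intro ρ hρ1 hρc hρF g hg
  obtain ⟨hρf, -⟩ := (mem_faces_flags hbot htop).mp hρF
  have hne : ρ.Nonempty := Finset.card_pos.mp (by omega)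
  set F := flags P a b with hF
  set S := (suppOn F (c + 1) (cobd c g)).filter (fun τ => ρ ⊆ τ) with hS
  obtain ⟨T, hT, C, hC, e, he, hle⟩ := exists_good_cones hbot htop hH hρf hne hc S
  obtain ⟨her, heρ⟩ := mem_autos.mp he
  obtain ⟨hesr, hesρ⟩ := mem_autos.mp (symm_mem_autos he)
  set g₁ : Finset L → ZMod 2 := fun η => g (η.image e) with hg₁
  set h₁ : Finset L → ZMod 2 :=
    fun η => if ρ ⊆ η then ev (fun τ => g₁ (ρ ∪ τ)) (C (η \ ρ)) else 0 with hh₁
  have hsub : ∀ η : Finset L, ρ ⊆ η.image e.symm → ρ ⊆ η := fun η h => by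
    have := Finset.image_subset_image (f := e) h
    rwa [heρ, image_image_symm] at this
  have hg₁s : ∀ η, g₁ η ≠ 0 → ρ ⊆ η := fun η hη => by
    have := Finset.image_subset_image (f := e.symm) (hg _ hη)
    rwa [hesρ, image_symm_image] at this
  refine ⟨fun η => h₁ (η.image e.symm),
    fun η hη => hsub η (by by_contra h; exact hη (if_neg h)), ?_⟩
  have key : ∀ σ ∈ suppOn F c (fun σ => g σ + cobd (c - 1) (fun η => h₁ (η.image e.symm)) σ),
      σ.image e.symm ∈ (faces F c).filter fun σ =>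
        ρ ⊆ σ ∧ ∃ τ ∈ (C (σ \ ρ)).support, (ρ ∪ τ).image e ∈ S := by
    intro σ hσ
    obtain ⟨hσF, hσne⟩ := Finset.mem_filter.mp hσ
    obtain ⟨hσf, hσc⟩ := (mem_faces_flags hbot htop).mp hσF
    have hσ'f : IsFlag P a b (σ.image e.symm) := hσf.map hesr
    have hσ'c : (σ.image e.symm).card = c :=
      (Finset.card_image_of_injective σ e.symm.injective).trans hσc
    replace hσne : g σ + cobd (c - 1) (fun η => h₁ (η.image e.symm)) σ ≠ 0 := hσne
    rw [cobd_map e.symm] at hσne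
    have hval : g₁ (σ.image e.symm) + cobd (c - 1) h₁ (σ.image e.symm) ≠ 0 := by
      simpa [hg₁, image_image_symm] using hσne
    obtain ⟨hρσ, τ, hτ, hτne⟩ := cone_defect hρf hσ'f hσ'c hc hne hC hg₁s hval
    refine Finset.mem_filter.mpr ⟨(mem_faces_flags hbot htop).mpr ⟨hσ'f, hσ'c⟩, hρσ, τ, hτ, ?_⟩
    obtain ⟨hs, -, -⟩ := hC (σ.image e.symm \ ρ)
      (by rwa [Finset.union_sdiff_of_subset hρσ]) Finset.sdiff_disjoint (by
        rw [Finset.card_sdiff_of_subset hρσ]
        have := Finset.card_le_card hρσ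
        omega)
    obtain ⟨hτs, -⟩ := hs τ hτ
    have hτdis : Disjoint τ ρ := Finset.disjoint_left.mpr fun x hx => (hτs.2.1 x hx).2.2.2.2.1
    have hτf : IsFlag P a b (ρ ∪ τ) := by
      refine ⟨fun x hx => ?_, fun x hx y hy => ?_⟩
      · rcases Finset.mem_union.mp hx with h | h
        · exact hρf.1 x h
        · exact ⟨(hτs.2.1 x h).2.2.1, (hτs.2.1 x h).2.2.2.1⟩
      · rcases Finset.mem_union.mp hx with h | h <;> rcases Finset.mem_union.mp hy with h' | h'
        · exact hρf.2 x h y h'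
        · exact ((hτs.2.1 y h').2.2.2.2.2 x h).symm
        · exact (hτs.2.1 x h).2.2.2.2.2 y h'
        · exact hτs.2.2 x h y h'
    refine Finset.mem_filter.mpr ⟨Finset.mem_filter.mpr
      ⟨(mem_faces_flags hbot htop).mpr ⟨hτf.map her, ?_⟩, ?_⟩, ?_⟩
    · rw [Finset.card_image_of_injective _ e.injective,
        Finset.card_union_of_disjoint hτdis.symm, hτs.1, Finset.card_sdiff_of_subset hρσ]
      have := Finset.card_le_card hρσ
      omega
    · rw [← cobd_map e]
      exact hτne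
    · calc ρ = ρ.image e := heρ.symm
        _ ⊆ _ := Finset.image_subset_image Finset.subset_union_left
  have hmass : mass F (suppOn F c (fun σ => g σ +
      cobd (c - 1) (fun η => h₁ (η.image e.symm)) σ)) ≤ linkBound (b - a) * mass F S := by
    refine le_trans ?_ hle
    simp only [mass]
    refine le_trans (le_of_eq ?_) (Finset.sum_le_sum_of_subset (Finset.image_subset_iff.mpr key))
    rw [Finset.sum_image (fun x _ y _ h => Finset.image_injective e.symm.injective h)]
    exact Finset.sum_congr rfl fun σ _ => (cnt_map hesr).symm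
  exact_mod_cast hmass

end Vale.Agent.HDX.Q
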