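import Vale.Agent.HDX.Q.Geo

open Finset

namespace Vale.Agent.HDX.Q

variable {L : Type*} [Lattice L] [BoundedOrder L] [Fintype L] [IsModularLattice L]
  [ComplementedLattice L] {q : ℕ} {G : ℕ → ℕ → ℕ}

variable (P : Geo L q G)

omit [IsModularLattice L] [ComplementedLattice L] in
/-- Counting pairs `E ≤ A` in an interval in two ways. -/
lemma Geo.double_count {x y : L} (h : x ≤ y) {e s : ℕ} (hes : e ≤ s) :
    G (P.rk y - P.rk x) e * G (P.rk y - P.rk x - e) (s - e) =
      G (P.rk y - P.rk x) s * G s e := by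
  classical
  set E := P.level x y (P.rk x + e) with hE
  set A := P.level x y (P.rk x + s) with hA
  have h1 : ∑ e' ∈ E, (A.filter fun a' => e' ≤ a').card =
      ∑ a' ∈ A, (E.filter fun e' => e' ≤ a').card := by
    simp only [Finset.card_filter]
    exact Finset.sum_comm
  have h2 : ∀ e' ∈ E, (A.filter fun a' => e' ≤ a').card =
      G (P.rk y - P.rk x - e) (s - e) := by
    intro e' he'
    obtain ⟨hx, hy, hr⟩ := P.mem_level.mp he'
    have hset : (A.filter fun a' => e' ≤ a') = P.level e' y (P.rk x + s) := by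
      ext z
      simp only [hA, Finset.mem_filter, Geo.mem_level]
      exact ⟨fun ⟨⟨_, h2, h3⟩, h4⟩ => ⟨h4, h2, h3⟩,
        fun ⟨h1, h2, h3⟩ => ⟨⟨hx.trans h1, h2, h3⟩, h1⟩⟩
    rw [hset, P.card_level hy (by omega), hr]
    congr 1 <;> omega
  have h3 : ∀ a' ∈ A, (E.filter fun e' => e' ≤ a').card = G s e := by
    intro a' ha'
    obtain ⟨hx, hy, hr⟩ := P.mem_level.mp ha'
    have hset : (E.filter fun e' => e' ≤ a') = P.level x a' (P.rk x + e) := by
      ext z
      simp only [hE, Finset.mem_filter, Geo.mem_level]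
      exact ⟨fun ⟨⟨h1, _, h3⟩, h4⟩ => ⟨h1, h4, h3⟩,
        fun ⟨h1, h2, h3⟩ => ⟨⟨h1, h2.trans hy, h3⟩, h2⟩⟩
    rw [hset, P.card_level hx (Nat.le_add_right _ _), hr, Nat.add_sub_cancel_left,
      Nat.add_sub_cancel_left]
  rw [Finset.sum_congr rfl h2, Finset.sum_congr rfl h3, Finset.sum_const, Finset.sum_const,
    smul_eq_mul, smul_eq_mul, hE, hA, P.card_level h (Nat.le_add_right _ _),
    P.card_level h (Nat.le_add_right _ _), Nat.add_sub_cancel_left, Nat.add_sub_cancel_left] at h1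
  exact h1

end Vale.Agent.HDX.Q
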