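import Vale.Agent.HDX.Q.Flags
import Vale.Agent.HDX.Q.Pairs

open Finset

namespace Vale.Agent.HDX.Q

variable {L : Type*} [Lattice L] [BoundedOrder L] [Fintype L] {q : ℕ} {G : ℕ → ℕ → ℕ}
  (P : Geo L q G) {x y : L}

open Classical in
/-- The sum of `f` over the elements of relative rank `s` below `Z`. -/
noncomputable def Geo.upSum (x y : L) (s : ℕ) (f : L → ℝ) (Z : L) : ℝ :=
  ∑ X ∈ P.level x y (P.rk x + s), if X ≤ Z then f X else 0

lemma Geo.upSum_eq {Z : L} (hZ : Z ≤ y) (s : ℕ) (f : L → ℝ) :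
    P.upSum x y s f Z = ∑ X ∈ P.level x Z (P.rk x + s), f X := by
  classical
  rw [Geo.upSum, ← Finset.sum_filter]
  refine Finset.sum_congr ?_ fun _ _ => rfl
  ext X
  simp only [Finset.mem_filter, Geo.mem_level]
  exact ⟨fun ⟨⟨h1, _, h3⟩, h4⟩ => ⟨h1, h4, h3⟩, fun ⟨h1, h2, h3⟩ => ⟨⟨h1, h2.trans hZ, h3⟩, h2⟩⟩

/-- The commutation of the two adjacent walks. -/
lemma Geo.walk_identity (hxy : x ≤ y) {s : ℕ} (hs : s + 2 ≤ P.rk y - P.rk x) (f : L → ℝ) :
    ∑ Z ∈ P.level x y (P.rk x + (s + 2)), P.upSum x y (s + 1) f Z ^ 2 =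
      ∑ W ∈ P.level x y (P.rk x + s),
          (∑ X ∈ P.level W y (P.rk x + (s + 1)), f X) ^ 2 +
        ((G (P.rk y - P.rk x - (s + 1)) 1 : ℝ) - (G (s + 1) s : ℝ)) *
          ∑ X ∈ P.level x y (P.rk x + (s + 1)), f X ^ 2 := by
  classical
  set Lv := P.level x y (P.rk x + (s + 1)) with hLv
  have hup : ∀ X ∈ Lv, ∀ X' ∈ Lv,
      ((P.level x y (P.rk x + (s + 2))).filter fun Z => X ≤ Z ∧ X' ≤ Z).card +
        (if X = X' then G (s + 1) s else 0) =
      ((P.level x y (P.rk x + s)).filter fun W => W ≤ X ∧ W ≤ X').card +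
        (if X = X' then G (P.rk y - P.rk x - (s + 1)) 1 else 0) := by
    intro X hX X' hX'
    obtain ⟨hxX, hXy, hXr⟩ := P.mem_level.mp hX
    obtain ⟨hxX', hX'y, hX'r⟩ := P.mem_level.mp hX'
    by_cases he : X = X'
    · subst he
      rw [if_pos rfl, if_pos rfl]
      have e1 : ((P.level x y (P.rk x + (s + 2))).filter fun Z => X ≤ Z ∧ X ≤ Z).card =
          G (P.rk y - P.rk x - (s + 1)) 1 := by
        have : ((P.level x y (P.rk x + (s + 2))).filter fun Z => X ≤ Z ∧ X ≤ Z) =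
            P.level X y (P.rk x + (s + 2)) := by
          ext Z
          simp only [Finset.mem_filter, Geo.mem_level]
          exact ⟨fun ⟨⟨_, h2, h3⟩, h4, _⟩ => ⟨h4, h2, h3⟩,
            fun ⟨h1, h2, h3⟩ => ⟨⟨hxX.trans h1, h2, h3⟩, h1, h1⟩⟩
        rw [this, P.card_level hXy (by omega)]
        congr 1 <;> omega
      have e2 : ((P.level x y (P.rk x + s)).filter fun W => W ≤ X ∧ W ≤ X).card =
          G (s + 1) s := by
        have : ((P.level x y (P.rk x + s)).filter fun W => W ≤ X ∧ W ≤ X) =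
            P.level x X (P.rk x + s) := by
          ext W
          simp only [Finset.mem_filter, Geo.mem_level]
          exact ⟨fun ⟨⟨h1, _, h3⟩, h4, _⟩ => ⟨h1, h4, h3⟩,
            fun ⟨h1, h2, h3⟩ => ⟨⟨h1, h2.trans hXy, h3⟩, h2, h2⟩⟩
        rw [this, P.card_level hxX (Nat.le_add_right _ _)]
        congr 1 <;> omega
      rw [e1, e2, add_comm]
    · rw [if_neg he, if_neg he, add_zero, add_zero]
      have hm := P.modular X X'
      have hmeet : P.rk (X ⊓ X') ≤ P.rk x + s := by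
        by_contra hcon
        have h1 : X ⊓ X' = X := P.strict inf_le_left (by omega)
        exact he (P.strict (h1 ▸ inf_le_right) (by omega))
      by_cases hc : P.rk (X ⊓ X') = P.rk x + s
      · have e1 : ((P.level x y (P.rk x + (s + 2))).filter fun Z => X ≤ Z ∧ X' ≤ Z) = {X ⊔ X'} := by
          refine Finset.eq_singleton_iff_unique_mem.mpr ⟨Finset.mem_filter.mpr
            ⟨P.mem_level.mpr ⟨hxX.trans le_sup_left, sup_le hXy hX'y, by omega⟩,
              le_sup_left, le_sup_right⟩, fun Z hZ => ?_⟩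
          obtain ⟨hZ1, h1, h2⟩ := Finset.mem_filter.mp hZ
          exact (P.strict (sup_le h1 h2) (by have := (P.mem_level.mp hZ1).2.2; omega)).symm
        have e2 : ((P.level x y (P.rk x + s)).filter fun W => W ≤ X ∧ W ≤ X') = {X ⊓ X'} := by
          refine Finset.eq_singleton_iff_unique_mem.mpr ⟨Finset.mem_filter.mpr
            ⟨P.mem_level.mpr ⟨le_inf hxX hxX', inf_le_left.trans hXy, hc⟩,
              inf_le_left, inf_le_right⟩, fun W hW => ?_⟩
          obtain ⟨hW1, h1, h2⟩ := Finset.mem_filter.mp hW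
          exact P.strict (le_inf h1 h2) (by have := (P.mem_level.mp hW1).2.2; omega)
        rw [e1, e2, Finset.card_singleton, Finset.card_singleton]
      · have e1 : ((P.level x y (P.rk x + (s + 2))).filter fun Z => X ≤ Z ∧ X' ≤ Z) = ∅ := by
          refine Finset.filter_eq_empty_iff.mpr fun Z hZ h => ?_
          have := P.mono (sup_le h.1 h.2)
          have := (P.mem_level.mp hZ).2.2
          omega
        have e2 : ((P.level x y (P.rk x + s)).filter fun W => W ≤ X ∧ W ≤ X') = ∅ := by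
          refine Finset.filter_eq_empty_iff.mpr fun W hW h => ?_
          have := P.mono (le_inf h.1 h.2)
          have := (P.mem_level.mp hW).2.2
          omega
        rw [e1, e2]
  have expand1 : ∑ Z ∈ P.level x y (P.rk x + (s + 2)), P.upSum x y (s + 1) f Z ^ 2 =
      ∑ X ∈ Lv, ∑ X' ∈ Lv, f X * f X' *
        (((P.level x y (P.rk x + (s + 2))).filter fun Z => X ≤ Z ∧ X' ≤ Z).card : ℝ) := by
    simp only [Geo.upSum, sq, Finset.sum_mul_sum, ← hLv]
    rw [Finset.sum_comm]
    refine Finset.sum_congr rfl fun X _ => ?_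
    rw [Finset.sum_comm]
    refine Finset.sum_congr rfl fun X' _ => ?_
    rw [Finset.card_filter]
    push_cast
    rw [Finset.mul_sum]
    refine Finset.sum_congr rfl fun Z _ => ?_
    by_cases h1 : X ≤ Z <;> by_cases h2 : X' ≤ Z <;> simp [h1, h2]
  have expand2 : ∑ W ∈ P.level x y (P.rk x + s),
      (∑ X ∈ P.level W y (P.rk x + (s + 1)), f X) ^ 2 =
      ∑ X ∈ Lv, ∑ X' ∈ Lv, f X * f X' *
        (((P.level x y (P.rk x + s)).filter fun W => W ≤ X ∧ W ≤ X').card : ℝ) := by
    have hW : ∀ W ∈ P.level x y (P.rk x + s),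
        (∑ X ∈ P.level W y (P.rk x + (s + 1)), f X) = ∑ X ∈ Lv, if W ≤ X then f X else 0 := by
      intro W hW
      rw [← Finset.sum_filter]
      refine Finset.sum_congr ?_ fun _ _ => rfl
      ext X
      simp only [hLv, Finset.mem_filter, Geo.mem_level]
      exact ⟨fun ⟨h1, h2, h3⟩ => ⟨⟨(P.mem_level.mp hW).1.trans h1, h2, h3⟩, h1⟩,
        fun ⟨⟨_, h2, h3⟩, h4⟩ => ⟨h4, h2, h3⟩⟩
    rw [Finset.sum_congr rfl fun W hW' => by rw [hW W hW']]
    simp only [sq, Finset.sum_mul_sum]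
    rw [Finset.sum_comm]
    refine Finset.sum_congr rfl fun X _ => ?_
    rw [Finset.sum_comm]
    refine Finset.sum_congr rfl fun X' _ => ?_
    rw [Finset.card_filter]
    push_cast
    rw [Finset.mul_sum]
    refine Finset.sum_congr rfl fun W _ => ?_
    by_cases h1 : W ≤ X <;> by_cases h2 : W ≤ X' <;> simp [h1, h2]
  rw [expand1, expand2, Finset.mul_sum, ← Finset.sum_add_distrib]
  refine Finset.sum_congr rfl fun X hX => ?_
  rw [← sub_eq_iff_eq_add', ← Finset.sum_sub_distrib]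
  rw [Finset.sum_eq_single_of_mem X hX]
  · have h := hup X hX X hX
    rw [if_pos rfl, if_pos rfl] at h
    have h' := congrArg (fun n : ℕ => (n : ℝ)) h
    push_cast at h'
    linear_combination f X * f X * h'
  · intro X' hX' hne
    have h := hup X hX X' hX'
    rw [if_neg hne.symm, if_neg hne.symm, add_zero, add_zero] at h
    rw [h, sub_self]

/-- Mean-zero functions are contracted by one step upwards. -/
lemma Geo.step_bound (hxy : x ≤ y) : ∀ (s : ℕ), s + 1 ≤ P.rk y - P.rk x → ∀ f : L → ℝ,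
    ∑ X ∈ P.level x y (P.rk x + s), f X = 0 →
    ∑ Z ∈ P.level x y (P.rk x + (s + 1)), P.upSum x y s f Z ^ 2 ≤
      (∑ l ∈ Finset.Icc 1 s, (G (P.rk y - P.rk x - l) 1 : ℝ)) *
        ∑ X ∈ P.level x y (P.rk x + s), f X ^ 2 := by
  classical
  intro s
  induction s with
  | zero =>
    intro _ f hf
    have hlev : P.level x y (P.rk x + 0) = {x} := by
      ext z
      simp only [Geo.mem_level, Finset.mem_singleton, add_zero]
      exact ⟨fun ⟨h1, _, h3⟩ => (P.strict h1 h3.le).symm, fun h => ⟨h.ge, h ▸ hxy, h ▸ rfl⟩⟩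
    rw [hlev, Finset.sum_singleton] at hf
    have hz : ∀ Z, P.upSum x y 0 f Z = 0 := fun Z => by
      rw [Geo.upSum, hlev, Finset.sum_singleton, hf]
      simp
    simp [hz]
  | succ s ih =>
    intro hs f hf
    rw [P.walk_identity hxy hs f]
    set M := ∑ l ∈ Finset.Icc 1 s, (G (P.rk y - P.rk x - l) 1 : ℝ) with hM
    have hM0 : 0 ≤ M := Finset.sum_nonneg fun _ _ => Nat.cast_nonneg _
    set Lv := P.level x y (P.rk x + (s + 1)) with hLv
    set Lw := P.level x y (P.rk x + s) with hLw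
    set g : L → ℝ := fun W => ∑ X ∈ P.level W y (P.rk x + (s + 1)), f X with hg
    have hdown : ∀ W ∈ Lw, g W = ∑ X ∈ Lv, if W ≤ X then f X else 0 := by
      intro W hW
      rw [hg, ← Finset.sum_filter]
      refine Finset.sum_congr ?_ fun _ _ => rfl
      ext X
      simp only [hLv, Finset.mem_filter, Geo.mem_level]
      exact ⟨fun ⟨h1, h2, h3⟩ => ⟨⟨(P.mem_level.mp hW).1.trans h1, h2, h3⟩, h1⟩,
        fun ⟨⟨_, h2, h3⟩, h4⟩ => ⟨h4, h2, h3⟩⟩
    have hg0 : ∑ W ∈ Lw, g W = 0 := by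
      rw [Finset.sum_congr rfl hdown, Finset.sum_comm]
      have : ∀ X ∈ Lv, (∑ W ∈ Lw, if W ≤ X then f X else 0) = (G (s + 1) s : ℝ) * f X := by
        intro X hX
        obtain ⟨hxX, hXy, hXr⟩ := P.mem_level.mp hX
        rw [← Finset.sum_filter, Finset.sum_const, nsmul_eq_mul]
        congr 2
        have : (Lw.filter fun W => W ≤ X) = P.level x X (P.rk x + s) := by
          ext W
          simp only [hLw, Finset.mem_filter, Geo.mem_level]
          exact ⟨fun ⟨⟨h1, _, h3⟩, h4⟩ => ⟨h1, h4, h3⟩,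
            fun ⟨h1, h2, h3⟩ => ⟨⟨h1, h2.trans hXy, h3⟩, h2⟩⟩
        rw [this, P.card_level hxX (Nat.le_add_right _ _)]
        congr 1 <;> omega
      rw [Finset.sum_congr rfl this, ← Finset.mul_sum, hf, mul_zero]
    have hadj : ∑ W ∈ Lw, g W ^ 2 = ∑ X ∈ Lv, f X * P.upSum x y s g X := by
      simp only [Geo.upSum, ← hLw, Finset.mul_sum]
      rw [Finset.sum_comm]
      refine Finset.sum_congr rfl fun W hW => ?_
      rw [sq]
      nth_rewrite 1 [hdown W hW]
      rw [Finset.sum_mul]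
      refine Finset.sum_congr rfl fun X _ => ?_
      split <;> ring
    have hDf : ∑ W ∈ Lw, g W ^ 2 ≤ M * ∑ X ∈ Lv, f X ^ 2 := by
      have hcs := Finset.sum_mul_sq_le_sq_mul_sq Lv f (fun X => P.upSum x y s g X)
      rw [← hadj] at hcs
      have h2 := ih (by omega) g hg0
      have h3 : (0 : ℝ) ≤ ∑ W ∈ Lw, g W ^ 2 := Finset.sum_nonneg fun _ _ => sq_nonneg _
      have h4 : (0 : ℝ) ≤ ∑ X ∈ Lv, f X ^ 2 := Finset.sum_nonneg fun _ _ => sq_nonneg _
      rcases h3.lt_or_eq with h5 | h5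
      · refine le_of_mul_le_mul_right ?_ h5
        calc (∑ W ∈ Lw, g W ^ 2) * ∑ W ∈ Lw, g W ^ 2 = (∑ W ∈ Lw, g W ^ 2) ^ 2 := by ring
          _ ≤ (∑ X ∈ Lv, f X ^ 2) * ∑ X ∈ Lv, P.upSum x y s g X ^ 2 := hcs
          _ ≤ (∑ X ∈ Lv, f X ^ 2) * (M * ∑ W ∈ Lw, g W ^ 2) :=
              mul_le_mul_of_nonneg_left h2 h4
          _ = _ := by ring
      · rw [← h5]; exact mul_nonneg hM0 h4
    rw [show Finset.Icc 1 (s + 1) = insert (s + 1) (Finset.Icc 1 s) by
      ext l; simp; omega, Finset.sum_insert (by simp), ← hM]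
    have h4 : (0 : ℝ) ≤ ∑ X ∈ Lv, f X ^ 2 := Finset.sum_nonneg fun _ _ => sq_nonneg _
    have h5 : (0 : ℝ) ≤ (G (s + 1) s : ℝ) * ∑ X ∈ Lv, f X ^ 2 :=
      mul_nonneg (Nat.cast_nonneg _) h4
    linarith

/-- The normalised contraction from relative rank `s` to `t`. -/
lemma Geo.walk_bound (hxy : x ≤ y) {s : ℕ} (f : L → ℝ)
    (hf : ∑ X ∈ P.level x y (P.rk x + s), f X = 0) :
    ∀ t, s + 1 ≤ t → t ≤ P.rk y - P.rk x →
    (q : ℝ) * ((P.level x y (P.rk x + s)).card : ℝ) *
        ∑ Z ∈ P.level x y (P.rk x + t), P.upSum x y s f Z ^ 2 ≤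
      4 * (G t s : ℝ) ^ 2 * ((P.level x y (P.rk x + t)).card : ℝ) *
        ∑ X ∈ P.level x y (P.rk x + s), f X ^ 2 := by
  classical
  set m := P.rk y - P.rk x with hm
  have hq : (2 : ℝ) ≤ q := by exact_mod_cast P.q_two
  have h4 : (0 : ℝ) ≤ ∑ X ∈ P.level x y (P.rk x + s), f X ^ 2 :=
    Finset.sum_nonneg fun _ _ => sq_nonneg _
  intro t ht
  induction t, ht using Nat.le_induction with
  | base =>
    intro hsm
    have hcard : ∀ r, (P.level x y (P.rk x + r)).card = G m r := fun r => by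
      rw [P.card_level hxy (Nat.le_add_right _ _), Nat.add_sub_cancel_left]
    rw [hcard, hcard]
    have hid := P.double_count hxy (e := s) (s := s + 1) (by omega)
    rw [← hm, Nat.add_sub_cancel_left] at hid
    rcases Nat.eq_zero_or_pos s with hs0 | hs0
    · subst hs0
      refine le_trans (le_of_eq ?_) (mul_nonneg (by positivity) h4)
      have h := P.step_bound hxy 0 (by omega) f hf
      simp only [Finset.Icc_eq_empty_of_lt (show (0 : ℕ) < 1 by omega), Finset.sum_empty,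
        zero_mul] at h
      rw [le_antisymm h (Finset.sum_nonneg fun _ _ => sq_nonneg _), mul_zero]
    · have h := P.step_bound hxy s hsm f hf
      rw [← hm] at h
      have hM : (q : ℝ) * (∑ l ∈ Finset.Icc 1 s, (G (m - l) 1 : ℝ)) ≤
          4 * (G (s + 1) s : ℝ) * (G (m - s) 1 : ℝ) := by
        have h1 : ∀ l ∈ Finset.Icc 1 s, (G (m - l) 1 : ℝ) ≤ 2 * (q : ℝ) ^ (m - l - 1) := by
          intro l hl
          rw [Finset.mem_Icc] at hl
          exact_mod_cast (P.G_one (m - l) (by omega)).2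
        have h2 : ∑ l ∈ Finset.Icc 1 s, 2 * (q : ℝ) ^ (m - l - 1) ≤ 4 * (q : ℝ) ^ (m - 2) := by
          have hgen : ∀ j, j + 1 ≤ m → 1 ≤ j →
              ∑ l ∈ Finset.Icc 1 j, 2 * (q : ℝ) ^ (m - l - 1) + 2 * (q : ℝ) ^ (m - j - 1) ≤
                4 * (q : ℝ) ^ (m - 2) := by
            intro j hj hj1
            induction j, hj1 using Nat.le_induction with
            | base =>
              rw [Finset.Icc_self, Finset.sum_singleton, show m - 1 - 1 = m - 2 by omega]
              linarith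
            | succ j hj1 ihj =>
              rw [show Finset.Icc 1 (j + 1) = insert (j + 1) (Finset.Icc 1 j) by
                ext l; simp; omega, Finset.sum_insert (by simp)]
              have := ihj (by omega)
              rw [show m - j - 1 = m - (j + 1) - 1 + 1 by omega, pow_succ] at this
              have h0 : (0 : ℝ) ≤ (q : ℝ) ^ (m - (j + 1) - 1) := by positivity
              nlinarith
          have := hgen s (by omega) hs0
          have h0 : (0 : ℝ) ≤ (q : ℝ) ^ (m - s - 1) := by positivity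
          linarith
        have h3 : (q : ℝ) ^ s ≤ (G (s + 1) s : ℝ) := by
          have := (P.G_one (s + 1) (by omega)).1
          rw [← P.G_coatom (s + 1) (by omega), Nat.add_sub_cancel] at this
          exact_mod_cast this
        have h5 : (q : ℝ) ^ (m - s - 1) ≤ (G (m - s) 1 : ℝ) := by
          exact_mod_cast (P.G_one (m - s) (by omega)).1
        calc (q : ℝ) * ∑ l ∈ Finset.Icc 1 s, (G (m - l) 1 : ℝ)
            ≤ (q : ℝ) * (4 * (q : ℝ) ^ (m - 2)) :=
              mul_le_mul_of_nonneg_left ((Finset.sum_le_sum h1).trans h2) (by linarith)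
          _ = 4 * ((q : ℝ) ^ s * (q : ℝ) ^ (m - s - 1)) := by
              rw [← pow_add, show s + (m - s - 1) = m - 2 + 1 by omega, pow_succ]; ring
          _ ≤ 4 * ((G (s + 1) s : ℝ) * (G (m - s) 1 : ℝ)) :=
              mul_le_mul_of_nonneg_left (mul_le_mul h3 h5 (by positivity) (by positivity))
                (by norm_num)
          _ = _ := by ring
      have hid' : (G m s : ℝ) * (G (m - s) 1 : ℝ) = (G m (s + 1) : ℝ) * (G (s + 1) s : ℝ) := by
        exact_mod_cast hid
      calc (q : ℝ) * (G m s : ℝ) * ∑ Z ∈ P.level x y (P.rk x + (s + 1)), P.upSum x y s f Z ^ 2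
          ≤ (q : ℝ) * (G m s : ℝ) * ((∑ l ∈ Finset.Icc 1 s, (G (m - l) 1 : ℝ)) *
              ∑ X ∈ P.level x y (P.rk x + s), f X ^ 2) :=
            mul_le_mul_of_nonneg_left h (by positivity)
        _ = ((q : ℝ) * ∑ l ∈ Finset.Icc 1 s, (G (m - l) 1 : ℝ)) * (G m s : ℝ) *
              ∑ X ∈ P.level x y (P.rk x + s), f X ^ 2 := by ring
        _ ≤ 4 * (G (s + 1) s : ℝ) * (G (m - s) 1 : ℝ) * (G m s : ℝ) *
              ∑ X ∈ P.level x y (P.rk x + s), f X ^ 2 :=
            mul_le_mul_of_nonneg_right (mul_le_mul_of_nonneg_right hM (by positivity)) h4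
        _ = 4 * (G (s + 1) s : ℝ) ^ 2 * (G m (s + 1) : ℝ) *
              ∑ X ∈ P.level x y (P.rk x + s), f X ^ 2 := by
            linear_combination (4 * (G (s + 1) s : ℝ) *
              ∑ X ∈ P.level x y (P.rk x + s), f X ^ 2) * hid'
  | succ t ht iht =>
    intro htm
    have h := iht (by omega)
    have hcard : ∀ r, (P.level x y (P.rk x + r)).card = G m r := fun r => by
      rw [P.card_level hxy (Nat.le_add_right _ _), Nat.add_sub_cancel_left]
    rw [hcard, hcard] at h ⊢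
    set Lt := P.level x y (P.rk x + t) with hLt
    set Lz := P.level x y (P.rk x + (t + 1)) with hLz
    -- composition
    have hcomp : ∀ Z ∈ Lz, (G (t + 1 - s) (t - s) : ℝ) * P.upSum x y s f Z =
        ∑ W ∈ P.level x Z (P.rk x + t), P.upSum x y s f W := by
      intro Z hZ
      obtain ⟨hxZ, hZy, hZr⟩ := P.mem_level.mp hZ
      simp only [Geo.upSum]
      rw [Finset.sum_comm, Finset.mul_sum]
      refine Finset.sum_congr rfl fun X hX => ?_
      obtain ⟨hxX, hXy, hXr⟩ := P.mem_level.mp hX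
      rw [← Finset.sum_filter, Finset.sum_const, nsmul_eq_mul]
      by_cases hXZ : X ≤ Z
      · rw [if_pos hXZ]
        congr 2
        have : ((P.level x Z (P.rk x + t)).filter fun W => X ≤ W) = P.level X Z (P.rk x + t) := by
          ext W
          simp only [Finset.mem_filter, Geo.mem_level]
          exact ⟨fun ⟨⟨_, h2, h3⟩, h4⟩ => ⟨h4, h2, h3⟩,
            fun ⟨h1, h2, h3⟩ => ⟨⟨hxX.trans h1, h2, h3⟩, h1⟩⟩
        rw [this, P.card_level hXZ (by omega)]
        congr 1 <;> omega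
      · rw [if_neg hXZ, mul_zero, Finset.filter_eq_empty_iff.mpr fun W hW hle =>
          hXZ (hle.trans (P.mem_level.mp hW).2.1)]
        simp
    have hd1 : ∀ Z ∈ Lz, (G (t + 1) t : ℝ) * (G t s : ℝ) =
        (G (t + 1 - s) (t - s) : ℝ) * (G (t + 1) s : ℝ) := by
      intro Z hZ
      obtain ⟨hxZ, hZy, hZr⟩ := P.mem_level.mp hZ
      have := P.double_count hxZ (e := s) (s := t) (by omega)
      rw [hZr, Nat.add_sub_cancel_left] at this
      have h' : (G (t + 1) s : ℝ) * (G (t + 1 - s) (t - s) : ℝ) =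
          (G (t + 1) t : ℝ) * (G t s : ℝ) := by exact_mod_cast this
      rw [← h', mul_comm]
    -- one averaging step is a contraction
    have hstep : (G (t + 1 - s) (t - s) : ℝ) ^ 2 * ∑ Z ∈ Lz, P.upSum x y s f Z ^ 2 ≤
        (G (t + 1) t : ℝ) * (G (m - t) 1 : ℝ) * ∑ W ∈ Lt, P.upSum x y s f W ^ 2 := by
      rw [Finset.mul_sum]
      calc ∑ Z ∈ Lz, (G (t + 1 - s) (t - s) : ℝ) ^ 2 * P.upSum x y s f Z ^ 2
          ≤ ∑ Z ∈ Lz, (G (t + 1) t : ℝ) *
              ∑ W ∈ P.level x Z (P.rk x + t), P.upSum x y s f W ^ 2 := by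
            refine Finset.sum_le_sum fun Z hZ => ?_
            obtain ⟨hxZ, hZy, hZr⟩ := P.mem_level.mp hZ
            rw [← mul_pow, hcomp Z hZ]
            refine sq_sum_le_card_mul_sum_sq.trans (le_of_eq ?_)
            rw [P.card_level hxZ (Nat.le_add_right _ _), Nat.add_sub_cancel_left, hZr,
              Nat.add_sub_cancel_left]
        _ = (G (t + 1) t : ℝ) * ∑ W ∈ Lt, (G (m - t) 1 : ℝ) * P.upSum x y s f W ^ 2 := by
            rw [← Finset.mul_sum]
            congr 1
            have hsw : ∀ Z ∈ Lz, ∑ W ∈ P.level x Z (P.rk x + t), P.upSum x y s f W ^ 2 =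
                ∑ W ∈ Lt, if W ≤ Z then P.upSum x y s f W ^ 2 else 0 := fun Z hZ => by
              rw [← P.upSum_eq (P.mem_level.mp hZ).2.1 t (fun W => P.upSum x y s f W ^ 2),
                Geo.upSum]
            rw [Finset.sum_congr rfl hsw, Finset.sum_comm]
            refine Finset.sum_congr rfl fun W hW => ?_
            obtain ⟨hxW, hWy, hWr⟩ := P.mem_level.mp hW
            rw [← Finset.sum_filter, Finset.sum_const, nsmul_eq_mul]
            congr 2
            have : (Lz.filter fun Z => W ≤ Z) = P.level W y (P.rk x + (t + 1)) := by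
              ext Z
              simp only [hLz, Finset.mem_filter, Geo.mem_level]
              exact ⟨fun ⟨⟨_, h2, h3⟩, h4⟩ => ⟨h4, h2, h3⟩,
                fun ⟨h1, h2, h3⟩ => ⟨⟨hxW.trans h1, h2, h3⟩, h1⟩⟩
            rw [this, P.card_level hWy (by omega)]
            congr 1 <;> omega
        _ = _ := by rw [← Finset.mul_sum]; ring
    have hid : (G m t : ℝ) * (G (m - t) 1 : ℝ) = (G m (t + 1) : ℝ) * (G (t + 1) t : ℝ) := by
      have := P.double_count hxy (e := t) (s := t + 1) (by omega)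
      rw [← hm, Nat.add_sub_cancel_left] at this
      exact_mod_cast this
    obtain ⟨Z₀, -, -, hZ₀⟩ := P.between hxy (r := P.rk x + (t + 1)) (by omega) (by omega)
    rcases Finset.eq_empty_or_nonempty Lz with hemp | ⟨Z, hZ⟩
    · rw [hemp, Finset.sum_empty, mul_zero]; positivity
    have hd := hd1 Z hZ
    have hgpos : (0 : ℝ) < (G (t + 1 - s) (t - s) : ℝ) ^ 2 := by
      have : (0 : ℝ) < (G (t + 1 - s) (t - s) : ℝ) := by exact_mod_cast P.G_pos (by omega)
      positivity
    refine le_of_mul_le_mul_left ?_ hgpos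
    calc (G (t + 1 - s) (t - s) : ℝ) ^ 2 *
          ((q : ℝ) * (G m s : ℝ) * ∑ Z ∈ Lz, P.upSum x y s f Z ^ 2)
        = (q : ℝ) * (G m s : ℝ) *
          ((G (t + 1 - s) (t - s) : ℝ) ^ 2 * ∑ Z ∈ Lz, P.upSum x y s f Z ^ 2) := by ring
      _ ≤ (q : ℝ) * (G m s : ℝ) *
          ((G (t + 1) t : ℝ) * (G (m - t) 1 : ℝ) * ∑ W ∈ Lt, P.upSum x y s f W ^ 2) :=
          mul_le_mul_of_nonneg_left hstep (by positivity)
      _ = (G (t + 1) t : ℝ) * (G (m - t) 1 : ℝ) *
          ((q : ℝ) * (G m s : ℝ) * ∑ W ∈ Lt, P.upSum x y s f W ^ 2) := by ring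
      _ ≤ (G (t + 1) t : ℝ) * (G (m - t) 1 : ℝ) *
          (4 * (G t s : ℝ) ^ 2 * (G m t : ℝ) * ∑ X ∈ P.level x y (P.rk x + s), f X ^ 2) :=
          mul_le_mul_of_nonneg_left h (by positivity)
      _ = 4 * ((G (t + 1) t : ℝ) * (G t s : ℝ)) ^ 2 * (G m (t + 1) : ℝ) *
          ∑ X ∈ P.level x y (P.rk x + s), f X ^ 2 := by
          linear_combination (4 * (G (t + 1) t : ℝ) * (G t s : ℝ) ^ 2 *
            ∑ X ∈ P.level x y (P.rk x + s), f X ^ 2) * hid
      _ = _ := by rw [hd]; ring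

open Classical in
/-- Mixing between two levels of an interval. -/
theorem Geo.mixing (hxy : x ≤ y) {s t : ℕ} (hst : s < t) (ht : t ≤ P.rk y - P.rk x)
    (A B : Finset L) (hA : A ⊆ P.level x y (P.rk x + s)) (hB : B ⊆ P.level x y (P.rk x + t))
    {lam : ℝ} (hlam : 0 ≤ lam) (hq : 4 ≤ lam ^ 2 * q) :
    (((A ×ˢ B).filter fun w => w.1 ≤ w.2).card : ℝ) ≤
      ((P.level x y (P.rk x + t)).card : ℝ) * (G t s : ℝ) *
        (((A.card : ℝ) / (P.level x y (P.rk x + s)).card) *
            ((B.card : ℝ) / (P.level x y (P.rk x + t)).card) +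
          lam * (((A.card : ℝ) / (P.level x y (P.rk x + s)).card) +
            ((B.card : ℝ) / (P.level x y (P.rk x + t)).card))) := by
  set Ls := P.level x y (P.rk x + s) with hLs
  set Lt := P.level x y (P.rk x + t) with hLt
  have hnsN : 0 < Ls.card := by
    rw [hLs, P.card_level hxy (Nat.le_add_right _ _)]; exact P.G_pos (by omega)
  have hntN : 0 < Lt.card := by
    rw [hLt, P.card_level hxy (Nat.le_add_right _ _)]; exact P.G_pos (by omega)
  have hns : (0 : ℝ) < Ls.card := by exact_mod_cast hnsN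
  have hnt : (0 : ℝ) < Lt.card := by exact_mod_cast hntN
  have hqpos : (0 : ℝ) < q := by have := P.q_two; exact_mod_cast (show 0 < q by omega)
  set α : ℝ := (A.card : ℝ) / Ls.card with hα
  set β : ℝ := (B.card : ℝ) / Lt.card with hβ
  have hα0 : 0 ≤ α := by positivity
  have hβ0 : 0 ≤ β := by positivity
  set f : L → ℝ := fun X => (if X ∈ A then 1 else 0) - α with hf
  have hAf : ∑ X ∈ Ls, (if X ∈ A then (1 : ℝ) else 0) = A.card := by
    rw [Finset.sum_boole, Finset.filter_mem_eq_inter, Finset.inter_eq_right.mpr hA]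
  have hf0 : ∑ X ∈ Ls, f X = 0 := by
    rw [hf, Finset.sum_sub_distrib, hAf, Finset.sum_const, nsmul_eq_mul, hα]
    field_simp
    ring
  have hf2 : ∑ X ∈ Ls, f X ^ 2 ≤ A.card := by
    have h1 : ∀ X ∈ Ls, f X ^ 2 =
        (1 - 2 * α) * (if X ∈ A then 1 else 0) + α ^ 2 := fun X _ => by
      simp only [hf]; split <;> ring
    rw [Finset.sum_congr rfl h1, Finset.sum_add_distrib, ← Finset.mul_sum, hAf, Finset.sum_const,
      nsmul_eq_mul]
    have h2 : (Ls.card : ℝ) * α = A.card := by rw [hα]; field_simp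
    have h3 : 0 ≤ (A.card : ℝ) * α := by positivity
    nlinarith
  have hw := P.walk_bound hxy f hf0 t hst ht
  rw [← hLs, ← hLt] at hw
  -- the count as a sum over `B`
  have hcount : (((A ×ˢ B).filter fun w => w.1 ≤ w.2).card : ℝ) =
      ∑ Z ∈ B, ((G t s : ℝ) * α + P.upSum x y s f Z) := by
    rw [Finset.card_filter, Finset.sum_product, Finset.sum_comm]
    push_cast
    refine Finset.sum_congr rfl fun Z hZ => ?_
    obtain ⟨hxZ, hZy, hZr⟩ := P.mem_level.mp (hB hZ)
    rw [P.upSum_eq hZy, hf, Finset.sum_sub_distrib, Finset.sum_const, nsmul_eq_mul,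
      P.card_level hxZ (Nat.le_add_right _ _), Nat.add_sub_cancel_left, hZr,
      Nat.add_sub_cancel_left, add_sub_cancel, Finset.sum_boole, Finset.sum_boole]
    congr 2
    ext X
    simp only [Finset.mem_filter, Geo.mem_level]
    constructor
    · rintro ⟨hX, hXZ⟩
      obtain ⟨h1, _, h3⟩ := P.mem_level.mp (hA hX)
      exact ⟨⟨h1, hXZ, h3⟩, hX⟩
    · rintro ⟨⟨_, h2, _⟩, hX⟩
      exact ⟨hX, h2⟩
  rw [hcount, Finset.sum_add_distrib, Finset.sum_const, nsmul_eq_mul]
  set E := ∑ Z ∈ B, P.upSum x y s f Z with hE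
  have hcs : E ^ 2 ≤ (B.card : ℝ) * ∑ Z ∈ Lt, P.upSum x y s f Z ^ 2 :=
    sq_sum_le_card_mul_sum_sq.trans (mul_le_mul_of_nonneg_left
      (Finset.sum_le_sum_of_subset_of_nonneg hB fun _ _ _ => sq_nonneg _) (by positivity))
  set T := (Lt.card : ℝ) * (G t s : ℝ) with hT
  have hT0 : 0 ≤ T := by positivity
  have hkey : E ^ 2 ≤ (T * (lam * (α + β))) ^ 2 := by
    have h1 : (q : ℝ) * Ls.card * E ^ 2 ≤
        (q : ℝ) * Ls.card * (T * (lam * (α + β))) ^ 2 := by
      calc (q : ℝ) * Ls.card * E ^ 2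
          ≤ (q : ℝ) * Ls.card * ((B.card : ℝ) * ∑ Z ∈ Lt, P.upSum x y s f Z ^ 2) :=
            mul_le_mul_of_nonneg_left hcs (by positivity)
        _ = (B.card : ℝ) * ((q : ℝ) * Ls.card * ∑ Z ∈ Lt, P.upSum x y s f Z ^ 2) := by ring
        _ ≤ (B.card : ℝ) * (4 * (G t s : ℝ) ^ 2 * Lt.card * A.card) :=
            mul_le_mul_of_nonneg_left (hw.trans (mul_le_mul_of_nonneg_left hf2 (by positivity)))
              (by positivity)
        _ = 4 * Ls.card * T ^ 2 * (α * β) := by
            rw [hT, hα, hβ]; field_simp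
        _ ≤ (lam ^ 2 * q) * Ls.card * T ^ 2 * ((α + β) ^ 2) := by
            have hαβ : α * β ≤ (α + β) ^ 2 := by nlinarith
            gcongr
        _ = _ := by ring
    exact le_of_mul_le_mul_left h1 (by positivity)
  have hE' : E ≤ T * (lam * (α + β)) :=
    (le_abs_self E).trans (abs_le_of_sq_le_sq hkey (by positivity))
  have hBβ : (B.card : ℝ) * ((G t s : ℝ) * α) = T * (α * β) := by
    rw [hT, hβ]; field_simp
  rw [hBβ, mul_add]
  linarith

end Vale.Agent.HDX.Q
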