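import Vale.Agent.HDX.Q.LinkCone
import Vale.Agent.HDX.Q.Mixing

open Finset

namespace Vale.Agent.HDX.Q

variable {L : Type*} [Lattice L] [BoundedOrder L] [Fintype L] [DecidableEq L] {q : ℕ}
  {G : ℕ → ℕ → ℕ} {P : Geo L q G} {a b : ℕ}

set_option linter.unusedSectionVars false

lemma fits_not_mem {η : Finset L} {s : ℕ} (hs : s ∉ η.image P.rk) {X : L}
    (hX : X ∈ fits P η s) : X ∉ η := fun h =>
  hs (Finset.mem_image.mpr ⟨X, h, (mem_fits.mp hX).1⟩)

lemma mixing_algebra {e : ℝ} (he : e ≠ 0) (p r lam : ℝ) :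
    e * (p / e * (r / e) + lam * (p / e + r / e)) = p * r / e + lam * (p + r) := by
  field_simp

open Classical in
/-- The pairs of one type contribute little. -/
lemma type_bound (hbot : P.rk ⊥ ≤ a) (htop : b ≤ P.rk ⊤) {η : Finset L}
    (hη : IsFlag P a b η) {s t : ℕ} (hs : a ≤ s) (hst : s < t) (ht : t ≤ b)
    (hsη : s ∉ η.image P.rk) (htη : t ∉ η.image P.rk) (A B : Finset L)
    (hA : A ⊆ fits P η s) (hB : B ⊆ fits P η t) {lam : ℝ} (hlam : 0 ≤ lam)
    (hq : 4 ≤ lam ^ 2 * q) :
    ∑ w ∈ (A ×ˢ B).filter (fun w => w.1 ≤ w.2),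
        (ext P a b (insert w.2 (insert w.1 η)) : ℝ) ≤
      (∑ X ∈ A, (ext P a b (insert X η) : ℝ)) * (∑ Y ∈ B, (ext P a b (insert Y η) : ℝ)) /
          ext P a b η +
        lam * ((∑ X ∈ A, (ext P a b (insert X η) : ℝ)) +
          ∑ Y ∈ B, (ext P a b (insert Y η) : ℝ)) := by
  obtain ⟨X₀, hX₀⟩ := fits_nonempty hη hbot htop hs (by omega) hsη
  have hηs := hη.insert hs (by omega) hX₀
  have hX₀r := (mem_fits.mp hX₀).1
  have htX : t ∉ (insert X₀ η).image P.rk := by
    rw [Finset.image_insert, Finset.mem_insert, hX₀r]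
    exact fun h => h.elim (by omega) htη
  obtain ⟨Y₁, hY₁⟩ := fits_nonempty hηs hbot htop (by omega) ht htX
  obtain ⟨Y₀, hY₀⟩ := fits_nonempty hη hbot htop (by omega) ht htη
  set e := (ext P a b η : ℝ) with he
  set es := (ext P a b (insert X₀ η) : ℝ) with hes
  set et := (ext P a b (insert Y₀ η) : ℝ) with het
  set est := (ext P a b (insert Y₁ (insert X₀ η)) : ℝ) with hest
  have hes' : ∀ X ∈ fits P η s, (ext P a b (insert X η) : ℝ) = es := fun X hX => by
    rw [hes]
    exact_mod_cast ext_congr (hη.insert hs (by omega) hX) hηs hbot htop (by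
      rw [Finset.image_insert, Finset.image_insert, (mem_fits.mp hX).1, hX₀r])
  have het' : ∀ Y ∈ fits P η t, (ext P a b (insert Y η) : ℝ) = et := fun Y hY => by
    rw [het]
    exact_mod_cast ext_congr (hη.insert (by omega) ht hY)
      (hη.insert (by omega) ht hY₀) hbot htop (by
      rw [Finset.image_insert, Finset.image_insert, (mem_fits.mp hY).1, (mem_fits.mp hY₀).1])
  have hfitsX : ∀ X ∈ fits P η s, fits P (insert X η) t =
      (fits P η t).filter fun Y => X ≤ Y := by
    intro X hX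
    ext Y
    simp only [mem_fits, Finset.mem_filter, Finset.forall_mem_insert]
    constructor
    · rintro ⟨hYt, h1, h2⟩
      refine ⟨⟨hYt, h2⟩, ?_⟩
      rcases h1 with h | h
      · exact h
      · have := P.mono h; have := (mem_fits.mp hX).1; omega
    · rintro ⟨⟨hYt, h2⟩, h1⟩
      exact ⟨hYt, Or.inl h1, h2⟩
  have hest' : ∀ X ∈ fits P η s, ∀ Y ∈ fits P η t, X ≤ Y →
      (ext P a b (insert Y (insert X η)) : ℝ) = est := fun X hX Y hY hle => by
    rw [hest]
    have hY' : Y ∈ fits P (insert X η) t := by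
      rw [hfitsX X hX]; exact Finset.mem_filter.mpr ⟨hY, hle⟩
    exact_mod_cast ext_congr ((hη.insert hs (by omega) hX).insert (by omega) ht hY')
      (hηs.insert (by omega) ht hY₁) hbot htop (by
      simp only [Finset.image_insert, (mem_fits.mp hX).1, hX₀r, (mem_fits.mp hY).1,
        (mem_fits.mp hY₁).1])
  have hEs : e = (fits P η s).card * es := by
    rw [he, ext_eq_sum hη hs (by omega) hsη]
    push_cast
    rw [Finset.sum_congr rfl hes', Finset.sum_const, nsmul_eq_mul]
  have hEt : e = (fits P η t).card * et := by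
    rw [he, ext_eq_sum hη (by omega) ht htη]
    push_cast
    rw [Finset.sum_congr rfl het', Finset.sum_const, nsmul_eq_mul]
  have hEst : ∀ X ∈ fits P η s, es = ((fits P η t).filter fun Y => X ≤ Y).card * est := by
    intro X hX
    have htX' : t ∉ (insert X η).image P.rk := by
      rw [Finset.image_insert, Finset.mem_insert, (mem_fits.mp hX).1]
      exact fun h => h.elim (by omega) htη
    rw [← hes' X hX, ext_eq_sum (hη.insert hs (by omega) hX) (by omega) ht htX', hfitsX X hX]
    push_cast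
    rw [Finset.sum_congr rfl (g := fun _ => est) (fun Y hY => hest' X hX Y
      (Finset.mem_filter.mp hY).1 (Finset.mem_filter.mp hY).2), Finset.sum_const, nsmul_eq_mul]
  have hepos : 0 < e := by rw [he]; exact_mod_cast ext_pos hη hbot htop
  have hes0 : 0 ≤ es := Nat.cast_nonneg _
  have het0 : 0 ≤ et := Nat.cast_nonneg _
  have hest0 : 0 ≤ est := Nat.cast_nonneg _
  have hns : (0 : ℝ) < (fits P η s).card := by
    exact_mod_cast Finset.card_pos.mpr ⟨X₀, hX₀⟩
  have hnt : (0 : ℝ) < (fits P η t).card := by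
    exact_mod_cast Finset.card_pos.mpr ⟨Y₀, hY₀⟩
  rw [Finset.sum_congr rfl (g := fun _ => est) (fun w hw => by
      obtain ⟨h1, h2⟩ := Finset.mem_filter.mp hw
      obtain ⟨h3, h4⟩ := Finset.mem_product.mp h1
      exact hest' w.1 (hA h3) w.2 (hB h4) h2),
    Finset.sum_const, nsmul_eq_mul, Finset.sum_congr rfl fun X hX => hes' X (hA hX),
    Finset.sum_congr rfl fun Y hY => het' Y (hB hY), Finset.sum_const, Finset.sum_const,
    nsmul_eq_mul, nsmul_eq_mul]
  by_cases hgap : ∃ R ∈ η, s < P.rk R ∧ P.rk R < t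
  · obtain ⟨R, hR, hsR, hRt⟩ := hgap
    have hle : ∀ X ∈ fits P η s, ∀ Y ∈ fits P η t, X ≤ Y := by
      intro X hX Y hY
      obtain ⟨hXr, hXc⟩ := mem_fits.mp hX
      obtain ⟨hYr, hYc⟩ := mem_fits.mp hY
      have h1 : X ≤ R := (hXc R hR).resolve_left fun h => by have := P.mono h; omega
      have h2 : R ≤ Y := (hYc R hR).resolve_right fun h => by have := P.mono h; omega
      exact h1.trans h2
    have hall : es = (fits P η t).card * est := by
      rw [hEst X₀ hX₀, Finset.filter_true_of_mem (hle X₀ hX₀)]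
    have hcnt : (((A ×ˢ B).filter fun w => w.1 ≤ w.2).card : ℝ) ≤ (A.card : ℝ) * B.card := by
      exact_mod_cast (Finset.card_filter_le _ _).trans (le_of_eq (Finset.card_product A B))
    have heq : (A.card : ℝ) * es * (B.card * et) / e = (A.card : ℝ) * B.card * est := by
      rw [div_eq_iff hepos.ne', hEt, hall]; ring
    have h0 : 0 ≤ lam * ((A.card : ℝ) * es + B.card * et) := by positivity
    have := mul_le_mul_of_nonneg_right hcnt hest0
    linarith
  · push Not at hgap
    set lo := (η.filter fun S => P.rk S < s).sup id with hlo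
    set hi := (η.filter fun S => s < P.rk S).inf id with hhi
    have hne : ∀ R ∈ η, P.rk R ≠ s ∧ P.rk R ≠ t := fun R hR =>
      ⟨fun h => hsη (Finset.mem_image.mpr ⟨R, hR, h⟩),
        fun h => htη (Finset.mem_image.mpr ⟨R, hR, h⟩)⟩
    have hlot : (η.filter fun S => P.rk S < t) = η.filter fun S => P.rk S < s :=
      Finset.filter_congr fun R hR => by
        have := hgap R hR; have := hne R hR
        constructor <;> intro <;> omega
    have hhit : (η.filter fun S => t < P.rk S) = η.filter fun S => s < P.rk S :=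
      Finset.filter_congr fun R hR => by
        have := hgap R hR; have := hne R hR
        constructor <;> intro <;> omega
    have hls : fits P η s = P.level lo hi s := fits_eq_level hη hsη hlo hhi
    have hlt : fits P η t = P.level lo hi t :=
      fits_eq_level hη htη (by rw [hlot]) (by rw [hhit])
    have hlh : lo ≤ hi := lo_le_hi hη s
    have hlor : P.rk lo ≤ s := lo_rk_le hη hbot hs
    have hhir : t ≤ P.rk hi := by
      have := hi_rk_ge hη htop ht
      rwa [hhit] at this
    obtain ⟨s', hs'⟩ : ∃ s', s = P.rk lo + s' := ⟨s - P.rk lo, by omega⟩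
    obtain ⟨t', ht'⟩ : ∃ t', t = P.rk lo + t' := ⟨t - P.rk lo, by omega⟩
    replace hls : fits P η s = P.level lo hi (P.rk lo + s') := by rw [hls, ← hs']
    replace hlt : fits P η t = P.level lo hi (P.rk lo + t') := by rw [hlt, ← ht']
    rw [hls] at hA
    rw [hlt] at hB
    have hm := P.mixing hlh (s := s') (t := t') (by omega) (by omega) A B hA hB hlam hq
    rw [← hls, ← hlt] at hm
    set ns := ((fits P η s).card : ℝ) with hnsdef
    set nt := ((fits P η t).card : ℝ) with hntdef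
    -- the number of pairs, counted from below
    have htot : ns * es = nt * (G t' s' : ℝ) * est := by
      have hX₀' : X₀ ∈ P.level lo hi (P.rk lo + s') := hls ▸ hX₀
      obtain ⟨h1, h2, h3⟩ := P.mem_level.mp hX₀'
      have hc : ((fits P η t).filter fun Y => X₀ ≤ Y).card =
          G (P.rk hi - P.rk lo - s') (t' - s') := by
        have : (fits P η t).filter (fun Y => X₀ ≤ Y) =
            P.level X₀ hi (P.rk lo + t') := by
          rw [hlt]
          ext Y
          simp only [Finset.mem_filter, Geo.mem_level]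
          exact ⟨fun ⟨⟨_, u, v⟩, w⟩ => ⟨w, u, v⟩, fun ⟨w, u, v⟩ => ⟨⟨h1.trans w, u, v⟩, w⟩⟩
        rw [this, P.card_level h2 (by omega)]
        congr 1 <;> omega
      have hd := P.double_count hlh (e := s') (s := t') (by omega)
      rw [hEst X₀ hX₀, hc, hnsdef, hntdef, hls, hlt, P.card_level hlh (Nat.le_add_right _ _),
        P.card_level hlh (Nat.le_add_right _ _), Nat.add_sub_cancel_left, Nat.add_sub_cancel_left]
      have hd' : (G (P.rk hi - P.rk lo) s' : ℝ) *
          (G (P.rk hi - P.rk lo - s') (t' - s') : ℝ) =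
          (G (P.rk hi - P.rk lo) t' : ℝ) * (G t' s' : ℝ) := by exact_mod_cast hd
      linear_combination est * hd'
    have he' : e = nt * (G t' s' : ℝ) * est := by rw [hEs]; exact htot
    have hns0 : ns ≠ 0 := hns.ne'
    have hnt0 : nt ≠ 0 := hnt.ne'
    have hes0' : es ≠ 0 := fun h => by rw [hEs, h, mul_zero] at hepos; exact lt_irrefl _ hepos
    have het0' : et ≠ 0 := fun h => by rw [hEt, h, mul_zero] at hepos; exact lt_irrefl _ hepos
    have hα : (A.card : ℝ) / ns = (A.card : ℝ) * es / e := by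
      rw [div_eq_div_iff hns0 hepos.ne', hEs]; ring
    have hβ : (B.card : ℝ) / nt = (B.card : ℝ) * et / e := by
      rw [div_eq_div_iff hnt0 hepos.ne', hEt]; ring
    rw [hα, hβ] at hm
    refine (mul_le_mul_of_nonneg_right hm hest0).trans (le_of_eq ?_)
    rw [mul_right_comm, ← he']
    exact mixing_algebra hepos.ne' _ _ _

open Classical in
/-- The link graphs mix. -/
theorem link_mixing (hbot : P.rk ⊥ ≤ a) (htop : b ≤ P.rk ⊤) (hab : a ≤ b) {lam : ℝ}
    (hlam : 0 ≤ lam) (hq : 4 ≤ lam ^ 2 * q) :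
    LinkMixing (flags P a b) (b - a) (((b - a + 1 : ℕ) : ℝ) ^ 2)
      (2 * ((b - a + 1 : ℕ) : ℝ) ^ 2 * lam) := by
  intro η hηc hηF A hA hAη
  obtain ⟨hηf, -⟩ := (mem_faces_flags hbot htop).mp hηF
  set F := flags P a b with hF
  set AX := Finset.univ.filter fun X => X ∉ η ∧ insert X η ∈ A with hAX
  have hAXf : ∀ X ∈ AX, a ≤ P.rk X ∧ P.rk X ≤ b ∧ P.rk X ∉ η.image P.rk ∧
      X ∈ fits P η (P.rk X) := by
    intro X hX
    obtain ⟨-, hXη, hXA⟩ := Finset.mem_filter.mp hX
    obtain ⟨hf, -⟩ := (mem_faces_flags hbot htop).mp (hA hXA)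
    have hXm : X ∈ insert X η := Finset.mem_insert_self _ _
    refine ⟨(hf.1 X hXm).1, (hf.1 X hXm).2, fun h => ?_, mem_fits.mpr ⟨rfl, fun S hS =>
      hf.2 S (Finset.mem_insert_of_mem hS) X hXm⟩⟩
    obtain ⟨S, hS, hSr⟩ := Finset.mem_image.mp h
    exact hXη (hf.injOn (Finset.mem_insert_of_mem hS) hXm hSr ▸ hS)
  have hmassA : (mass F A : ℝ) = ∑ X ∈ AX, (ext P a b (insert X η) : ℝ) := by
    rw [mass]
    push_cast
    refine (Finset.sum_nbij (fun X => insert X η) ?_ ?_ ?_ (fun X _ => rfl)).symm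
    · exact fun X hX => (Finset.mem_filter.mp hX).2.2
    · intro X hX Y hY he
      have he' : insert X η = insert Y η := he
      have h1 : X ∈ insert Y η := he' ▸ Finset.mem_insert_self _ _
      exact (Finset.mem_insert.mp h1).resolve_right (Finset.mem_filter.mp hX).2.1
    · intro σ hσ
      have hσc := ((mem_faces_flags hbot htop).mp (hA hσ)).2
      obtain ⟨X, hX⟩ : ∃ X, σ \ η = {X} := Finset.card_eq_one.mp (by
        rw [Finset.card_sdiff_of_subset (hAη σ hσ)]; omega)
      have hXm : X ∈ σ ∧ X ∉ η := by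
        rw [← Finset.mem_sdiff, hX]; exact Finset.mem_singleton_self X
      have heq : insert X η = σ := Finset.eq_of_subset_of_card_le
        (Finset.insert_subset hXm.1 (hAη σ hσ))
        (by rw [Finset.card_insert_of_notMem hXm.2]; omega)
      exact ⟨X, Finset.mem_filter.mpr ⟨Finset.mem_univ _, hXm.2, heq ▸ hσ⟩, heq⟩
  set types := ((Finset.Icc a b) ×ˢ (Finset.Icc a b)).filter fun w => w.1 < w.2 with htypes
  set As : ℕ → Finset L := fun s => AX.filter fun X => P.rk X = s with hAs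
  have hcover : ((faces F (η.card + 2)).filter fun τ =>
      ∃ σ ∈ A, ∃ σ' ∈ A, σ ≠ σ' ∧ σ ⊆ τ ∧ σ' ⊆ τ) ⊆
      types.biUnion fun w => ((As w.1 ×ˢ As w.2).filter fun z => z.1 ≤ z.2).image
        fun z => insert z.2 (insert z.1 η) := by
    intro τ hτ
    obtain ⟨hτF, σ, hσ, σ', hσ', hne, hστ, hσ'τ⟩ := Finset.mem_filter.mp hτ
    obtain ⟨hτf, hτc⟩ := (mem_faces_flags hbot htop).mp hτF
    have hget : ∀ σ ∈ A, ∃ X, X ∈ AX ∧ insert X η = σ := by
      intro σ hσ
      have hσc := ((mem_faces_flags hbot htop).mp (hA hσ)).2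
      obtain ⟨X, hX⟩ : ∃ X, σ \ η = {X} := Finset.card_eq_one.mp (by
        rw [Finset.card_sdiff_of_subset (hAη σ hσ)]; omega)
      have hXm : X ∈ σ ∧ X ∉ η := by
        rw [← Finset.mem_sdiff, hX]; exact Finset.mem_singleton_self X
      have heq : insert X η = σ := Finset.eq_of_subset_of_card_le
        (Finset.insert_subset hXm.1 (hAη σ hσ))
        (by rw [Finset.card_insert_of_notMem hXm.2]; omega)
      exact ⟨X, Finset.mem_filter.mpr ⟨Finset.mem_univ _, hXm.2, heq ▸ hσ⟩, heq⟩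
    obtain ⟨X, hX, rfl⟩ := hget σ hσ
    obtain ⟨Y, hY, rfl⟩ := hget σ' hσ'
    have hXY : X ≠ Y := fun h => hne (by rw [h])
    have hXτ : X ∈ τ := hστ (Finset.mem_insert_self _ _)
    have hYτ : Y ∈ τ := hσ'τ (Finset.mem_insert_self _ _)
    have hpair : ∀ U V, U ∈ AX → V ∈ AX → U ∈ τ → V ∈ τ → U ≠ V → P.rk U < P.rk V →
        τ ∈ types.biUnion fun w => ((As w.1 ×ˢ As w.2).filter fun z => z.1 ≤ z.2).image
          fun z => insert z.2 (insert z.1 η) := by
      intro U V hU hV hUτ hVτ hUV hlt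
      refine Finset.mem_biUnion.mpr ⟨(P.rk U, P.rk V), Finset.mem_filter.mpr
        ⟨Finset.mem_product.mpr ⟨Finset.mem_Icc.mpr (hτf.1 U hUτ),
          Finset.mem_Icc.mpr (hτf.1 V hVτ)⟩, hlt⟩,
        Finset.mem_image.mpr ⟨(U, V), Finset.mem_filter.mpr ⟨Finset.mem_product.mpr
          ⟨Finset.mem_filter.mpr ⟨hU, rfl⟩, Finset.mem_filter.mpr ⟨hV, rfl⟩⟩,
          hτf.le_of_rk hUτ hVτ hlt.le⟩, ?_⟩⟩
      refine Finset.eq_of_subset_of_card_le (Finset.insert_subset hVτ
        (Finset.insert_subset hUτ ((Finset.subset_insert X η).trans hστ))) ?_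
      have hUη := (Finset.mem_filter.mp hU).2.1
      have hVη := (Finset.mem_filter.mp hV).2.1
      rw [Finset.card_insert_of_notMem (by simp [Ne.symm hUV, hVη]),
        Finset.card_insert_of_notMem hUη, hτc]
    rcases lt_trichotomy (P.rk X) (P.rk Y) with h | h | h
    · exact hpair X Y hX hY hXτ hYτ hXY h
    · exact absurd (hτf.injOn hXτ hYτ h) hXY
    · exact hpair Y X hY hX hYτ hXτ hXY.symm h
  have hstep : (mass F ((faces F (η.card + 2)).filter fun τ =>
      ∃ σ ∈ A, ∃ σ' ∈ A, σ ≠ σ' ∧ σ ⊆ τ ∧ σ' ⊆ τ) : ℝ) ≤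
      ∑ w ∈ types, ∑ z ∈ (As w.1 ×ˢ As w.2).filter (fun z => z.1 ≤ z.2),
        (ext P a b (insert z.2 (insert z.1 η)) : ℝ) := by
    have h1 := (mass_mono (F := F) hcover).trans (mass_biUnion_le _ _)
    refine (Nat.cast_le.mpr h1).trans ?_
    push_cast
    refine Finset.sum_le_sum fun w _ => ?_
    rw [mass]
    push_cast
    exact Finset.sum_image_le_of_nonneg fun z _ => Nat.cast_nonneg _
  refine hstep.trans ?_
  set S : ℝ := (mass F A : ℝ) with hS
  have hS0 : 0 ≤ S := Nat.cast_nonneg _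
  have hpart : ∀ s, (∑ X ∈ As s, (ext P a b (insert X η) : ℝ)) ≤ S := fun s => by
    rw [hmassA]
    exact Finset.sum_le_sum_of_subset_of_nonneg (Finset.filter_subset _ _)
      fun _ _ _ => Nat.cast_nonneg _
  have hone : ∀ w ∈ types, ∑ z ∈ (As w.1 ×ˢ As w.2).filter (fun z => z.1 ≤ z.2),
      (ext P a b (insert z.2 (insert z.1 η)) : ℝ) ≤ S ^ 2 / cnt F η + 2 * lam * S := by
    intro w hw
    obtain ⟨hw1, hlt⟩ := Finset.mem_filter.mp hw
    obtain ⟨h1, h2⟩ := Finset.mem_product.mp hw1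
    rw [Finset.mem_Icc] at h1 h2
    have hR0 : 0 ≤ S ^ 2 / (cnt F η : ℝ) + 2 * lam * S := by positivity
    by_cases hex : (As w.1).Nonempty ∧ (As w.2).Nonempty
    · obtain ⟨⟨X, hX⟩, Y, hY⟩ := hex
      obtain ⟨hX1, hXr⟩ := Finset.mem_filter.mp hX
      obtain ⟨hY1, hYr⟩ := Finset.mem_filter.mp hY
      refine (type_bound hbot htop hηf h1.1 hlt h2.2 (hXr ▸ (hAXf X hX1).2.2.1)
        (hYr ▸ (hAXf Y hY1).2.2.1) (As w.1) (As w.2) ?_ ?_ hlam hq).trans ?_
      · intro Z hZ
        obtain ⟨hZ1, hZr⟩ := Finset.mem_filter.mp hZ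
        exact hZr ▸ (hAXf Z hZ1).2.2.2
      · intro Z hZ
        obtain ⟨hZ1, hZr⟩ := Finset.mem_filter.mp hZ
        exact hZr ▸ (hAXf Z hZ1).2.2.2
      · refine add_le_add ?_ ?_
        · rw [sq]
          refine div_le_div_of_nonneg_right (mul_le_mul (hpart _) (hpart _)
            (Finset.sum_nonneg fun _ _ => Nat.cast_nonneg _) hS0) (Nat.cast_nonneg _)
        · have := hpart w.1
          have := hpart w.2
          calc lam * ((∑ X ∈ As w.1, (ext P a b (insert X η) : ℝ)) +
              ∑ Y ∈ As w.2, (ext P a b (insert Y η) : ℝ)) ≤ lam * (S + S) := by gcongr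
            _ = _ := by ring
    · rw [Finset.sum_eq_zero]
      · exact hR0
      · intro z hz
        obtain ⟨hz1, -⟩ := Finset.mem_filter.mp hz
        exact absurd ⟨⟨z.1, (Finset.mem_product.mp hz1).1⟩, z.2, (Finset.mem_product.mp hz1).2⟩ hex
  refine (Finset.sum_le_sum hone).trans ?_
  rw [Finset.sum_const, nsmul_eq_mul]
  have hcard : (types.card : ℝ) ≤ ((b - a + 1 : ℕ) : ℝ) ^ 2 := by
    have : types.card ≤ (b - a + 1) ^ 2 := by
      refine (Finset.card_filter_le _ _).trans (le_of_eq ?_)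
      rw [Finset.card_product, Nat.card_Icc, sq]
      congr 1 <;> omega
    exact_mod_cast this
  calc (types.card : ℝ) * (S ^ 2 / (cnt F η : ℝ) + 2 * lam * S)
      ≤ ((b - a + 1 : ℕ) : ℝ) ^ 2 * (S ^ 2 / (cnt F η : ℝ) + 2 * lam * S) :=
        mul_le_mul_of_nonneg_right hcard (by positivity)
    _ = _ := by ring

end Vale.Agent.HDX.Q
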