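import Vale.Agent.HDX.Defs
import Vale.Agent.HDX.General

open Finset

namespace Vale.Agent.HDX.Q

variable {α β : Type*} [DecidableEq α] [DecidableEq β]

lemma faces_image {φ : α → β} (hφ : Function.Injective φ) (F : Finset (Finset α)) (j : ℕ) :
    faces (F.image (Finset.image φ)) j = (faces F j).image (Finset.image φ) := by
  ext σ
  simp only [mem_faces, Finset.mem_image]
  constructor
  · rintro ⟨⟨τ, ⟨τ₀, hτ₀, rfl⟩, hσ⟩, hc⟩
    obtain ⟨σ₀, hσ₀, rfl⟩ := Finset.subset_image_iff.mp hσ
    rw [Finset.card_image_of_injective _ hφ] at hc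
    exact ⟨σ₀, ⟨⟨τ₀, hτ₀, hσ₀⟩, hc⟩, rfl⟩
  · rintro ⟨σ₀, ⟨⟨τ₀, hτ₀, hσ₀⟩, hc⟩, rfl⟩
    exact ⟨⟨τ₀.image φ, ⟨τ₀, hτ₀, rfl⟩, Finset.image_subset_image hσ₀⟩,
      by rw [Finset.card_image_of_injective _ hφ, hc]⟩

lemma faceWeight_image {φ : α → β} (hφ : Function.Injective φ) (d : ℕ) (F : Finset (Finset α))
    (σ : Finset α) : faceWeight d (F.image (Finset.image φ)) (σ.image φ) = faceWeight d F σ := by
  have hinj : Function.Injective (Finset.image φ) := Finset.image_injective hφ
  rw [faceWeight, faceWeight, Finset.filter_image, Finset.card_image_of_injective _ hinj,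
    Finset.card_image_of_injective _ hinj, Finset.card_image_of_injective _ hφ]
  simp only [Finset.image_subset_image_iff hφ]

lemma coNorm_image {φ : α → β} (hφ : Function.Injective φ) (d j : ℕ) (F : Finset (Finset α))
    (u : Finset β → ZMod 2) :
    coNorm d (F.image (Finset.image φ)) j u = coNorm d F j fun σ => u (σ.image φ) := by
  rw [coNorm, coNorm, faces_image hφ, Finset.filter_image,
    Finset.sum_image (fun x _ y _ h => Finset.image_injective hφ h)]
  exact Finset.sum_congr rfl fun σ _ => faceWeight_image hφ d F σ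

lemma cobd_image {φ : α → β} (hφ : Function.Injective φ) (j : ℕ) (u : Finset β → ZMod 2)
    (σ : Finset α) : cobd j u (σ.image φ) = cobd j (fun η => u (η.image φ)) σ := by
  rw [cobd, cobd, show σ.image φ = σ.map ⟨φ, hφ⟩ from (Finset.map_eq_image ⟨φ, hφ⟩ σ).symm,
    Finset.powersetCard_map, Finset.sum_map]
  exact Finset.sum_congr rfl fun η _ => congrArg u (Finset.map_eq_image ⟨φ, hφ⟩ η)

/-- Renaming the vertices keeps coboundary expansion. -/
lemma expander_image {φ : α → β} (hφ : Function.Injective φ) {d : ℕ} {ε : ℝ}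
    {F : Finset (Finset α)} (h : IsCoboundaryExpander d ε F) :
    IsCoboundaryExpander d ε (F.image (Finset.image φ)) := by
  classical
  intro i hi f
  obtain ⟨g, hg⟩ := h i hi fun σ => f (σ.image φ)
  refine ⟨Function.extend (Finset.image φ) g 0, ?_⟩
  rw [coNorm_image hφ, coNorm_image hφ]
  convert hg using 3
  · funext σ
    rw [cobd_image hφ]
    simp [(Finset.image_injective hφ).extend_apply]
  · rename_i σ
    exact cobd_image hφ _ _ _

end Vale.Agent.HDX.Q
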