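import Vale.Agent.HDX.Q.LinkMix

open Finset

namespace Vale.Agent.HDX.Q

variable {L : Type*} [Lattice L] [BoundedOrder L] [Fintype L] [DecidableEq L] {q : ℕ}
  {G : ℕ → ℕ → ℕ} {P : Geo L q G} {a b : ℕ}

set_option linter.unusedSectionVars false

/-- Cocycles are coboundaries. -/
lemma flags_exact (hbot : P.rk ⊥ ≤ a) (htop : b ≤ P.rk ⊤) {j : ℕ} (hj : j + a ≤ b)
    (f : Finset L → ZMod 2) (hf : ∀ τ ∈ faces (flags P a b) (j + 1), cobd j f τ = 0) :
    ∃ g, ∀ σ ∈ faces (flags P a b) j, f σ = cobd (j - 1) g σ := by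
  classical
  have h0 : IsFlag P a b (∅ : Finset L) := ⟨by simp, by simp⟩
  obtain ⟨T, hT⟩ := Finset.card_pos.mp (ext_pos h0 hbot htop)
  obtain ⟨hTF, -⟩ := Finset.mem_filter.mp hT
  obtain ⟨C, hC⟩ := exists_link_cones P a b (by omega) hTF (Finset.empty_subset T)
  by_cases hj0 : j = 0
  · subst hj0
    refine ⟨f, fun σ hσ => ?_⟩
    have hσ0 : σ = ∅ := Finset.card_eq_zero.mp (mem_faces.mp hσ).2
    simp [hσ0, cobd]
  refine ⟨fun η => ev f (C η), fun σ hσ => ?_⟩
  obtain ⟨hσf, hσc⟩ := (mem_faces_flags hbot htop).mp hσ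
  obtain ⟨hs, hbd, -⟩ := hC σ (by simpa using hσf) (Finset.disjoint_empty_right σ)
    (by simpa [hσc] using hj)
  have h1 : ev f (bd (C σ)) = 0 := by
    rw [ev_bd f (hs.mono fun τ h => h.1.1)]
    by_contra hne
    obtain ⟨τ, hτ, hτne⟩ := exists_of_ev_ne_zero hne
    obtain ⟨hτs, -⟩ := hs τ hτ
    refine hτne ?_
    rw [hσc]
    refine hf τ ((mem_faces_flags hbot htop).mpr ⟨⟨fun S hS => ?_, hτs.2.2⟩, hσc ▸ hτs.1⟩)
    exact ⟨(hτs.2.1 S hS).2.2.1, (hτs.2.1 S hS).2.2.2.1⟩
  rw [hbd, map_add, map_sum] at h1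
  have h2 : ev f (Finsupp.single σ 1) = f σ := by simp [ev]
  rw [h2] at h1
  rw [cobd_eq_sum_erase _ σ (i := j - 1) (by omega)]
  calc f σ = f σ + (∑ x ∈ σ, ev f (C (σ.erase x)) + ∑ x ∈ σ, ev f (C (σ.erase x))) := by
        rw [ZModModule.add_self, add_zero]
    _ = _ := by rw [← add_assoc, h1, zero_add]

/-- The part of a complete chain of ranks at most `b + 1` below the last rank. -/
lemma IsFlag.mono_top {σ : Finset L} (h : IsFlag P a b σ) : IsFlag P a (b + 1) σ :=
  ⟨fun S hS => ⟨(h.1 S hS).1, (h.1 S hS).2.trans (Nat.le_succ b)⟩, h.2⟩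

/-- The number of ways to complete a chain by one more rank. -/
lemma ext_succ (hab : a ≤ b) {T₀ : Finset L} (hT₀ : T₀ ∈ flags P a b) (hbot : P.rk ⊥ ≤ a)
    (htop : b + 1 ≤ P.rk ⊤) {σ : Finset L} (hσ : IsFlag P a b σ) :
    ext P a (b + 1) σ = ext P a (b + 1) T₀ * ext P a b σ := by
  classical
  have hmap : ∀ Φ ∈ (flags P a (b + 1)).filter (fun τ => σ ⊆ τ),
      Φ.filter (fun S => P.rk S ≤ b) ∈ (flags P a b).filter fun τ => σ ⊆ τ := by
    intro Φ hΦ
    obtain ⟨hΦF, hσΦ⟩ := Finset.mem_filter.mp hΦ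
    have hf := (mem_flags.mp hΦF).1
    have hlow : IsFlag P a b (Φ.filter fun S => P.rk S ≤ b) :=
      ⟨fun S hS => ⟨(hf.1 S (Finset.mem_filter.mp hS).1).1, (Finset.mem_filter.mp hS).2⟩,
        fun S hS R hR => hf.2 S (Finset.mem_filter.mp hS).1 R (Finset.mem_filter.mp hR).1⟩
    refine Finset.mem_filter.mpr ⟨mem_flags.mpr ⟨hlow, le_antisymm hlow.card_le ?_⟩,
      fun S hS => Finset.mem_filter.mpr ⟨hσΦ hS, (hσ.1 S hS).2⟩⟩
    rw [← Nat.card_Icc]
    refine (Finset.card_le_card (t := (Φ.filter fun S => P.rk S ≤ b).image P.rk)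
      fun r hr => ?_).trans Finset.card_image_le
    rw [Finset.mem_Icc] at hr
    obtain ⟨S, hS, hSr⟩ := exists_rank_mem hΦF hr.1 (hr.2.trans (Nat.le_succ b))
    exact Finset.mem_image.mpr ⟨S, Finset.mem_filter.mpr ⟨hS, hSr ▸ hr.2⟩, hSr⟩
  rw [ext, Finset.card_eq_sum_card_fiberwise hmap]
  refine (Finset.sum_const_nat (m := ext P a (b + 1) T₀) fun Φ₀ hΦ₀ => ?_).trans (mul_comm _ _)
  obtain ⟨hΦ₀F, hσΦ₀⟩ := Finset.mem_filter.mp hΦ₀
  obtain ⟨hΦ₀f, hΦ₀c⟩ := mem_flags.mp hΦ₀F
  have hset : ((flags P a (b + 1)).filter fun τ => σ ⊆ τ).filter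
      (fun Φ => Φ.filter (fun S => P.rk S ≤ b) = Φ₀) =
      (flags P a (b + 1)).filter fun τ => Φ₀ ⊆ τ := by
    ext Φ
    simp only [Finset.mem_filter]
    constructor
    · rintro ⟨⟨h1, -⟩, h3⟩
      exact ⟨h1, h3 ▸ Finset.filter_subset _ _⟩
    · rintro ⟨h1, h2⟩
      refine ⟨⟨h1, hσΦ₀.trans h2⟩, (Finset.eq_of_subset_of_card_le
        (fun S hS => Finset.mem_filter.mpr ⟨h2 hS, (hΦ₀f.1 S hS).2⟩) ?_).symm⟩
      rw [hΦ₀c]
      refine IsFlag.card_le (P := P) ⟨fun S hS => ?_, fun S hS R hR => ?_⟩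
      · exact ⟨((mem_flags.mp h1).1.1 S (Finset.mem_filter.mp hS).1).1,
          (Finset.mem_filter.mp hS).2⟩
      · exact (mem_flags.mp h1).1.2 S (Finset.mem_filter.mp hS).1 R (Finset.mem_filter.mp hR).1
  rw [hset]
  exact ext_congr hΦ₀f.mono_top (mem_flags.mp hT₀).1.mono_top hbot htop
    (by rw [flag_image hΦ₀F, flag_image hT₀])

/-- The total constant. -/
noncomputable def expandConst (D : ℕ) : ℝ :=
  let B : ℝ := 4 * ((D : ℝ) + 2) * ((2 : ℝ) ^ (D + 1)) ^ 3 * ((linkBound D : ℝ) + 1) *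
    (((D + 1 : ℕ) : ℝ) ^ 2 + 1)
  B * fatP (2 ^ (D + 1)) B (D + 1)

lemma one_le_expandConst (D : ℕ) : 1 ≤ expandConst D := by
  unfold expandConst
  have hC : (1 : ℝ) ≤ 2 ^ (D + 1) := one_le_pow₀ (by norm_num)
  have hB : (1 : ℝ) ≤ 4 * ((D : ℝ) + 2) * ((2 : ℝ) ^ (D + 1)) ^ 3 * ((linkBound D : ℝ) + 1) *
      (((D + 1 : ℕ) : ℝ) ^ 2 + 1) := by
    refine one_le_mul_of_one_le_of_one_le (one_le_mul_of_one_le_of_one_le
      (one_le_mul_of_one_le_of_one_le ?_ (one_le_pow₀ hC)) (by simp)) (by simp; positivity)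
    have : (0 : ℝ) ≤ D := Nat.cast_nonneg _
    linarith
  exact one_le_mul_of_one_le_of_one_le hB (one_le_fatP hC hB _)

/-- Expansion of the complex of complete chains with ranks `a, …, b`. -/
theorem flags_mass_expansion (hbot : P.rk ⊥ ≤ a) (htop : b + 1 ≤ P.rk ⊤) (hab : a ≤ b)
    (hH : Homog P a (b + 1)) {lam : ℝ} (hlam : 0 ≤ lam) (hq : 4 ≤ lam ^ 2 * q)
    (hsmall : 2 * ((b + 1 - a + 1 : ℕ) : ℝ) ^ 2 * lam * expandConst (b + 1 - a) ≤ 1)
    {j : ℕ} (hj : j + a ≤ b) (f : Finset L → ZMod 2) :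
    ∃ g, (mass (flags P a b) (suppOn (flags P a b) j fun σ => f σ + cobd (j - 1) g σ) : ℝ) ≤
      (2 : ℝ) ^ (b + 1 - a + 1) * expandConst (b + 1 - a) *
        ((linkBound (b + 1 - a) : ℝ) + 1) *
          mass (flags P a b) (suppOn (flags P a b) (j + 1) (cobd j f)) := by
  classical
  set F := flags P a b with hF
  set Y := flags P a (b + 1) with hY
  set D := b + 1 - a with hD
  set S₀ := suppOn F (j + 1) (cobd j f) with hS₀
  have hbtop : b ≤ P.rk ⊤ := by omega
  have h0 : IsFlag P a b (∅ : Finset L) := ⟨by simp, by simp⟩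
  obtain ⟨T₀, hT₀'⟩ := Finset.card_pos.mp (ext_pos h0 hbot hbtop)
  obtain ⟨hT₀, -⟩ := Finset.mem_filter.mp hT₀'
  set κ := ext P a (b + 1) T₀ with hκ
  have hκ0 : 0 < κ := ext_pos (mem_flags.mp hT₀).1.mono_top hbot htop
  have hκS : ∀ {i : ℕ} (S : Finset (Finset L)), S ⊆ faces F i → mass Y S = κ * mass F S := by
    intro i S hS
    rw [mass, mass, Finset.mul_sum]
    exact Finset.sum_congr rfl fun σ hσ =>
      ext_succ hab hT₀ hbot htop ((mem_faces_flags hbot hbtop).mp (hS hσ)).1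
  -- apexes
  set SX : L → Finset (Finset L) := fun X =>
    (faces Y (j + 1 + 1)).filter fun τ => X ∈ τ ∧ τ.erase X ∈ S₀ with hSX
  have hapex : ∀ X : L, ∃ C : Finset L → Ch L, ∃ e : L ≃o L, P.rk X = b + 1 →
      (∀ x, P.rk (e x) = P.rk x) ∧ e X = X ∧
      (∀ σ, IsFlag P a (b + 1) ({X} ∪ σ) → Disjoint σ {X} →
        σ.card + 1 + a ≤ b + 1 →
        Supp (fun τ => Simp P ⊤ ⊥ a (b + 1) {X} (σ.card + 1) τ) (C σ) ∧
          bd (C σ) = Finsupp.single σ 1 + ∑ x ∈ σ, C (σ.erase x)) ∧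
      mass Y ((faces Y (j + 1)).filter fun σ => X ∈ σ ∧
          ∃ τ ∈ (C (σ \ {X})).support, ({X} ∪ τ).image e ∈ SX X) ≤
        linkBound D * mass Y (SX X) := by
    intro X
    by_cases hX : P.rk X = b + 1
    · have hρ : IsFlag P a (b + 1) ({X} : Finset L) := by
        refine ⟨fun S hS => ?_, fun S hS R hR => ?_⟩
        · rw [Finset.mem_singleton.mp hS]; omega
        · rw [Finset.mem_singleton.mp hS, Finset.mem_singleton.mp hR]; exact Or.inl le_rfl
      obtain ⟨T, -, C, hC, e, he, hle⟩ := exists_good_cones hbot htop hH hρ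
        (Finset.singleton_nonempty X) (c := j + 1) (by omega) (SX X)
      obtain ⟨her, heρ⟩ := mem_autos.mp he
      refine ⟨C, e, fun _ => ⟨her, by simpa using heρ, fun σ h1 h2 h3 => ?_, ?_⟩⟩
      · obtain ⟨h4, h5, -⟩ := hC σ h1 h2 (by simpa using h3)
        exact ⟨h4.mono fun τ h => h.1, h5⟩
      · simpa [Finset.singleton_subset_iff] using hle
    · exact ⟨fun _ => 0, OrderIso.refl L, fun h => absurd h hX⟩
  choose C e hCe using hapex
  -- the extension to the auxiliary complex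
  set val : L → Finset L → ZMod 2 := fun X σ =>
    ev (fun η => f (η.image (e X))) (C X ((σ.image (e X).symm).erase X)) with hval
  set πf : Finset L → ZMod 2 := fun σ =>
    if h : ∃ X ∈ σ, P.rk X = b + 1 then val h.choose σ else f σ with hπf
  have hlowflag : ∀ σ, IsFlag P a (b + 1) σ → (¬ ∃ X ∈ σ, P.rk X = b + 1) →
      IsFlag P a b σ := fun σ h hno => ⟨fun S hS => ⟨(h.1 S hS).1, by
        have h1 := (h.1 S hS).2
        have h2 : P.rk S ≠ b + 1 := fun h2 => hno ⟨S, hS, h2⟩
        omega⟩, h.2⟩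
  have hπlow : ∀ σ : Finset L, (¬ ∃ X ∈ σ, P.rk X = b + 1) → πf σ = f σ := fun σ hσ => by
    simp only [hπf]; rw [dif_neg hσ]
  have hπhigh : ∀ σ : Finset L, IsFlag P a (b + 1) σ → ∀ X ∈ σ, P.rk X = b + 1 →
      πf σ = val X σ := fun σ hσ X hX hXr => by
    have h : ∃ X ∈ σ, P.rk X = b + 1 := ⟨X, hX, hXr⟩
    simp only [hπf]
    rw [dif_pos h, hσ.injOn h.choose_spec.1 hX (h.choose_spec.2.trans hXr.symm)]
  set bad : L → Finset (Finset L) := fun X => (faces Y (j + 1)).filter fun σ => X ∈ σ ∧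
    ∃ τ ∈ (C X (σ \ {X})).support, ({X} ∪ τ).image (e X) ∈ SX X with hbad
  set Xs := Finset.univ.filter fun X => P.rk X = b + 1 with hXs
  have hcover : suppOn Y (j + 1) (cobd j πf) ⊆
      S₀ ∪ Xs.biUnion fun X => (bad X).image fun σ => σ.image (e X) := by
    intro τ hτ
    obtain ⟨hτY, hτne⟩ := Finset.mem_filter.mp hτ
    obtain ⟨hτf, hτc⟩ := (mem_faces_flags hbot htop).mp hτY
    rw [Finset.mem_union]
    by_cases htopel : ∃ X ∈ τ, P.rk X = b + 1
    · obtain ⟨X, hXτ, hXr⟩ := htopel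
      obtain ⟨her, heX, hC, -⟩ := hCe X hXr
      have hesr : ∀ x, P.rk ((e X).symm x) = P.rk x := fun x => by
        simpa using (her ((e X).symm x)).symm
      have hesX : (e X).symm X = X := by
        rw [OrderIso.symm_apply_eq]; exact heX.symm
      refine Or.inr (Finset.mem_biUnion.mpr ⟨X, Finset.mem_filter.mpr ⟨Finset.mem_univ _, hXr⟩,
        Finset.mem_image.mpr ⟨τ.image (e X).symm, ?_, image_image_symm (e X) τ⟩⟩)
      set τ' := τ.image (e X).symm with hτ'
      have hτ'f : IsFlag P a (b + 1) τ' := hτf.map hesr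
      have hτ'c : τ'.card = j + 1 :=
        (Finset.card_image_of_injective τ (e X).symm.injective).trans hτc
      have hXτ' : X ∈ τ' := Finset.mem_image.mpr ⟨X, hXτ, hesX⟩
      set η := τ' \ {X} with hη
      have hηe : η = τ'.erase X := Finset.sdiff_singleton_eq_erase X τ'
      have hηc : η.card = j := by rw [hηe, Finset.card_erase_of_mem hXτ']; omega
      obtain ⟨hs, hbd⟩ := hC η
        (by rwa [Finset.union_sdiff_of_subset (Finset.singleton_subset_iff.mpr hXτ')])
        Finset.sdiff_disjoint (by omega)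
      set g₁ : Finset L → ZMod 2 := fun η => f (η.image (e X)) with hg₁
      have hev : cobd j πf τ = ev (cobd η.card g₁) (C X η) := by
        rw [← ev_bd g₁ (hs.mono fun ν h => h.1), hbd, map_add, map_sum,
          cobd_eq_sum_erase πf τ hτc, ← Finset.add_sum_erase τ _ hXτ]
        congr 1
        · have hno : ¬ ∃ Z ∈ τ.erase X, P.rk Z = b + 1 := by
            rintro ⟨Z, hZ, hZr⟩
            exact Finset.ne_of_mem_erase hZ
              (hτf.injOn (Finset.mem_of_mem_erase hZ) hXτ (hZr.trans hXr.symm))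
          rw [hπlow _ hno]
          simp only [ev, Finsupp.linearCombination_single, one_smul, hg₁]
          congr 1
          rw [hηe, Finset.image_erase (e X).injective, heX, hτ', image_image_symm]
        · refine Finset.sum_nbij' (fun x => (e X).symm x) (fun y => e X y) ?_ ?_
            (fun x _ => (e X).apply_symm_apply x) (fun y _ => (e X).symm_apply_apply y) ?_
          · intro x hx
            obtain ⟨h1, h2⟩ := Finset.mem_erase.mp hx
            refine hηe ▸ Finset.mem_erase.mpr ⟨fun h => h1 ?_, Finset.mem_image_of_mem _ h2⟩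
            rw [← (e X).apply_symm_apply x, h, heX]
          · intro y hy
            rw [hηe] at hy
            obtain ⟨h1, h2⟩ := Finset.mem_erase.mp hy
            obtain ⟨x, hx, rfl⟩ := Finset.mem_image.mp h2
            refine Finset.mem_erase.mpr ⟨fun h => h1 ?_, by simpa using hx⟩
            have h' : x = X := ((e X).apply_symm_apply x).symm.trans h
            rw [h', hesX]
          · intro x hx
            obtain ⟨h1, h2⟩ := Finset.mem_erase.mp hx
            rw [hπhigh _ (hτf.subset (Finset.erase_subset x τ)) X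
              (Finset.mem_erase.mpr ⟨h1.symm, hXτ⟩) hXr]
            simp only [hval, hg₁]
            congr 2
            rw [hηe, Finset.image_erase (e X).symm.injective, ← hτ']
            exact Finset.erase_right_comm
      obtain ⟨ν, hν, hνne⟩ := exists_of_ev_ne_zero fun h => hτne (hev.trans h)
      obtain ⟨hνc, hνel, hνch⟩ := hs ν hν
      refine Finset.mem_filter.mpr ⟨(mem_faces_flags hbot htop).mpr ⟨hτ'f, hτ'c⟩, hXτ', ν, hν, ?_⟩
      have hXν : X ∉ ν := fun h => (hνel X h).2.2.2.2.1 (Finset.mem_singleton_self X)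
      have hlowν : IsFlag P a b ν := by
        refine hlowflag ν ⟨fun S hS => ⟨(hνel S hS).2.2.1, (hνel S hS).2.2.2.1⟩, hνch⟩ ?_
        rintro ⟨Z, hZ, hZr⟩
        refine hXν ?_
        have hZX : Z = X := by
          rcases (hνel Z hZ).2.2.2.2.2 X (Finset.mem_singleton_self X) with h | h
          · exact P.strict h (by omega)
          · exact (P.strict h (by omega)).symm
        exact hZX ▸ hZ
      have himg : ({X} ∪ ν).image (e X) = insert X (ν.image (e X)) := by
        rw [← Finset.insert_eq, Finset.image_insert, heX]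
      have hXim : X ∉ ν.image (e X) := fun h => by
        obtain ⟨x, hx, hxX⟩ := Finset.mem_image.mp h
        exact hXν ((e X).injective (hxX.trans heX.symm) ▸ hx)
      refine Finset.mem_filter.mpr ⟨(mem_faces_flags hbot htop).mpr ⟨?_, ?_⟩,
        by rw [himg]; exact Finset.mem_insert_self _ _, ?_⟩
      · refine IsFlag.map (⟨fun S hS => ?_, fun S hS R hR => ?_⟩) her
        · rcases Finset.mem_union.mp hS with h | h
          · rw [Finset.mem_singleton.mp h]; omega
          · exact ⟨(hνel S h).2.2.1, (hνel S h).2.2.2.1⟩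
        · rcases Finset.mem_union.mp hS with h | h <;> rcases Finset.mem_union.mp hR with h' | h'
          · rw [Finset.mem_singleton.mp h, Finset.mem_singleton.mp h']; exact Or.inl le_rfl
          · exact ((hνel R h').2.2.2.2.2 S h).symm
          · exact (hνel S h).2.2.2.2.2 R h'
          · exact hνch S h R h'
      · rw [himg, Finset.card_insert_of_notMem hXim,
          Finset.card_image_of_injective _ (e X).injective, hνc, hηc]
      · rw [himg, Finset.erase_insert hXim]
        refine Finset.mem_filter.mpr ⟨(mem_faces_flags hbot hbtop).mpr ⟨hlowν.map her, ?_⟩, ?_⟩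
        · rw [Finset.card_image_of_injective _ (e X).injective, hνc, hηc]
        · rw [← cobd_map (e X)]
          rw [hηc] at hνne
          exact hνne
    · refine Or.inl (Finset.mem_filter.mpr
        ⟨(mem_faces_flags hbot hbtop).mpr ⟨hlowflag τ hτf htopel, hτc⟩, fun h => hτne ?_⟩)
      rw [← h]
      refine Finset.sum_congr rfl fun σ hσ => hπlow σ ?_
      rintro ⟨X, hX, hXr⟩
      exact htopel ⟨X, (Finset.mem_powersetCard.mp hσ).1 hX, hXr⟩
  -- the coboundary of the extension is small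
  have hsum : ∑ X ∈ Xs, mass Y (SX X) ≤ κ * mass F S₀ := by
    calc ∑ X ∈ Xs, mass Y (SX X)
        ≤ ∑ X ∈ Xs, ∑ τ ∈ S₀,
            if X ∈ fits P τ (b + 1) then cnt Y (insert X τ) else 0 := by
          refine Finset.sum_le_sum fun X hX => ?_
          have hXr : P.rk X = b + 1 := (Finset.mem_filter.mp hX).2
          rw [← Finset.sum_filter, mass]
          refine le_of_eq (Finset.sum_nbij' (fun σ => σ.erase X) (fun τ => insert X τ) ?_ ?_
            ?_ ?_ ?_)
          · intro σ hσ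
            obtain ⟨h1, h2, h3⟩ := Finset.mem_filter.mp hσ
            obtain ⟨hσf, -⟩ := (mem_faces_flags hbot htop).mp h1
            exact Finset.mem_filter.mpr ⟨h3, mem_fits.mpr
              ⟨hXr, fun S hS => hσf.2 S (Finset.mem_of_mem_erase hS) X h2⟩⟩
          · intro τ hτ
            obtain ⟨h1, h2⟩ := Finset.mem_filter.mp hτ
            obtain ⟨hτf, hτc⟩ := (mem_faces_flags hbot hbtop).mp (Finset.mem_filter.mp h1).1
            have hXτ : X ∉ τ := fun h => by have := (hτf.1 X h).2; omega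
            refine Finset.mem_filter.mpr ⟨(mem_faces_flags hbot htop).mpr
              ⟨hτf.mono_top.insert (by omega) le_rfl h2, ?_⟩, Finset.mem_insert_self _ _, ?_⟩
            · rw [Finset.card_insert_of_notMem hXτ, hτc]
            · rwa [Finset.erase_insert hXτ]
          · intro σ hσ
            exact Finset.insert_erase (Finset.mem_filter.mp hσ).2.1
          · intro τ hτ
            obtain ⟨h1, -⟩ := Finset.mem_filter.mp hτ
            obtain ⟨hτf, -⟩ := (mem_faces_flags hbot hbtop).mp (Finset.mem_filter.mp h1).1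
            exact Finset.erase_insert fun h => by have := (hτf.1 X h).2; omega
          · intro σ hσ
            rw [Finset.insert_erase (Finset.mem_filter.mp hσ).2.1]
      _ = ∑ τ ∈ S₀, ext P a (b + 1) τ := by
          rw [Finset.sum_comm]
          refine Finset.sum_congr rfl fun τ hτ => ?_
          obtain ⟨hτf, -⟩ := (mem_faces_flags hbot hbtop).mp (Finset.mem_filter.mp hτ).1
          rw [ext_eq_sum hτf.mono_top (by omega : a ≤ b + 1) le_rfl fun h => by
            obtain ⟨S, hS, hSr⟩ := Finset.mem_image.mp h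
            have := (hτf.1 S hS).2
            omega, ← Finset.sum_filter]
          refine Finset.sum_congr ?_ fun X _ => cnt_flags _
          ext X
          simp only [hXs, Finset.mem_filter, Finset.mem_univ, true_and, mem_fits]
          tauto
      _ = κ * mass F S₀ := hκS (i := j + 1) S₀ (Finset.filter_subset _ _)
  have hδ : mass Y (suppOn Y (j + 1) (cobd j πf)) ≤ (linkBound D + 1) * (κ * mass F S₀) := by
    refine (mass_mono hcover).trans (mass_union_le.trans ?_)
    rw [hκS (i := j + 1) S₀ (Finset.filter_subset _ _), add_mul, one_mul, add_comm]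
    refine Nat.add_le_add_right ((mass_biUnion_le _ _).trans
      (le_trans ?_ (Nat.mul_le_mul_left _ hsum))) _
    rw [Finset.mul_sum]
    refine Finset.sum_le_sum fun X hX => ?_
    obtain ⟨her, -, -, hm⟩ := hCe X (Finset.mem_filter.mp hX).2
    refine le_trans (le_of_eq ?_) hm
    rw [mass, Finset.sum_image (fun x _ y _ h => Finset.image_injective (e X).injective h)]
    exact Finset.sum_congr rfl fun σ _ => cnt_map her
  -- expansion of the auxiliary complex
  set B : ℝ := 4 * ((D : ℝ) + 2) * ((2 : ℝ) ^ (D + 1)) ^ 3 * ((linkBound D : ℝ) + 1) *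
    (((D + 1 : ℕ) : ℝ) ^ 2 + 1) with hB
  have hE : expandConst D = B * fatP (2 ^ (D + 1)) B (D + 1) := rfl
  obtain ⟨g, hg⟩ := expansion (F := Y) (D := D) (j := j)
    (fun τ hτ => flags_card hτ (by omega)) (by omega) (K := linkBound D)
    (Nat.cast_nonneg _) (Cm := ((D + 1 : ℕ) : ℝ) ^ 2) (by positivity)
    (lam := 2 * ((D + 1 : ℕ) : ℝ) ^ 2 * lam) (by positivity)
    (link_expansion hbot htop hH (by omega)) (link_mixing hbot htop (by omega) hlam hq)
    le_rfl (hE ▸ hsmall) (flags_exact hbot htop (by omega)) πf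
  refine ⟨g, ?_⟩
  have hrest : κ * mass F (suppOn F j fun σ => f σ + cobd (j - 1) g σ) ≤
      mass Y (suppOn Y j fun σ => πf σ + cobd (j - 1) g σ) := by
    rw [← hκS (i := j) (suppOn F j fun σ => f σ + cobd (j - 1) g σ) (Finset.filter_subset _ _)]
    refine mass_mono fun σ hσ => ?_
    obtain ⟨hσF, hne⟩ := Finset.mem_filter.mp hσ
    obtain ⟨hσf, hσc⟩ := (mem_faces_flags hbot hbtop).mp hσF
    refine Finset.mem_filter.mpr ⟨(mem_faces_flags hbot htop).mpr ⟨hσf.mono_top, hσc⟩, ?_⟩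
    show πf σ + cobd (j - 1) g σ ≠ 0
    rw [hπlow σ fun ⟨X, hX, hXr⟩ => by have := (hσf.1 X hX).2; omega]
    exact hne
  rw [← hE] at hg
  have hκR : (0 : ℝ) < κ := by exact_mod_cast hκ0
  refine le_of_mul_le_mul_left ?_ hκR
  calc (κ : ℝ) * mass F (suppOn F j fun σ => f σ + cobd (j - 1) g σ)
      ≤ mass Y (suppOn Y j fun σ => πf σ + cobd (j - 1) g σ) := by exact_mod_cast hrest
    _ ≤ (2 : ℝ) ^ (D + 1) * expandConst D * mass Y (suppOn Y (j + 1) (cobd j πf)) := hg
    _ ≤ (2 : ℝ) ^ (D + 1) * expandConst D * ((linkBound D + 1) * (κ * mass F S₀) : ℕ) := by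
        have := one_le_expandConst D
        gcongr
    _ = _ := by push_cast; ring

/-- The expansion constant of the complexes. -/
noncomputable def finalConst (d : ℕ) : ℝ :=
  (2 : ℝ) ^ (d + 1) * ((2 : ℝ) ^ (d + 2) * expandConst (d + 1) * ((linkBound (d + 1) : ℝ) + 1))

lemma finalConst_pos (d : ℕ) : 0 < finalConst d := by
  unfold finalConst
  have := one_le_expandConst (d + 1)
  positivity

/-- The chains of ranks `a, …, a + d` form a coboundary expander. -/
theorem flags_expander {d : ℕ} (hbot : P.rk ⊥ ≤ a) (htop : a + d + 1 ≤ P.rk ⊤)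
    (hH : Homog P a (a + d + 1)) {lam : ℝ} (hlam : 0 ≤ lam) (hq : 4 ≤ lam ^ 2 * q)
    (hsmall : 2 * ((d + 2 : ℕ) : ℝ) ^ 2 * lam * expandConst (d + 1) ≤ 1) :
    IsCoboundaryExpander d (1 / finalConst d) (flags P a (a + d)) := by
  classical
  intro i hi f
  have hD : a + d + 1 - a = d + 1 := by omega
  obtain ⟨g, hg⟩ := flags_mass_expansion (b := a + d) hbot htop (by omega) hH hlam hq
    (by rw [hD]; exact hsmall) (j := i + 1) (by omega) f
  rw [hD, Nat.add_sub_cancel] at hg
  refine ⟨g, ?_⟩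
  set F := flags P a (a + d) with hF
  have hF0 : (0 : ℝ) < F.card := by
    have h0 : IsFlag P a (a + d) (∅ : Finset L) := ⟨by simp, by simp⟩
    obtain ⟨T, hT⟩ := Finset.card_pos.mp (ext_pos h0 hbot (by omega))
    exact_mod_cast Finset.card_pos.mpr ⟨T, (Finset.mem_filter.mp hT).1⟩
  have hnorm : ∀ (c : ℕ) (u : Finset L → ZMod 2), coNorm d F c u =
      (mass F (suppOn F c u) : ℝ) / ((((d + 1).choose c : ℕ) : ℝ) * F.card) := by
    intro c u
    rw [mass]
    push_cast
    rw [Finset.sum_div]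
    refine Finset.sum_congr rfl fun σ hσ => ?_
    rw [faceWeight, (mem_faces.mp (Finset.mem_filter.mp hσ).1).2]
    rfl
  have hsub : (fun σ => f σ - cobd i g σ) = fun σ => f σ + cobd i g σ :=
    funext fun σ => CharTwo.sub_eq_add _ _
  rw [hnorm, hnorm, hsub, one_div, inv_mul_le_iff₀ (finalConst_pos d)]
  set m1 : ℝ := (mass F (suppOn F (i + 1) fun σ => f σ + cobd i g σ) : ℝ)
  set m2 : ℝ := (mass F (suppOn F (i + 1 + 1) (cobd (i + 1) f)) : ℝ)
  have hc1 : (1 : ℝ) ≤ ((d + 1).choose (i + 1) : ℕ) := by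
    exact_mod_cast Nat.choose_pos (by omega : i + 1 ≤ d + 1)
  have hc2 : (((d + 1).choose (i + 2) : ℕ) : ℝ) ≤ 2 ^ (d + 1) := by
    exact_mod_cast Nat.choose_le_two_pow (d + 1) (i + 2)
  have hc20 : (0 : ℝ) < ((d + 1).choose (i + 2) : ℕ) := by
    exact_mod_cast Nat.choose_pos (by omega : i + 2 ≤ d + 1)
  have hm2 : 0 ≤ m2 := Nat.cast_nonneg _
  have hX0 : 0 ≤ (2 : ℝ) ^ (d + 1 + 1) * expandConst (d + 1) *
      ((linkBound (d + 1) : ℝ) + 1) * m2 := by
    have := one_le_expandConst (d + 1)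
    positivity
  calc m1 / ((((d + 1).choose (i + 1) : ℕ) : ℝ) * F.card)
      ≤ m1 / F.card := div_le_div_of_nonneg_left (Nat.cast_nonneg _) hF0
          (le_mul_of_one_le_left hF0.le hc1)
    _ ≤ (2 : ℝ) ^ (d + 1 + 1) * expandConst (d + 1) * ((linkBound (d + 1) : ℝ) + 1) * m2 /
          F.card := div_le_div_of_nonneg_right hg hF0.le
    _ ≤ (2 : ℝ) ^ (d + 1 + 1) * expandConst (d + 1) * ((linkBound (d + 1) : ℝ) + 1) * m2 /
          F.card * ((2 : ℝ) ^ (d + 1) / ((d + 1).choose (i + 2) : ℕ)) :=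
        le_mul_of_one_le_right (by positivity) ((one_le_div hc20).mpr hc2)
    _ = finalConst d * (m2 / ((((d + 1).choose (i + 2) : ℕ) : ℝ) * F.card)) := by
        rw [finalConst]
        field_simp

end Vale.Agent.HDX.Q
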